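import Vale.Agent.P262.H118.K2b

/-!
# P262, milestone 2: sums over lives, windows and rotations on the time axis `K2`
-/

namespace Vale.Agent.P262.H118

open RealInnerProductSpace Module Vale.Agent.P262.H274

/-! ### regrouping a sum according to a partition of the time axis -/

lemma en_le_of_mem {B : Set ℕ} {T s e : ℕ} (hse : s < e) (he : e ∈ B ∨ e = T) :
    en B T s ≤ e := by
  by_contra hcon
  push Not at hcon
  rcases he with h | h
  · exact not_mem_of_en hse hcon h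
  · have := en_le B T s
    omega

/-- **regrouping**: a sum over `[s, e)` is the sum over the intervals of the partition `B`. -/
theorem sum_regroup {M : Type*} [AddCommMonoid M] (B : Set ℕ) (T : ℕ) (F : ℕ → M) :
    ∀ (n s e : ℕ), e - s = n → s ≤ e → e ≤ T → (s < T → s ∈ B) → (e ∈ B ∨ e = T) →
    ∑ t ∈ Finset.Ico s e, F t =
      ∑ a ∈ Finset.Ico s e, B.indicator (fun a => ∑ t ∈ Finset.Ico a (en B T a), F t) a := by
  classical
  intro n
  induction n using Nat.strong_induction_on with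
  | _ n ih =>
  intro s e hn hse heT hs he
  rcases hse.eq_or_lt with rfl | hlt
  · simp
  have hsT : s < T := by omega
  have hsB := hs hsT
  have h1 := iv_en hsB hsT
  have h2 := en_le_of_mem hlt he
  have h3 := h1.2.1
  set b := en B T s with hb
  rw [← Finset.sum_Ico_consecutive _ h3.le h2, ← Finset.sum_Ico_consecutive _ h3.le h2]
  congr 1
  · symm
    rw [Finset.sum_eq_single_of_mem s (Finset.mem_Ico.2 ⟨le_rfl, h3⟩)]
    · rw [Set.indicator_of_mem hsB]
    · intro a ha has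
      rw [Finset.mem_Ico] at ha
      exact Set.indicator_of_notMem (h1.2.2.2.2 a (by omega) ha.2) _
  · refine ih (e - b) (by omega) b e rfl h2 heT (fun hbT => ?_) he
    rcases h1.2.2.2.1 with h | h
    · exact h
    · omega

lemma sum_regroup_iv {M : Type*} [AddCommMonoid M] {B B' : Set ℕ} {T s e : ℕ} (h : Iv B' T s e)
    (hB : B' ⊆ B) (F : ℕ → M) :
    ∑ t ∈ Finset.Ico s e, F t =
      ∑ a ∈ Finset.Ico s e, B.indicator (fun a => ∑ t ∈ Finset.Ico a (en B T a), F t) a :=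
  sum_regroup B T F _ s e rfl h.2.1.le h.2.2.1 (fun _ => hB h.1) (h.2.2.2.1.imp (fun h => hB h) id)

/-- the whole time axis. -/
lemma sum_regroup_all {M : Type*} [AddCommMonoid M] {B : Set ℕ} (h0 : 0 ∈ B) (T : ℕ) (F : ℕ → M) :
    ∑ t ∈ Finset.range T, F t =
      ∑ a ∈ Finset.range T, B.indicator (fun a => ∑ t ∈ Finset.Ico a (en B T a), F t) a := by
  rw [Finset.range_eq_Ico]
  exact sum_regroup B T F _ 0 T rfl (Nat.zero_le _) le_rfl (fun _ => h0) (Or.inr rfl)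

variable {E : Type*} [NormedAddCommGroup E] [InnerProductSpace ℝ E] [FiniteDimensional ℝ E]
  {v : ℕ → E} {T : ℕ} {N : ℕ → ℝ} {δ ρ : ℝ}

namespace K2

variable (K : K2 v T N δ ρ)

/-- own dimension of a path at time `t`. -/
noncomputable def kd (q : List ℕ) (t : ℕ) : ℕ :=
  finrank ℝ (K.W q t) - finrank ℝ (K.W q.tail t)

lemma kd_cons (c : ℕ) (p : List ℕ) (t : ℕ) :
    K.kd (c :: p) t = finrank ℝ (K.W (c :: p) t) - finrank ℝ (K.W p t) := rfl

lemma finrank_cons (c : ℕ) (p : List ℕ) (t : ℕ) :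
    finrank ℝ (K.W (c :: p) t) = finrank ℝ (K.W p t) + K.kd (c :: p) t := by
  have h := Submodule.finrank_mono (K.W_le c p t)
  rw [K.kd_cons]
  omega

/-- the own dimension is constant on the lives. -/
lemma kd_const {c : ℕ} {p : List ℕ} {B : Set ℕ} (hB : K.nw (c :: p) ⊆ B) {s e : ℕ}
    (h : Iv B T s e) {t : ℕ} (h1 : s ≤ t) (h2 : t < e) : K.kd (c :: p) t = K.kd (c :: p) s := by
  rw [K.kd_cons, K.kd_cons, K.W_const hB h h1 h2, K.W_const ((K.nw_sub_nw p c).trans hB) h h1 h2]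

lemma one_le_kd {c : ℕ} {p : List ℕ} {t : ℕ} (ht : t < T) (h2 : 2 ≤ finrank ℝ (K.W p t)ᗮ) :
    1 ≤ K.kd (c :: p) t := by
  have := (K.dim_child (c := c) ht h2).1
  rw [K.kd_cons]
  omega

/-- **lives in a window**: `∑ w ^ k ≤ Cost`. -/
theorem lives_sum {p : List ℕ} {c s e : ℕ} (h2 : 2 ≤ finrank ℝ (K.W p s)ᗮ)
    (h : Iv (K.B p c) T s e) {w : ℝ} (hw : 0 ≤ w) (hwρ : w ≤ ρ) {u : ℕ → ℝ} {M : ℝ}
    (hM : 0 ≤ M) (hu : ∀ a, s ≤ a → a < e → a ∈ K.nw (c :: p) → u a ≤ M) :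
    ∑ a ∈ Finset.Ico s e, (K.nw (c :: p)).indicator (fun a => w ^ K.kd (c :: p) a * u a) a
      ≤ M * Cost (K.Sw p s (N c)) ρ s e := by
  have h3 := K.price h2 h
  refine le_trans ?_ (mul_le_mul_of_nonneg_left h3 hM)
  rw [Finset.mul_sum]
  refine Finset.sum_le_sum fun a ha => ?_
  rw [Finset.mem_Ico] at ha
  by_cases hmem : a ∈ K.nw (c :: p)
  · rw [Set.indicator_of_mem hmem, Set.indicator_of_mem hmem, ← K.kd_cons]
    have h4 : w ^ K.kd (c :: p) a ≤ ρ ^ K.kd (c :: p) a := pow_le_pow_left₀ hw hwρ _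
    have h5 : 0 ≤ w ^ K.kd (c :: p) a := pow_nonneg hw _
    have h6 := hu a ha.1 ha.2 hmem
    calc w ^ K.kd (c :: p) a * u a ≤ w ^ K.kd (c :: p) a * M := by gcongr
      _ ≤ ρ ^ K.kd (c :: p) a * M := by gcongr
      _ = M * ρ ^ K.kd (c :: p) a := mul_comm _ _
  · rw [Set.indicator_of_notMem hmem, Set.indicator_of_notMem hmem, mul_zero]

/-- every life of a child starting in a window has price `ρ ^ k ≤ Cost`. -/
theorem pow_le_cost {p : List ℕ} {c s e : ℕ} (hρ : 0 ≤ ρ) (h2 : 2 ≤ finrank ℝ (K.W p s)ᗮ)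
    (h : Iv (K.B p c) T s e) {t : ℕ} (h1 : s ≤ t) (h3 : t < e) :
    ρ ^ K.kd (c :: p) t ≤ Cost (K.Sw p s (N c)) ρ s e := by
  have ht : t < T := lt_of_lt_of_le h3 h.2.2.1
  have h4 := iv_st (K.zero_mem_nw (c :: p)) ht
  -- the start of the life lies in the window
  have h5 : s ≤ st (K.nw (c :: p)) t := by
    by_contra hcon
    push Not at hcon
    exact not_mem_of_st hcon h1 (K.B_sub_nw p c h.1)
  rw [K.kd_const subset_rfl h4.1 h4.2.1 h4.2.2]
  refine le_trans ?_ (K.price h2 h)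
  have h6 : st (K.nw (c :: p)) t ∈ Finset.Ico s e :=
    Finset.mem_Ico.2 ⟨h5, lt_of_le_of_lt h4.2.1 h3⟩
  refine le_trans (le_of_eq ?_) (Finset.single_le_sum
    (f := fun a => (K.nw (c :: p)).indicator
      (fun a => ρ ^ (finrank ℝ (K.W (c :: p) a) - finrank ℝ (K.W p a))) a)
    (fun a _ => Set.indicator_nonneg (fun _ _ => pow_nonneg hρ _) _) h6)
  rw [Set.indicator_of_mem h4.1.1, ← K.kd_cons]

/-- **rotations in a window**: `∑ w ^ k * angle ≤ (π N_c / δ) Cost` if `3 w ≤ ρ`. -/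
theorem rot_sum (hδ : 0 < δ) {p : List ℕ} {c s e : ℕ} (hN : 0 ≤ N c)
    (h2 : 2 ≤ finrank ℝ (K.W p s)ᗮ) (h : Iv (K.B p c) T s e) {w : ℝ} (hw : 0 ≤ w)
    (hwρ : 3 * w ≤ ρ) :
    ∑ t ∈ Finset.Ico s e, w ^ K.kd (c :: p) t * K.al (c :: p) t
      ≤ Real.pi * N c / δ * Cost (K.Sw p s (N c)) ρ s e := by
  have hpi := Real.pi_pos
  rw [sum_regroup_iv h (K.B_sub_nw p c)]
  have h3 := K.lives_sum h2 h (w := 3 * w) (by positivity) hwρ (u := fun _ => Real.pi * N c / δ)
    (M := Real.pi * N c / δ) (by positivity) (fun _ _ _ _ => le_rfl)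
  refine le_trans (Finset.sum_le_sum fun a ha => ?_) h3
  rw [Finset.mem_Ico] at ha
  by_cases hmem : a ∈ K.nw (c :: p)
  · rw [Set.indicator_of_mem hmem, Set.indicator_of_mem hmem]
    have haT : a < T := lt_of_lt_of_le ha.2 h.2.2.1
    have hiv := iv_en hmem haT
    have h4 : ∑ t ∈ Finset.Ico a (en (K.nw (c :: p)) T a), w ^ K.kd (c :: p) t * K.al (c :: p) t
        = w ^ K.kd (c :: p) a * ∑ t ∈ Finset.Ico a (en (K.nw (c :: p)) T a), K.al (c :: p) t := by
      rw [Finset.mul_sum]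
      refine Finset.sum_congr rfl fun t ht => ?_
      rw [Finset.mem_Ico] at ht
      rw [K.kd_const subset_rfl hiv ht.1 ht.2]
    rw [h4]
    have h5 := K.angle hiv
    rw [← K.kd_cons] at h5
    calc w ^ K.kd (c :: p) a * ∑ t ∈ Finset.Ico a (en (K.nw (c :: p)) T a), K.al (c :: p) t
        ≤ w ^ K.kd (c :: p) a * (Real.pi * 3 ^ K.kd (c :: p) a * N c / δ) := by gcongr
      _ = (3 * w) ^ K.kd (c :: p) a * (Real.pi * N c / δ) := by rw [mul_pow]; ring
  · rw [Set.indicator_of_notMem hmem, Set.indicator_of_notMem hmem]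

end K2

end Vale.Agent.P262.H118
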