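import Vale.Agent.P262.H118.Sub

/-!
# P262, scheme S1: the nested time axis, one class (block FRM), part 6

Everything lives in one fixed space `E`, in pulled back coordinates.  A node has a label space
`W` (its fibre is `Wᗮ`) and a word `w` (`w t ∈ Wᗮ`, `‖w t‖ = δ` during its life).  Time is processed
upwards.  The life `[a, b)` of a node is cut into blocks (minimal not `1`-slow, the last one possibly
incomplete), every block into pieces; a piece is the life of a child with label space `W' = W ⊔ V`,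
frame path `R` and word `(R t)⁻¹ (w t)`.  A node with `dim Wᗮ = 1` has no children, its blocks are the
single steps.
-/

namespace Vale.Agent.P262.H118

open RealInnerProductSpace Module Vale.Agent.P262.H274

/-- nested time axis (raw data): a life is `nil` or `block e ps rest` (first block up to `e`, `ps` its
pieces, `rest` the following blocks); a list of pieces is `nil` or `piece e V R α child rest`. -/
inductive TA (E : Type*) [NormedAddCommGroup E] [InnerProductSpace ℝ E] where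
  | nil : TA E
  | block (e : ℕ) (ps rest : TA E) : TA E
  | piece (e : ℕ) (V : Submodule ℝ E) (R : ℕ → (E ≃ₗᵢ[ℝ] E)) (α : ℕ → ℝ) (child rest : TA E) : TA E

variable {E : Type*} [NormedAddCommGroup E] [InnerProductSpace ℝ E]

/-- the word of a child. -/
noncomputable def cw (R : ℕ → (E ≃ₗᵢ[ℝ] E)) (w : ℕ → E) (a e : ℕ) : ℕ → E :=
  fun t => if a ≤ t ∧ t < e then (R t).symm (w t) else 0

/-- minimal not `1`-slow from the left. -/
def MinNS (S : ℕ → ℕ → Prop) (a e : ℕ) : Prop := ¬ S a e ∧ (a + 1 < e → S a (e - 1))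

variable [FiniteDimensional ℝ E]

/-- the word of a node as a word in the type `Wᗮ`. -/
noncomputable def wd (W : Submodule ℝ E) (w : ℕ → E) : ℕ → Wᗮ :=
  fun t => Wᗮ.orthogonalProjectionOnto (w t)

lemma coe_wd {W : Submodule ℝ E} {w : ℕ → E} {t : ℕ} (h : w t ∈ Wᗮ) : ((wd W w t : Wᗮ) : E) = w t :=
  (Submodule.starProjection_eq_self_iff).2 h

lemma norm_wd {W : Submodule ℝ E} {w : ℕ → E} {t : ℕ} (h : w t ∈ Wᗮ) : ‖wd W w t‖ = ‖w t‖ := by
  change ‖((wd W w t : Wᗮ) : E)‖ = ‖w t‖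
  rw [coe_wd h]

/-- validity of the raw data.  `Ok N δ ρ T true W w a b c`: `T` is the life over `[a, b)` of the node
`(W, w)` (then `c` is irrelevant); `Ok N δ ρ T false W w a b c`: `T` is the list of pieces of the
interval `[a, b)` of the node `(W, w)`, of total price `∑ ρ ^ k_i = c`. -/
def Ok (N δ ρ : ℝ) : TA E → Bool → Submodule ℝ E → (ℕ → E) → ℕ → ℕ → ℝ → Prop
  | .nil, true, _, _, a, b, _ => a = b
  | .block e ps rest, true, W, w, a, b, c =>
      a < e ∧ e ≤ b ∧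
      (MinNS (Slow (wd W w) N 1) a e ∨ e = b ∧ Slow (wd W w) N 1 a b) ∧
      (finrank ℝ Wᗮ = 1 ∧ e = a + 1 ∧ ps = .nil ∨
        2 ≤ finrank ℝ Wᗮ ∧ ∃ c' ≤ Cost (Slow (wd W w) N) ρ a e, Ok N δ ρ ps false W w a e c') ∧
      Ok N δ ρ rest true W w e b c
  | .piece .., true, _, _, _, _, _ => False
  | .nil, false, _, _, a, b, c => a = b ∧ c = 0
  | .block .., false, _, _, _, _, _ => False
  | .piece e V R α child rest, false, W, w, a, b, c =>
      a < e ∧ e ≤ b ∧ 1 ≤ finrank ℝ V ∧ finrank ℝ V < finrank ℝ Wᗮ ∧ FPathIn Wᗮ w V a e R α ∧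
      ∑ t ∈ Finset.Ico a e, α t ≤ Real.pi * 3 ^ finrank ℝ V * N / δ ∧
      (∀ c, Ok N δ ρ child true (W ⊔ V) (cw R w a e) a e c) ∧
      Ok N δ ρ rest false W w e b (c - ρ ^ finrank ℝ V)

/-- the life of the node `(W, w)` over `[a, b)`. -/
def Life (N δ ρ : ℝ) (T : TA E) (W : Submodule ℝ E) (w : ℕ → E) (a b : ℕ) : Prop :=
  Ok N δ ρ T true W w a b 0

omit [FiniteDimensional ℝ E] in
lemma cw_mem {W V : Submodule ℝ E} {w : ℕ → E} {a e : ℕ} {R : ℕ → (E ≃ₗᵢ[ℝ] E)} {α : ℕ → ℝ}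
    (hw : ∀ t, w t ∈ Wᗮ) (h : FPathIn Wᗮ w V a e R α) (t : ℕ) : cw R w a e t ∈ (W ⊔ V)ᗮ := by
  unfold cw
  split_ifs with ht
  · rw [← Submodule.inf_orthogonal]
    exact ⟨h.mem t (hw t), h.perp t ht.1 ht.2⟩
  · exact Submodule.zero_mem _

omit [FiniteDimensional ℝ E] in
lemma norm_cw {w : ℕ → E} {a e : ℕ} {R : ℕ → (E ≃ₗᵢ[ℝ] E)} {t : ℕ} (h1 : a ≤ t) (h2 : t < e) :
    ‖cw R w a e t‖ = ‖w t‖ := by
  unfold cw
  rw [if_pos ⟨h1, h2⟩, LinearIsometryEquiv.norm_map]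

lemma finrank_sup_perp {W V : Submodule ℝ E} (hV : V ≤ Wᗮ) :
    finrank ℝ (W ⊔ V : Submodule ℝ E)ᗮ + finrank ℝ V = finrank ℝ Wᗮ := by
  have h1 := W.finrank_add_finrank_orthogonal
  have h2 := (W ⊔ V).finrank_add_finrank_orthogonal
  have h3 := Submodule.finrank_sup_add_finrank_inf_eq W V
  have h4 : W ⊓ V = ⊥ := by
    rw [eq_bot_iff]
    exact (inf_le_inf_left W hV).trans (by rw [Submodule.inf_orthogonal_eq_bot])
  rw [h4, finrank_bot] at h3
  omega

/-- pieces from a partition. -/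
lemma ok_pieces {N δ ρ : ℝ} (hδ : 0 < δ) (hδ1 : δ ≤ 1) {W : Submodule ℝ E} {w : ℕ → E}
    (hw : ∀ t, w t ∈ Wᗮ)
    (ih : ∀ (W' : Submodule ℝ E) (w' : ℕ → E) (a b : ℕ), finrank ℝ W'ᗮ < finrank ℝ Wᗮ →
      1 ≤ finrank ℝ W'ᗮ → (∀ t, w' t ∈ W'ᗮ) → (∀ t, a ≤ t → t < b → ‖w' t‖ = δ) → a ≤ b →
      ∃ T : TA E, ∀ c, Ok N δ ρ T true W' w' a b c) {a b : ℕ} {c : ℝ}
    (h : HasCost (Piece (wd W w) N) ρ a b c) : ∀ lo hi, lo ≤ a → b ≤ hi →
      (∀ t, lo ≤ t → t < hi → ‖w t‖ = δ) →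
      ∃ T : TA E, Ok N δ ρ T false W w a b c := by
  induction h with
  | nil a => exact fun _ _ _ _ _ => ⟨.nil, rfl, rfl⟩
  | cons a b b' k c hab hS ht ih' =>
    intro lo hi hlo hhi hn
    obtain ⟨hk1, hk2, hS⟩ := hS
    have hbb := ht.le
    have hcoe : (fun t => ((wd W w t : Wᗮ) : E)) = w := funext fun t => coe_wd (hw t)
    have hslow := slowIn_of_slowEx hS
    rw [hcoe] at hslow
    obtain ⟨V, R, α, hVk, hP, hα⟩ := frame_path_in hab hδ hδ1 hw
      (fun t h1 h2 => hn t (by omega) (by omega)) hk2 hslow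
    have hfr := finrank_sup_perp hP.le
    obtain ⟨Tc, hTc⟩ := ih (W ⊔ V) (cw R w a b) a b (by omega) (by omega)
      (cw_mem hw hP) (fun t h1 h2 => by rw [norm_cw h1 h2]; exact hn t (by omega) (by omega)) hab.le
    obtain ⟨Tr, hTr⟩ := ih' lo hi (by omega) hhi hn
    subst hVk
    refine ⟨.piece b V R α Tc Tr, hab, hbb, hk1, hk2, hP, hα, hTc, ?_⟩
    have : ρ ^ finrank ℝ V + c - ρ ^ finrank ℝ V = c := by ring
    rw [this]
    exact hTr

/-- existence of a first block. -/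
lemma first_block {S : ℕ → ℕ → Prop} {a b : ℕ} (hab : a < b) :
    ∃ e, a < e ∧ e ≤ b ∧ (MinNS S a e ∨ e = b ∧ S a b) := by
  classical
  by_cases hS : S a b
  · exact ⟨b, hab, le_rfl, Or.inr ⟨rfl, hS⟩⟩
  have hex : ∃ i, ¬ S a (a + 1 + i) := ⟨b - (a + 1), by
    have : a + 1 + (b - (a + 1)) = b := by omega
    rw [this]; exact hS⟩
  refine ⟨a + 1 + Nat.find hex, by omega, ?_, Or.inl ⟨Nat.find_spec hex, ?_⟩⟩
  · by_contra hcon
    have := Nat.find_min hex (m := b - (a + 1)) (by omega)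
    push Not at this
    have e : a + 1 + (b - (a + 1)) = b := by omega
    rw [e] at this
    exact hS this
  · intro h
    have hpos : 0 < Nat.find hex := by omega
    have := Nat.find_min hex (m := Nat.find hex - 1) (by omega)
    push Not at this
    have e : a + 1 + (Nat.find hex - 1) = a + 1 + Nat.find hex - 1 := by omega
    rwa [e] at this

/-- **Existence of the nested time axis** (one class). -/
theorem exists_axis {N δ ρ : ℝ} (hN : 0 ≤ N) (hNδ : N < δ) (hδ1 : δ ≤ 1) (hρ0 : 0 < ρ)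
    (hρ1 : ρ < 1 / 2) : ∀ (m : ℕ) (W : Submodule ℝ E) (w : ℕ → E) (a b : ℕ), finrank ℝ Wᗮ = m →
      1 ≤ finrank ℝ Wᗮ → (∀ t, w t ∈ Wᗮ) → (∀ t, a ≤ t → t < b → ‖w t‖ = δ) → a ≤ b →
      ∃ T : TA E, ∀ c, Ok N δ ρ T true W w a b c := by
  intro m
  have hδ : 0 < δ := hN.trans_lt hNδ
  induction m using Nat.strong_induction_on with
  | _ m ih =>
  intro W w a b hm h1 hw
  -- induction on the length of the interval
  suffices H : ∀ n a, b - a = n → (∀ t, a ≤ t → t < b → ‖w t‖ = δ) → a ≤ b →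
      ∃ T : TA E, ∀ c, Ok N δ ρ T true W w a b c from H _ a rfl
  intro n
  induction n using Nat.strong_induction_on with
  | _ n ihn =>
  intro a hn hv hab
  rcases hab.eq_or_lt with rfl | hlt
  · exact ⟨.nil, fun _ => rfl⟩
  have hwn : ∀ t, a ≤ t → t < b → N < ‖wd W w t‖ := fun t h2 h3 => by
    rw [norm_wd (hw t), hv t h2 h3]; exact hNδ
  by_cases hone : finrank ℝ Wᗮ = 1
  · -- leaf node
    obtain ⟨T, hT⟩ := ihn (b - (a + 1)) (by omega) (a + 1) rfl
      (fun t h2 h3 => hv t (by omega) h3) (by omega)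
    refine ⟨.block (a + 1) .nil T, fun c => ⟨by omega, by omega, Or.inl ⟨?_, fun h => by omega⟩,
      Or.inl ⟨hone, rfl, rfl⟩, hT c⟩⟩
    rintro ⟨j, hj, hS⟩
    exact not_slowEx_finrank (Nat.lt_succ_self a) (hwn a le_rfl hlt) (by omega) hS
  · have h2 : 2 ≤ finrank ℝ Wᗮ := by omega
    obtain ⟨e, hae, heb, he⟩ := first_block (S := Slow (wd W w) N 1) hlt
    have hJ : a + 1 < e → Slow (wd W w) N 1 a (e - 1) ∨ Slow (wd W w) N 1 (a + 1) e := by
      intro h3
      rcases he with h | ⟨rfl, h⟩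
      · exact Or.inl (h.2 h3)
      · exact Or.inl (h.mono le_rfl (by omega))
    obtain ⟨-, c', hc', hC⟩ := pieces (wd W w) hN h2 hρ0 hρ1 hae
      (fun t h3 h4 => hwn t h3 (by omega)) hJ
    obtain ⟨Tp, hTp⟩ := ok_pieces hδ hδ1 hw
      (fun W' w' a b h3 h4 h5 h6 h7 => ih (finrank ℝ W'ᗮ) (by omega) W' w' a b rfl h4 h5 h6 h7)
      hC a e le_rfl le_rfl (fun t h3 h4 => hv t h3 (by omega))
    obtain ⟨T, hT⟩ := ihn (b - e) (by omega) e rfl
      (fun t h3 h4 => hv t (by omega) h4) heb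
    exact ⟨.block e Tp T, fun c => ⟨hae, heb, he, Or.inr ⟨h2, c', hc', hTp⟩, hT c⟩⟩

end Vale.Agent.P262.H118
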