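import Vale.Agent.P262.H118.Elem2
import Vale.Agent.P262.H395.Iso

/-!
# P262, milestone 1: the bodies at the elementary states (block FRM)

`Kt t` bodies (`Kt (t+1) = star (Kt t) (v t) ∩ closedBall 0 R`), `M : Elem K`; `M.Kb Kt m` = the
body at state `m`, `M.Bd Kt i m` = the body in the coordinates of level `i`.
-/

namespace Vale.Agent.P262.H118

open RealInnerProductSpace Module MeasureTheory ProbabilityTheory Set
open scoped ENNReal
open Vale.Agent.P262.H274 Vale.Agent.P262.H395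

variable {E : Type*} [NormedAddCommGroup E] [InnerProductSpace ℝ E] [FiniteDimensional ℝ E]
  {v : ℕ → E} {T : ℕ} {N δ : ℝ} {f : ℕ → E} {d : ℕ} {K : K1 v T N δ f d}

namespace Elem

variable (M : Elem K) (Kt : ℕ → Set E)

open Classical in
/-- the body at state `m`: `Kt t` before the star of step `t`, `Kt (t+1)` after it. -/
noncomputable def Kb (m : ℕ) : Set E :=
  if m = M.n (tau M.n m) then Kt (tau M.n m) else Kt (tau M.n m + 1)

/-- the body at state `m` in the coordinates of level `i`. -/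
noncomputable def Bd (i m : ℕ) : Set E := (fun x => M.U i m x) ⁻¹' (M.Kb Kt m)

lemma tau_n (t : ℕ) : tau M.n (M.n t) = t := tau_eq M.n_zero M.n_lt le_rfl (M.n_lt t)

lemma Kb_start (t : ℕ) : M.Kb Kt (M.n t) = Kt t := by
  unfold Kb
  rw [M.tau_n, if_pos rfl]

lemma Kb_after {t m : ℕ} (h1 : M.n t < m) (h2 : m < M.n (t + 1)) : M.Kb Kt m = Kt (t + 1) := by
  unfold Kb
  rw [tau_eq M.n_zero M.n_lt h1.le h2, if_neg h1.ne']

lemma exists_Kb (m : ℕ) : ∃ t, M.Kb Kt m = Kt t := by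
  unfold Kb
  split_ifs
  · exact ⟨_, rfl⟩
  · exact ⟨_, rfl⟩

lemma Bd_zero (m : ℕ) : M.Bd Kt 0 m = M.Kb Kt m := rfl

lemma mem_Bd {i m : ℕ} {x : E} : x ∈ M.Bd Kt i m ↔ M.U i m x ∈ M.Kb Kt m := Iff.rfl

variable {Kt}

lemma isClosed_Bd (h : ∀ t, IsClosed (Kt t)) (i m : ℕ) : IsClosed (M.Bd Kt i m) := by
  obtain ⟨t, ht⟩ := M.exists_Kb Kt m
  unfold Bd
  rw [ht]
  exact (h t).preimage (M.U i m).continuous

lemma convex_Bd (h : ∀ t, Convex ℝ (Kt t)) (i m : ℕ) : Convex ℝ (M.Bd Kt i m) := by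
  obtain ⟨t, ht⟩ := M.exists_Kb Kt m
  unfold Bd
  rw [ht]
  exact (h t).linear_preimage ((M.U i m).toLinearEquiv : E →ₗ[ℝ] E)

lemma neg_mem_Bd (h : ∀ t, ∀ x ∈ Kt t, -x ∈ Kt t) (i m : ℕ) : ∀ x ∈ M.Bd Kt i m,
    -x ∈ M.Bd Kt i m := by
  obtain ⟨t, ht⟩ := M.exists_Kb Kt m
  intro x hx
  rw [mem_Bd, ht] at hx ⊢
  rw [map_neg]
  exact h t _ hx

lemma Bd_subset_ball {R : ℝ} (h : ∀ t, Kt t ⊆ Metric.closedBall 0 R) (i m : ℕ) :
    M.Bd Kt i m ⊆ Metric.closedBall 0 R := by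
  obtain ⟨t, ht⟩ := M.exists_Kb Kt m
  intro x hx
  rw [mem_Bd, ht] at hx
  have := h t hx
  simpa [(M.U i m).norm_map] using this

/-- **star move.** -/
theorem Bd_star {R : ℝ} {t : ℕ} (ht : t < T)
    (hK : Kt (t + 1) = H493.star (Kt t) (v t) ∩ Metric.closedBall 0 R) (i : ℕ) :
    M.Bd Kt i (M.n t + 1) =
      H493.star (M.Bd Kt i (M.n t)) (wrd v (K.S i) t) ∩ Metric.closedBall 0 R := by
  unfold Bd
  rw [M.Kb_start, M.Kb_after Kt (Nat.lt_succ_self _) (by have := M.n_succ t; omega), hK,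
    M.U_star, M.U_start ht, preimage_inter, H395.ball_preimage, H395.star_preimage]
  unfold wrd
  rw [LinearIsometryEquiv.apply_symm_apply]

/-- rotation move, not seen by the levels `i ≤ j`. -/
theorem Bd_rot_le {t m : ℕ} (h1 : M.n t < m) (h2 : m + 1 < M.n (t + 1)) {i : ℕ}
    (hi : i ≤ M.jj m) : M.Bd Kt i (m + 1) = M.Bd Kt i m := by
  unfold Bd
  rw [M.U_rot_le h1 h2 hi, M.Kb_after Kt (by omega) h2, M.Kb_after Kt h1 (by omega)]

/-- rotation move, seen by the levels `i > j`. -/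
theorem Bd_rot_gt {t m : ℕ} (h1 : M.n t < m) (h2 : m + 1 < M.n (t + 1)) {i : ℕ}
    (hi : M.jj m < i) :
    ∃ (b : E) (hb : ON (f (M.jj m)) b), b ∈ (L f (M.jj m + 1))ᗮ ∧
      M.Bd Kt i (m + 1) = (fun x => rotE hb (M.ph m) x) ⁻¹' (M.Bd Kt i m) := by
  obtain ⟨b, hb, hbL, hU⟩ := M.U_rot_gt h1 h2 hi
  refine ⟨b, hb, hbL, ?_⟩
  unfold Bd
  rw [hU, M.Kb_after Kt (by omega) h2, M.Kb_after Kt h1 (by omega)]
  rfl

/-- reopening is not seen by the surviving levels. -/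
theorem Bd_reopen {t : ℕ} (ht : t + 1 < T) {i : ℕ} (hi : i < d) (h : t + 1 ∉ K.nw i) :
    M.Bd Kt i (M.n (t + 1)) = M.Bd Kt i (M.n (t + 1) - 1) := by
  have h3 := M.n_succ t
  unfold Bd
  rw [M.U_reopen ht hi h, M.Kb_start, M.Kb_after Kt (t := t) (m := M.n (t + 1) - 1) (by omega)
    (by omega)]

/-- change of coordinates below level `l`: it fixes the labels of level `l`. -/
theorem exists_change (m : ℕ) {l i : ℕ} (hli : l ≤ i) :
    ∃ C : E ≃ₗᵢ[ℝ] E, Fixes C (L f l) ∧ M.U i m = C.trans (M.U l m) := by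
  induction i, hli using Nat.le_induction with
  | base => exact ⟨LinearIsometryEquiv.refl ℝ E, Fixes.refl _, by ext x; rfl⟩
  | succ i hli ih =>
    obtain ⟨C, hC, hU⟩ := ih
    refine ⟨(M.Q m i).trans C, ?_, ?_⟩
    · exact Fixes.trans (fun w hw => M.fix m i w (L_mono f hli hw)) hC
    · rw [M.U_succ, hU]
      ext x; rfl

lemma Bd_change (Kt : ℕ → Set E) (m : ℕ) {l i : ℕ} (hli : l ≤ i) :
    ∃ C : E ≃ₗᵢ[ℝ] E, Fixes C (L f l) ∧ M.Bd Kt i m = (fun x => C x) ⁻¹' (M.Bd Kt l m) := by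
  obtain ⟨C, hC, hU⟩ := M.exists_change m hli
  refine ⟨C, hC, ?_⟩
  unfold Bd
  rw [hU]
  rfl

variable [MeasurableSpace E] [BorelSpace E]

lemma measurableSet_Bd (h : ∀ t, MeasurableSet (Kt t)) (i m : ℕ) :
    MeasurableSet (M.Bd Kt i m) := by
  obtain ⟨t, ht⟩ := M.exists_Kb Kt m
  unfold Bd
  rw [ht]
  exact (M.U i m).continuous.measurable (h t)

/-- averages over the labels of level `l` do not see the coordinates of the deeper levels. -/
theorem fib_Bd (h : ∀ t, MeasurableSet (Kt t)) (m : ℕ) {l i : ℕ} (hli : l ≤ i) (x : E) :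
    fib (L f l) ((M.Bd Kt i m).indicator 1) x = fib (L f l) ((M.Bd Kt l m).indicator 1) x := by
  obtain ⟨C, hC, hB⟩ := M.Bd_change Kt m hli
  rw [hB, ← fib_fixes hC (measurable_one.indicator (M.measurableSet_Bd h l m)) x]
  rfl

theorem fib_Bd_compl (h : ∀ t, MeasurableSet (Kt t)) (m : ℕ) {l i : ℕ} (hli : l ≤ i) (x : E) :
    fib (L f l) (((M.Bd Kt i m)ᶜ).indicator 1) x
      = fib (L f l) (((M.Bd Kt l m)ᶜ).indicator 1) x := by
  obtain ⟨C, hC, hB⟩ := M.Bd_change Kt m hli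
  rw [hB, ← fib_fixes hC (measurable_one.indicator (M.measurableSet_Bd h l m).compl) x]
  rfl

/-- weights depending on the labels of level `l` and payoffs in deeper coordinates. -/
theorem lintegral_Bd {g : E → ℝ≥0∞} {l i : ℕ} (hg : Inv (L f l) g) (hgm : Measurable g)
    (h : ∀ t, MeasurableSet (Kt t)) (m : ℕ) (hli : l ≤ i) :
    ∫⁻ x, g x * (M.Bd Kt i m).indicator 1 x ∂stdGaussian E
      = ∫⁻ x, g x * (M.Bd Kt l m).indicator 1 x ∂stdGaussian E := by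
  obtain ⟨C, hC, hB⟩ := M.Bd_change Kt m hli
  rw [hB, ← lintegral_mul_fixes hC hg hgm (measurable_one.indicator (M.measurableSet_Bd h l m))]
  rfl

end Elem

end Vale.Agent.P262.H118
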