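import Vale.Agent.P262.H118.El2b
import Vale.Agent.P262.H395.Iso

/-!
# P262, milestone 2: the bodies at the elementary states, in the coordinates of the paths
-/

namespace Vale.Agent.P262.H118

open RealInnerProductSpace Module MeasureTheory ProbabilityTheory Set
open scoped ENNReal
open Vale.Agent.P262.H274 Vale.Agent.P262.H395

variable {E : Type*} [NormedAddCommGroup E] [InnerProductSpace ℝ E] [FiniteDimensional ℝ E]
  {v : ℕ → E} {T : ℕ} {N : ℕ → ℝ} {δ ρ : ℝ} {K : K2 v T N δ ρ} {G : Finset (List ℕ)}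

namespace El2

variable (M : El2 K G) (Kt : ℕ → Set E)

open Classical in
/-- the body at state `m`: `Kt t` before the star of step `t`, `Kt (t+1)` after it. -/
noncomputable def Kb (m : ℕ) : Set E :=
  if m = M.n (M.tm m) then Kt (M.tm m) else Kt (M.tm m + 1)

/-- the body at state `m` in the coordinates of the path `q`. -/
noncomputable def Bd (q : List ℕ) (m : ℕ) : Set E := (fun x => M.U q m x) ⁻¹' (M.Kb Kt m)

lemma Kb_start (t : ℕ) : M.Kb Kt (M.n t) = Kt t := by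
  unfold Kb
  rw [M.tm_n, if_pos rfl]

lemma Kb_after {t m : ℕ} (h1 : M.n t < m) (h2 : m < M.n (t + 1)) : M.Kb Kt m = Kt (t + 1) := by
  unfold Kb
  rw [M.tm_eq h1.le h2, if_neg h1.ne']

lemma exists_Kb (m : ℕ) : ∃ t, M.Kb Kt m = Kt t := by
  unfold Kb
  split_ifs
  · exact ⟨_, rfl⟩
  · exact ⟨_, rfl⟩

lemma Bd_nil (m : ℕ) : M.Bd Kt [] m = M.Kb Kt m := rfl

lemma mem_Bd {q : List ℕ} {m : ℕ} {x : E} : x ∈ M.Bd Kt q m ↔ M.U q m x ∈ M.Kb Kt m := Iff.rfl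

variable {Kt}

lemma isClosed_Bd (h : ∀ t, IsClosed (Kt t)) (q : List ℕ) (m : ℕ) : IsClosed (M.Bd Kt q m) := by
  obtain ⟨t, ht⟩ := M.exists_Kb Kt m
  unfold Bd
  rw [ht]
  exact (h t).preimage (M.U q m).continuous

lemma convex_Bd (h : ∀ t, Convex ℝ (Kt t)) (q : List ℕ) (m : ℕ) : Convex ℝ (M.Bd Kt q m) := by
  obtain ⟨t, ht⟩ := M.exists_Kb Kt m
  unfold Bd
  rw [ht]
  exact (h t).linear_preimage ((M.U q m).toLinearEquiv : E →ₗ[ℝ] E)

lemma neg_mem_Bd (h : ∀ t, ∀ x ∈ Kt t, -x ∈ Kt t) (q : List ℕ) (m : ℕ) :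
    ∀ x ∈ M.Bd Kt q m, -x ∈ M.Bd Kt q m := by
  obtain ⟨t, ht⟩ := M.exists_Kb Kt m
  intro x hx
  rw [mem_Bd, ht] at hx ⊢
  rw [map_neg]
  exact h t _ hx

lemma Bd_subset_ball {R : ℝ} (h : ∀ t, Kt t ⊆ Metric.closedBall 0 R) (q : List ℕ) (m : ℕ) :
    M.Bd Kt q m ⊆ Metric.closedBall 0 R := by
  obtain ⟨t, ht⟩ := M.exists_Kb Kt m
  intro x hx
  rw [mem_Bd, ht] at hx
  have := h t hx
  simpa [(M.U q m).norm_map] using this

/-- **star move.** -/
theorem Bd_star {R : ℝ} {t : ℕ} (ht : t < T)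
    (hK : Kt (t + 1) = H493.star (Kt t) (v t) ∩ Metric.closedBall 0 R) (q : List ℕ) :
    M.Bd Kt q (M.n t + 1) =
      H493.star (M.Bd Kt q (M.n t)) (wrd v (K.S q) t) ∩ Metric.closedBall 0 R := by
  unfold Bd
  rw [M.Kb_start, M.Kb_after Kt (Nat.lt_succ_self _) (by have := M.n_succ t; omega), hK,
    M.U_star, M.U_start ht, preimage_inter, H395.ball_preimage, H395.star_preimage]
  unfold wrd
  rw [LinearIsometryEquiv.apply_symm_apply]

/-- rotation move, not seen by the path `r`. -/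
theorem Bd_rot_not {t m : ℕ} (h1 : M.n t < m) (h2 : m + 1 < M.n (t + 1)) {r : List ℕ}
    (hr : ¬ M.jj m <:+ r) : M.Bd Kt r (m + 1) = M.Bd Kt r m := by
  unfold Bd
  rw [M.U_rot_not h1 h2 hr, M.Kb_after Kt (by omega) h2, M.Kb_after Kt h1 (by omega)]

/-- rotation move, seen by the paths with suffix `jj m`. -/
theorem Bd_rot {t m : ℕ} (h1 : M.n t < m) (h2 : m + 1 < M.n (t + 1)) :
    ∃ θ, θ ∈ K.W (M.jj m) t ∧ θ ∈ (K.W (M.jj m).tail t)ᗮ ∧ ∀ r, M.jj m <:+ r →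
      ∃ (b : E) (hb : ON θ b), b ∈ (K.W (M.jj m) t)ᗮ ∧
        M.U r (m + 1) = (rotE hb (M.ph m)).trans (M.U r m) ∧
        M.Bd Kt r (m + 1) = (fun x => rotE hb (M.ph m) x) ⁻¹' (M.Bd Kt r m) := by
  obtain ⟨θ, hθ1, hθ2, h⟩ := M.U_rot h1 h2
  refine ⟨θ, hθ1, hθ2, fun r hr => ?_⟩
  obtain ⟨b, hb, hbL, hU⟩ := h r hr
  refine ⟨b, hb, hbL, hU, ?_⟩
  unfold Bd
  rw [hU, M.Kb_after Kt (by omega) h2, M.Kb_after Kt h1 (by omega)]
  rfl

/-- reopening is not seen by the surviving paths. -/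
theorem Bd_reopen (hG : Cl G) {t : ℕ} (ht : t + 1 < T) {q : List ℕ} (hq : q ∈ G)
    (h : t + 1 ∉ K.nw q) : M.Bd Kt q (M.n (t + 1)) = M.Bd Kt q (M.n (t + 1) - 1) := by
  have h3 := M.n_succ t
  unfold Bd
  rw [M.U_reopen hG ht hq h, M.Kb_start, M.Kb_after Kt (t := t) (m := M.n (t + 1) - 1) (by omega)
    (by omega)]

lemma Bd_change (Kt : ℕ → Set E) (m : ℕ) {q r : List ℕ} (h : q <:+ r) :
    ∃ C : E ≃ₗᵢ[ℝ] E, Fixes C (K.W q (M.tm m)) ∧
      M.Bd Kt r m = (fun x => C x) ⁻¹' (M.Bd Kt q m) := by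
  obtain ⟨C, hC, hU⟩ := M.exists_change m h
  refine ⟨C, hC, ?_⟩
  unfold Bd
  rw [hU]
  rfl

variable [MeasurableSpace E] [BorelSpace E]

lemma measurableSet_Bd (h : ∀ t, MeasurableSet (Kt t)) (q : List ℕ) (m : ℕ) :
    MeasurableSet (M.Bd Kt q m) := by
  obtain ⟨t, ht⟩ := M.exists_Kb Kt m
  unfold Bd
  rw [ht]
  exact (M.U q m).continuous.measurable (h t)

/-- averages over the labels of `q` do not see the coordinates of the descendants. -/
theorem fib_Bd (h : ∀ t, MeasurableSet (Kt t)) (m : ℕ) {q r : List ℕ} (hqr : q <:+ r) (x : E) :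
    fib (K.W q (M.tm m)) ((M.Bd Kt r m).indicator 1) x
      = fib (K.W q (M.tm m)) ((M.Bd Kt q m).indicator 1) x := by
  obtain ⟨C, hC, hB⟩ := M.Bd_change Kt m hqr
  rw [hB, ← fib_fixes hC (measurable_one.indicator (M.measurableSet_Bd h q m)) x]
  rfl

theorem fib_Bd_compl (h : ∀ t, MeasurableSet (Kt t)) (m : ℕ) {q r : List ℕ} (hqr : q <:+ r)
    (x : E) :
    fib (K.W q (M.tm m)) (((M.Bd Kt r m)ᶜ).indicator 1) x
      = fib (K.W q (M.tm m)) (((M.Bd Kt q m)ᶜ).indicator 1) x := by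
  obtain ⟨C, hC, hB⟩ := M.Bd_change Kt m hqr
  rw [hB, ← fib_fixes hC (measurable_one.indicator (M.measurableSet_Bd h q m).compl) x]
  rfl

end El2

end Vale.Agent.P262.H118
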