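import Vale.Agent.P262.H118.Rot

/-!
# P262, scheme S1: rotation chains between subspaces (block FRM)

`rot_chain`: two `k`-dimensional subspaces `V, V' ≤ F` with `‖P_{V'} - P_V‖ ≤ η` are joined by a
chain of rotations (each in a plane `θ ∈ V_i`, `b ∈ F`, `b ⟂ V_i`) of total angle
`≤ (π/4) (3^k - 1) η`.  `align`: a subspace `V ≤ F` is rotated to a subspace orthogonal to
`v ∈ F` with total angle `≤ (π/2) ‖P_V v‖ / ‖v‖`.
-/

namespace Vale.Agent.P262.H118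

open RealInnerProductSpace Module

variable {E : Type*} [NormedAddCommGroup E] [InnerProductSpace ℝ E]

lemma exists_unit_mem {W : Submodule ℝ E} (h : W ≠ ⊥) : ∃ θ ∈ W, ‖θ‖ = 1 := by
  obtain ⟨x, hx, hx0⟩ := W.exists_mem_ne_zero_of_ne_bot h
  refine ⟨(‖x‖)⁻¹ • x, W.smul_mem _ hx, ?_⟩
  rw [norm_smul, norm_inv, norm_norm, inv_mul_cancel₀ (norm_ne_zero_iff.2 hx0)]

lemma le_half_pi_mul_sin {φ : ℝ} (h0 : 0 ≤ φ) (h1 : φ ≤ Real.pi / 2) :
    φ ≤ Real.pi / 2 * Real.sin φ := by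
  have := Real.mul_le_sin h0 h1
  have hpi := Real.pi_pos
  rw [div_mul_eq_mul_div, le_div_iff₀ (by norm_num)] 
  have h2 : 2 / Real.pi * φ * Real.pi ≤ Real.sin φ * Real.pi :=
    mul_le_mul_of_nonneg_right this hpi.le
  have h3 : 2 / Real.pi * φ * Real.pi = 2 * φ := by field_simp
  linarith

/-- one step: a unit vector `θ' ⟂ U` is brought into the subspace `U ⊔ W` by one rotation. -/
lemma key [FiniteDimensional ℝ E] {F U W : Submodule ℝ E} (hWF : W ≤ F) (hWU : W ≤ Uᗮ)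
    (hW : W ≠ ⊥) {θ' : E} (hθF : θ' ∈ F) (hθU : θ' ∈ Uᗮ) (h1 : ‖θ'‖ = 1) :
    ∃ θ ∈ W, ‖θ‖ = 1 ∧ ∃ φ, 0 ≤ φ ∧ φ ≤ Real.pi / 2 * ‖θ' - W.starProjection θ'‖ ∧
      ‖θ - θ'‖ ≤ 2 * ‖θ' - W.starProjection θ'‖ ∧
      ((ℝ ∙ θ)ᗮ ⊓ W) ≤ (ℝ ∙ θ')ᗮ ∧
      RotChain F (U ⊔ W) ((U ⊔ ℝ ∙ θ') ⊔ ((ℝ ∙ θ)ᗮ ⊓ W)) φ := by
  set y := W.starProjection θ' with hy
  have hyW : y ∈ W := W.starProjection_apply_mem θ'
  have hperp : θ' - y ∈ Wᗮ := W.sub_starProjection_mem_orthogonal θ'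
  have hyF : y ∈ F := hWF hyW
  have hpyth : ‖y‖ ^ 2 + ‖θ' - y‖ ^ 2 = 1 := by
    have h2 : ⟪y, θ' - y⟫ = 0 := (Submodule.mem_orthogonal W _).1 hperp y hyW
    have h3 := norm_add_sq_real y (θ' - y)
    rw [h2, add_sub_cancel, h1] at h3
    linarith
  by_cases hz : θ' - y = 0
  · -- `θ' ∈ W`
    have hyθ : y = θ' := (sub_eq_zero.1 hz).symm
    refine ⟨θ', hyθ ▸ hyW, h1, 0, le_rfl, ?_, ?_, inf_le_left, ?_⟩
    · rw [hz]; simp
    · rw [hz]; simp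
    · have hW2 : (ℝ ∙ θ') ⊔ ((ℝ ∙ θ')ᗮ ⊓ W) = W :=
        Submodule.sup_orthogonal_inf_of_hasOrthogonalProjection
          ((Submodule.span_singleton_le_iff_mem _ _).2 (hyθ ▸ hyW))
      rw [sup_assoc, hW2]
      exact RotChain.nil _
  · set s := ‖θ' - y‖ with hs
    have hs0 : 0 < s := norm_pos_iff.2 hz
    have hs1 : s ≤ 1 := by nlinarith [sq_nonneg ‖y‖, norm_nonneg y]
    set b : E := s⁻¹ • (θ' - y) with hb
    have hb1 : ‖b‖ = 1 := by
      rw [hb, norm_smul, norm_inv, ← hs, Real.norm_of_nonneg hs0.le, inv_mul_cancel₀ hs0.ne']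
    have hbF : b ∈ F := F.smul_mem _ (F.sub_mem hθF hyF)
    have hbW : b ∈ Wᗮ := Wᗮ.smul_mem _ hperp
    have hbU : b ∈ Uᗮ := Uᗮ.smul_mem _ (Uᗮ.sub_mem hθU (hWU hyW))
    set φ := Real.arcsin s with hφ
    have hφ0 : 0 ≤ φ := Real.arcsin_nonneg.2 hs0.le
    have hφ1 : φ ≤ Real.pi / 2 := Real.arcsin_le_pi_div_two s
    have hsin : Real.sin φ = s := Real.sin_arcsin (by linarith) hs1
    have hcos : Real.cos φ = ‖y‖ := by
      rw [hφ, Real.cos_arcsin, show 1 - s ^ 2 = ‖y‖ ^ 2 by linarith,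
        Real.sqrt_sq (norm_nonneg _)]
    have hφs : φ ≤ Real.pi / 2 * s := by
      rw [← hsin]; exact le_half_pi_mul_sin hφ0 hφ1
    -- choice of `θ`
    obtain ⟨θ, hθW, hθ1, hθy⟩ : ∃ θ ∈ W, ‖θ‖ = 1 ∧ ‖y‖ • θ = y := by
      by_cases hy0 : y = 0
      · obtain ⟨θ, hθ, hθ1⟩ := exists_unit_mem hW
        exact ⟨θ, hθ, hθ1, by rw [hy0]; simp⟩
      · have hyn : ‖y‖ ≠ 0 := norm_ne_zero_iff.2 hy0
        refine ⟨(‖y‖)⁻¹ • y, W.smul_mem _ hyW, ?_, ?_⟩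
        · rw [norm_smul, norm_inv, norm_norm, inv_mul_cancel₀ hyn]
        · rw [smul_smul, mul_inv_cancel₀ hyn, one_smul]
    have hON : ON θ b := ⟨hθ1, hb1, (Submodule.mem_orthogonal W b).1 hbW θ hθW⟩
    have hθ'eq : θ' = Real.cos φ • θ + Real.sin φ • b := by
      rw [hcos, hsin, hθy, hb, smul_smul, mul_inv_cancel₀ hs0.ne', one_smul, add_sub_cancel]
    refine ⟨θ, hθW, hθ1, φ, hφ0, hφs, ?_, ?_, ?_⟩
    · -- `‖θ - θ'‖ ≤ 2 s`
      have e1 : θ - θ' = (1 - Real.cos φ) • θ - Real.sin φ • b := by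
        rw [hθ'eq]; module
      have hc0 : 0 ≤ 1 - Real.cos φ := by linarith [Real.cos_le_one φ]
      have hc1 : 1 - Real.cos φ ≤ s := by
        rw [hcos]
        have : 0 ≤ ‖y‖ := norm_nonneg y
        have h5 : ‖y‖ ≤ 1 := by nlinarith [sq_nonneg s]
        nlinarith
      rw [e1]
      calc ‖(1 - Real.cos φ) • θ - Real.sin φ • b‖
          ≤ ‖(1 - Real.cos φ) • θ‖ + ‖Real.sin φ • b‖ := norm_sub_le _ _
        _ = (1 - Real.cos φ) + s := by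
            rw [norm_smul, norm_smul, hθ1, hb1, hsin, Real.norm_of_nonneg hc0,
              Real.norm_of_nonneg hs0.le, mul_one, mul_one]
        _ ≤ 2 * s := by linarith
    · intro x hx
      rw [Submodule.mem_orthogonal_singleton_iff_inner_right, hθ'eq, inner_add_left,
        inner_smul_left, inner_smul_left,
        (Submodule.mem_orthogonal_singleton_iff_inner_right).1 hx.1,
        (Submodule.mem_orthogonal' W b).1 hbW x hx.2]
      simp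
    · have hbUW : b ∈ (U ⊔ W)ᗮ := by
        rw [← Submodule.inf_orthogonal]
        exact ⟨hbU, hbW⟩
      have := RotChain.cons (F := F) (V := U ⊔ W) (φ := φ)
        ⟨θ, b, hON, (le_sup_right : W ≤ U ⊔ W) hθW, hbF, hbUW, hφ0, hφ1, rfl⟩ (RotChain.nil _)
      rw [add_zero, map_rot hON hθW (hWU hθW) hbU hbW hθ'eq] at this
      exact this

lemma norm_sub_starProjection_le [FiniteDimensional ℝ E] {W : Submodule ℝ E} {x z : E} (hz : z ∈ W)
    {c : ℝ} (h : ‖x - z‖ ≤ c) : ‖x - W.starProjection x‖ ≤ c := by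
  refine le_trans ?_ h
  rw [Submodule.starProjection_minimal]
  exact ciInf_le ⟨0, by rintro _ ⟨_, rfl⟩; exact norm_nonneg _⟩ (⟨z, hz⟩ : W)

lemma rot_chain_aux [FiniteDimensional ℝ E] {F : Submodule ℝ E} : ∀ (k : ℕ)
    (U W W' : Submodule ℝ E) (η : ℝ), W ≤ F → W' ≤ F → W ≤ Uᗮ → W' ≤ Uᗮ →
    finrank ℝ W = k → finrank ℝ W' = k → 0 ≤ η →
    (∀ x ∈ W', ∃ z ∈ W, ‖x - z‖ ≤ η * ‖x‖) →
    ∃ α, RotChain F (U ⊔ W) (U ⊔ W') α ∧ α ≤ Real.pi / 4 * (3 ^ k - 1) * η := by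
  intro k
  induction k with
  | zero =>
    intro U W W' η _ _ _ _ h0 h0' _ _
    rw [Submodule.finrank_eq_zero] at h0 h0'
    subst h0; subst h0'
    exact ⟨0, RotChain.nil _, by simp⟩
  | succ k ih =>
    intro U W W' η hWF hWF' hWU hWU' hk hk' hη hgap
    have hWne : W ≠ ⊥ := by
      rintro rfl; simp at hk
    have hWne' : W' ≠ ⊥ := by
      rintro rfl; simp at hk'
    obtain ⟨θ', hθ'W, hθ'1⟩ := exists_unit_mem hWne'
    obtain ⟨θ, hθW, hθ1, φ, hφ0, hφs, hd, hperp, hch⟩ :=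
      key hWF hWU hWne (hWF' hθ'W) (hWU' hθ'W) hθ'1
    have hdist : ‖θ' - W.starProjection θ'‖ ≤ η := by
      obtain ⟨z, hz, hzη⟩ := hgap θ' hθ'W
      rw [hθ'1, mul_one] at hzη
      exact norm_sub_starProjection_le hz hzη
    have hθW' : (ℝ ∙ θ) ≤ W := (Submodule.span_singleton_le_iff_mem _ _).2 hθW
    have hθW'' : (ℝ ∙ θ') ≤ W' := (Submodule.span_singleton_le_iff_mem _ _).2 hθ'W
    have hθ0 : θ ≠ 0 := by rintro rfl; simp at hθ1
    have hθ'0 : θ' ≠ 0 := by rintro rfl; simp at hθ'1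
    have r1 : finrank ℝ ((ℝ ∙ θ)ᗮ ⊓ W : Submodule ℝ E) = k := by
      have := Submodule.finrank_add_inf_finrank_orthogonal hθW'
      rw [finrank_span_singleton hθ0, hk] at this
      omega
    have r2 : finrank ℝ ((ℝ ∙ θ')ᗮ ⊓ W' : Submodule ℝ E) = k := by
      have := Submodule.finrank_add_inf_finrank_orthogonal hθW''
      rw [finrank_span_singleton hθ'0, hk'] at this
      omega
    have p1 : ((ℝ ∙ θ)ᗮ ⊓ W : Submodule ℝ E) ≤ (U ⊔ ℝ ∙ θ')ᗮ := by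
      rw [← Submodule.inf_orthogonal]
      exact le_inf (inf_le_right.trans hWU) hperp
    have p2 : ((ℝ ∙ θ')ᗮ ⊓ W' : Submodule ℝ E) ≤ (U ⊔ ℝ ∙ θ')ᗮ := by
      rw [← Submodule.inf_orthogonal]
      exact le_inf (inf_le_right.trans hWU') inf_le_left
    have p3 : ∀ x ∈ ((ℝ ∙ θ')ᗮ ⊓ W' : Submodule ℝ E), ∃ z ∈ ((ℝ ∙ θ)ᗮ ⊓ W : Submodule ℝ E),
        ‖x - z‖ ≤ 3 * η * ‖x‖ := by
      intro x hx
      obtain ⟨z, hz, hzη⟩ := hgap x hx.2
      set p := W.starProjection x with hp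
      have hpW : p ∈ W := W.starProjection_apply_mem x
      have hxp : ‖x - p‖ ≤ η * ‖x‖ := norm_sub_starProjection_le hz hzη
      have hperp' : x - p ∈ Wᗮ := W.sub_starProjection_mem_orthogonal x
      have e1 : ⟪θ, p⟫ = ⟪θ, x⟫ := by
        have := (Submodule.mem_orthogonal W _).1 hperp' θ hθW
        rw [inner_sub_right] at this
        linarith
      have e2 : ⟪θ', x⟫ = 0 := (Submodule.mem_orthogonal_singleton_iff_inner_right).1 hx.1
      have e3 : ⟪θ, p⟫ = ⟪θ - θ', x⟫ := by rw [e1, inner_sub_left, e2, sub_zero]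
      have e4 : |⟪θ, p⟫| ≤ 2 * η * ‖x‖ := by
        rw [e3]
        refine (abs_real_inner_le_norm _ _).trans ?_
        gcongr
        exact hd.trans (by gcongr)
      refine ⟨p - ⟪θ, p⟫ • θ, ⟨?_, W.sub_mem hpW (W.smul_mem _ hθW)⟩, ?_⟩
      · rw [SetLike.mem_coe, Submodule.mem_orthogonal_singleton_iff_inner_right, inner_sub_right,
          inner_smul_right, real_inner_self_eq_norm_sq, hθ1]
        ring
      · have : x - (p - ⟪θ, p⟫ • θ) = (x - p) + ⟪θ, p⟫ • θ := by abel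
        rw [this]
        calc ‖(x - p) + ⟪θ, p⟫ • θ‖ ≤ ‖x - p‖ + ‖⟪θ, p⟫ • θ‖ := norm_add_le _ _
          _ = ‖x - p‖ + |⟪θ, p⟫| := by rw [norm_smul, hθ1, mul_one, Real.norm_eq_abs]
          _ ≤ η * ‖x‖ + 2 * η * ‖x‖ := add_le_add hxp e4
          _ = 3 * η * ‖x‖ := by ring
    obtain ⟨α, hα, hαle⟩ := ih (U ⊔ ℝ ∙ θ') ((ℝ ∙ θ)ᗮ ⊓ W) ((ℝ ∙ θ')ᗮ ⊓ W') (3 * η)
      (inf_le_right.trans hWF) (inf_le_right.trans hWF') p1 p2 r1 r2 (by positivity) p3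
    refine ⟨φ + α, ?_, ?_⟩
    · have hW2 : (ℝ ∙ θ') ⊔ ((ℝ ∙ θ')ᗮ ⊓ W') = W' :=
        Submodule.sup_orthogonal_inf_of_hasOrthogonalProjection hθW''
      have e : (U ⊔ ℝ ∙ θ') ⊔ ((ℝ ∙ θ')ᗮ ⊓ W') = U ⊔ W' := by rw [sup_assoc, hW2]
      rw [e] at hα
      exact hch.trans hα
    · have hpi := Real.pi_pos
      have : φ ≤ Real.pi / 2 * η := hφs.trans (by gcongr)
      calc φ + α ≤ Real.pi / 2 * η + Real.pi / 4 * (3 ^ k - 1) * (3 * η) := add_le_add this hαle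
        _ = Real.pi / 4 * (3 ^ (k + 1) - 1) * η := by ring

/-- **Rotation chains.**  Two `k`-dimensional subspaces of `F` at distance `η` (operator norm of
the difference of the orthogonal projections, on `V'`) are joined by a chain of plane rotations
inside `F` of total angle `≤ (π/4) (3^k - 1) η`. -/
theorem rot_chain [FiniteDimensional ℝ E] {F V V' : Submodule ℝ E} {k : ℕ} {η : ℝ}
    (hV : V ≤ F) (hV' : V' ≤ F) (hk : finrank ℝ V = k) (hk' : finrank ℝ V' = k) (hη : 0 ≤ η)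
    (h : ∀ x ∈ V', ‖x - V.starProjection x‖ ≤ η * ‖x‖) :
    ∃ α, RotChain F V V' α ∧ α ≤ Real.pi / 4 * (3 ^ k - 1) * η := by
  obtain ⟨α, h1, h2⟩ := rot_chain_aux k (⊥ : Submodule ℝ E) V V' η hV hV'
    (by simp) (by simp) hk hk' hη (fun x hx => ⟨V.starProjection x,
      V.starProjection_apply_mem x, h x hx⟩)
  rw [bot_sup_eq, bot_sup_eq] at h1
  exact ⟨α, h1, h2⟩

/-- `rot_chain` with the operator norm of the difference of the projections. -/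
theorem rot_chain_norm [FiniteDimensional ℝ E] {F V V' : Submodule ℝ E} {k : ℕ} {η : ℝ}
    (hV : V ≤ F) (hV' : V' ≤ F) (hk : finrank ℝ V = k) (hk' : finrank ℝ V' = k)
    (h : ‖V'.starProjection - V.starProjection‖ ≤ η) :
    ∃ α, RotChain F V V' α ∧ α ≤ Real.pi / 4 * (3 ^ k - 1) * η := by
  refine rot_chain hV hV' hk hk' ((norm_nonneg _).trans h) ?_
  intro x hx
  have e : x - V.starProjection x = (V'.starProjection - V.starProjection) x := by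
    rw [_root_.sub_apply, Submodule.starProjection_eq_self_iff.2 hx]
  rw [e]
  exact (ContinuousLinearMap.le_opNorm _ _).trans (by gcongr)

/-- **Alignment.**  A subspace `V ≤ F` can be rotated to a subspace orthogonal to `v ∈ F`, `v ∉ V`,
`v ≠ 0`, by one rotation of angle `≤ (π/2) ‖P_V v‖ / ‖v‖`. -/
theorem align [FiniteDimensional ℝ E] {F V : Submodule ℝ E} (hV : V ≤ F) {v : E} (hv : v ∈ F)
    (hvV : v ∉ V) :
    ∃ α V', RotChain F V V' α ∧ v ∈ V'ᗮ ∧ α * ‖v‖ ≤ Real.pi / 2 * ‖V.starProjection v‖ := by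
  set p := V.starProjection v with hp
  have hpV : p ∈ V := V.starProjection_apply_mem v
  have hqV : v - p ∈ Vᗮ := V.sub_starProjection_mem_orthogonal v
  by_cases hp0 : p = 0
  · refine ⟨0, V, RotChain.nil V, ?_, by simp [hp0]⟩
    rwa [hp0, sub_zero] at hqV
  have hq0 : v - p ≠ 0 := by
    intro h0
    exact hvV (by rw [sub_eq_zero.1 h0]; exact hpV)
  have hv0 : v ≠ 0 := by
    rintro rfl; exact hvV V.zero_mem
  have np : 0 < ‖p‖ := norm_pos_iff.2 hp0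
  have nq : 0 < ‖v - p‖ := norm_pos_iff.2 hq0
  have nv : 0 < ‖v‖ := norm_pos_iff.2 hv0
  have hpq : ⟪p, v - p⟫ = 0 := (Submodule.mem_orthogonal V _).1 hqV p hpV
  have hpyth : ‖p‖ ^ 2 + ‖v - p‖ ^ 2 = ‖v‖ ^ 2 := by
    have h3 := norm_add_sq_real p (v - p)
    rw [hpq, add_sub_cancel] at h3
    linarith
  set θ : E := ‖p‖⁻¹ • p with hθ
  set b : E := -(‖v - p‖⁻¹ • (v - p)) with hb
  have hON : ON θ b := by
    refine ⟨?_, ?_, ?_⟩
    · rw [hθ, norm_smul, norm_inv, norm_norm, inv_mul_cancel₀ np.ne']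
    · rw [hb, norm_neg, norm_smul, norm_inv, norm_norm, inv_mul_cancel₀ nq.ne']
    · rw [hθ, hb, inner_neg_right, inner_smul_left, inner_smul_right, hpq]
      simp
  have hθV : θ ∈ V := V.smul_mem _ hpV
  have hbF : b ∈ F := F.neg_mem (F.smul_mem _ (F.sub_mem hv (hV hpV)))
  have hbV : b ∈ Vᗮ := Vᗮ.neg_mem (Vᗮ.smul_mem _ hqV)
  set s := ‖p‖ / ‖v‖ with hs
  have hs0 : 0 ≤ s := by positivity
  have hs1 : s ≤ 1 := by
    rw [hs, div_le_one nv]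
    nlinarith [sq_nonneg ‖v - p‖]
  set φ := Real.arcsin s with hφ
  have hφ0 : 0 ≤ φ := Real.arcsin_nonneg.2 hs0
  have hφ1 : φ ≤ Real.pi / 2 := Real.arcsin_le_pi_div_two s
  have hsin : Real.sin φ = s := Real.sin_arcsin (by linarith) hs1
  have hcos : Real.cos φ = ‖v - p‖ / ‖v‖ := by
    rw [hφ, Real.cos_arcsin]
    have : 1 - s ^ 2 = (‖v - p‖ / ‖v‖) ^ 2 := by
      rw [hs, div_pow, div_pow, ← hpyth]
      field_simp
      rw [hpyth]
      linarith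
    rw [this, Real.sqrt_sq (by positivity)]
  have hφs : φ ≤ Real.pi / 2 * s := by
    rw [← hsin]; exact le_half_pi_mul_sin hφ0 hφ1
  -- `v = ‖p‖ θ - ‖v - p‖ b`
  have hveq : v = ‖p‖ • θ - ‖v - p‖ • b := by
    rw [hθ, hb, smul_neg, sub_neg_eq_add, smul_smul, smul_smul, mul_inv_cancel₀ np.ne',
      mul_inv_cancel₀ nq.ne', one_smul, one_smul, add_sub_cancel]
  refine ⟨φ, V.map (rotL θ b φ), ?_, ?_, ?_⟩
  · have := RotChain.cons (F := F) (V := V) (φ := φ)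
      ⟨θ, b, hON, hθV, hbF, hbV, hφ0, hφ1, rfl⟩ (RotChain.nil _)
    rwa [add_zero] at this
  · rw [Submodule.mem_orthogonal]
    rintro _ ⟨x, hx, rfl⟩
    -- `⟪rot x, v⟫ = ‖p‖ ⟪rot x, θ⟫ - ‖v-p‖ ⟪rot x, b⟫`
    have hbx : ⟪b, x⟫ = 0 := (Submodule.mem_orthogonal' V b).1 hbV x hx
    have e1 := hON.inner_p φ x
    have e2 := hON.inner_q φ x
    rw [hbx, hsin, hcos, hs] at e1 e2
    rw [real_inner_comm]
    calc ⟪v, rotL θ b φ x⟫ = ⟪‖p‖ • θ - ‖v - p‖ • b, rotL θ b φ x⟫ := by rw [← hveq]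
      _ = ‖p‖ * ⟪θ, rotL θ b φ x⟫ - ‖v - p‖ * ⟪b, rotL θ b φ x⟫ := by
          rw [inner_sub_left, real_inner_smul_left θ, real_inner_smul_left b]
      _ = 0 := by rw [e1, e2]; ring
  · rw [hs] at hφs
    calc φ * ‖v‖ ≤ Real.pi / 2 * (‖p‖ / ‖v‖) * ‖v‖ := by gcongr
      _ = Real.pi / 2 * ‖p‖ := by field_simp

end Vale.Agent.P262.H118
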