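import Vale.Agent.P262.H118.Path

/-!
# P262, scheme S1: frames (block FRM), part 4: cut into blocks and pieces

`MinNS v N a b` : `[a, b)` is a minimal not `1`-slow interval (from the left or from the right).
`Piece v N k a b` : `1 ≤ k < dim`, exactly `k`-slow.  `pieces`: every block (also an incomplete one)
has a partition into pieces of price `≤ 2 Cost`.
-/

namespace Vale.Agent.P262.H118

open RealInnerProductSpace Module Vale.Agent.P262.H274

variable {S : ℕ → ℕ → ℕ → Prop} {ρ : ℝ}

/-- the set of prices is finite, so the infimum is attained. -/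
lemma finite_cost {M : ℕ} (hb : ∀ k a b, S k a b → k ≤ M) (b : ℕ) :
    ∀ (n a : ℕ), b - a = n → a ≤ b → {c | HasCost S ρ a b c}.Finite := by
  intro n
  induction n using Nat.strong_induction_on with
  | _ n ih =>
  intro a hn hab
  have hsub : {c | HasCost S ρ a b c} ⊆ {0} ∪ ⋃ b' ∈ Finset.Ioc a b, ⋃ k ∈ Finset.range (M + 1),
      (fun c => ρ ^ k + c) '' {c | HasCost S ρ b' b c} := by
    intro c hc
    cases hc with
    | nil => exact Or.inl rfl
    | cons _ b' _ k c h1 h2 h3 =>
      refine Or.inr ?_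
      simp only [Set.mem_iUnion]
      exact ⟨b', Finset.mem_Ioc.2 ⟨h1, h3.le⟩, k, Finset.mem_range.2 (by have := hb _ _ _ h2; omega),
        c, h3, rfl⟩
  refine Set.Finite.subset (Set.Finite.union (Set.finite_singleton _) ?_) hsub
  refine Set.Finite.biUnion (Finset.finite_toSet _) fun b' hb' => ?_
  refine Set.Finite.biUnion (Finset.finite_toSet _) fun k _ => ?_
  rw [Finset.mem_coe, Finset.mem_Ioc] at hb'
  exact (ih (b - b') (by omega) b' rfl hb'.2).image _

/-- the optimal partition. -/
theorem cost_attained {M k : ℕ} (hb : ∀ k a b, S k a b → k ≤ M)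
    (hs : ∀ t, S k t (t + 1)) {a b : ℕ} (hab : a ≤ b) : HasCost S ρ a b (Cost S ρ a b) :=
  (cost_nonempty hs hab).csInf_mem (finite_cost hb b _ a rfl hab)

/-- pieces of a cheap partition. -/
lemma HasCost.imp {S' : ℕ → ℕ → ℕ → Prop} (hρ : 0 ≤ ρ) {lo hi : ℕ}
    (h : ∀ k a b, lo ≤ a → a < b → b ≤ hi → S k a b → ρ ^ k < 1 →
      ∃ k', S' k' a b ∧ ρ ^ k' ≤ ρ ^ k) {a b : ℕ}
    {c : ℝ} (hc : HasCost S ρ a b c) : c < 1 → lo ≤ a → b ≤ hi → ∃ c' ≤ c, HasCost S' ρ a b c' := by
  induction hc with
  | nil a => exact fun _ _ _ => ⟨0, le_rfl, .nil a⟩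
  | cons a b b' k c hab hS ht ih =>
    intro hlt hlo hhi
    have h0 := HasCost.nonneg hρ ht
    have h1 : 0 ≤ ρ ^ k := by positivity
    obtain ⟨k', hk', hle⟩ := h k a b hlo hab (ht.le.trans hhi) hS (by linarith)
    obtain ⟨c', hc', hC⟩ := ih (by linarith) (by omega) hhi
    exact ⟨ρ ^ k' + c', add_le_add hle hc', .cons a b b' k' c' hab hk' hC⟩

variable {E : Type*} [NormedAddCommGroup E] [InnerProductSpace ℝ E] [FiniteDimensional ℝ E]

/-- the pieces run by children: exactly `k`-slow with `1 ≤ k < dim E`. -/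
def Piece (v : ℕ → E) (N : ℝ) (k a b : ℕ) : Prop := 1 ≤ k ∧ k < finrank ℝ E ∧ SlowEx v N k a b

/-- one long step is not `dim E`-slow. -/
lemma not_slowEx_finrank {v : ℕ → E} {N : ℝ} {k a b : ℕ} (hab : a < b) (hv : N < ‖v a‖)
    (hk : finrank ℝ E ≤ k) : ¬ SlowEx v N k a b := by
  rintro ⟨V, hV, hs⟩
  have h1 : V a = ⊤ := Submodule.eq_top_of_finrank_eq
    (le_antisymm (Submodule.finrank_le _) (by rw [hV a]; exact hk))
  have h2 : ‖(V a).starProjection (v a)‖ = ‖v a‖ := by
    rw [(Submodule.starProjection_eq_self_iff).2 (by rw [h1]; trivial)]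
  have h3 : ‖(V a).starProjection (v a)‖ + ‖(V (a + 1)).starProjection - (V a).starProjection‖
      ≤ N :=
    (Finset.single_le_sum (f := fun t => ‖(V t).starProjection (v t)‖ +
      ‖(V (t + 1)).starProjection - (V t).starProjection‖) (fun _ _ => by positivity)
      (Finset.mem_Ico.2 ⟨le_rfl, hab⟩)).trans hs
  have := norm_nonneg ((V (a + 1)).starProjection - (V a).starProjection)
  linarith

/-- a single step is a piece. -/
lemma piece_step (v : ℕ → E) {N : ℝ} (hN : 0 ≤ N) (h2 : 2 ≤ finrank ℝ E) (t : ℕ)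
    (hv : N < ‖v t‖) : Piece v N (finrank ℝ E - 1) t (t + 1) := by
  obtain ⟨j, hj, h⟩ := slow_step v hN t
  have : j < finrank ℝ E := by
    by_contra hcon
    exact not_slowEx_finrank (Nat.lt_succ_self t) hv (by omega) h
  have hj' : j = finrank ℝ E - 1 := by omega
  subst hj'
  exact ⟨by omega, by omega, h⟩

/-- **Pieces of a block.**  If `[a, b)` without its last step is `1`-slow (in particular if it is
`1`-slow or minimal not `1`-slow), there is a partition of `[a, b)` into pieces of total price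
`≤ Cost (Slow v N) ρ a b ≤ 2 ρ`. -/
theorem pieces (v : ℕ → E) {N : ℝ} (hN : 0 ≤ N) (h2 : 2 ≤ finrank ℝ E) (hρ0 : 0 < ρ)
    (hρ1 : ρ < 1 / 2) {a b : ℕ} (hab : a < b) (hv : ∀ t, a ≤ t → t < b → N < ‖v t‖)
    (hJ : a + 1 < b → Slow v N 1 a (b - 1) ∨ Slow v N 1 (a + 1) b) :
    Cost (Slow v N) ρ a b ≤ 2 * ρ ∧
      ∃ c ≤ Cost (Slow v N) ρ a b, HasCost (Piece v N) ρ a b c := by
  have hs := slow_step v hN
  have hb : ∀ k a b, Slow v N k a b → k ≤ finrank ℝ E := fun _ _ _ h => h.le_finrank
  have hone : ∀ t, Cost (Slow v N) ρ t (t + 1) ≤ ρ := by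
    intro t
    refine (cost_le_pow hρ0.le (Nat.lt_succ_self t) (hs t)).trans ?_
    calc ρ ^ (finrank ℝ E - 1) ≤ ρ ^ 1 :=
          pow_le_pow_of_le_one hρ0.le (by linarith) (by omega)
      _ = ρ := pow_one ρ
  have hC : Cost (Slow v N) ρ a b ≤ 2 * ρ := by
    by_cases h1 : a + 1 < b
    · rcases hJ h1 with h | h
      · have e : b = (b - 1) + 1 := by omega
        have h3 := cost_subadd (S := Slow v N) hρ0.le hs (a := a) (b := b - 1) (c := b) (by omega)
          (by omega)
        have h4 := cost_le_pow (S := Slow v N) hρ0.le (a := a) (b := b - 1) (by omega) h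
        have h5 := hone (b - 1)
        rw [← e] at h5
        rw [pow_one] at h4
        linarith
      · have h3 := cost_subadd (S := Slow v N) hρ0.le hs (a := a) (b := a + 1) (c := b) (by omega)
          (by omega)
        have h4 := cost_le_pow (S := Slow v N) hρ0.le (a := a + 1) (b := b) (by omega) h
        have h5 := hone a
        rw [pow_one] at h4
        linarith
    · have : b = a + 1 := by omega
      subst this
      linarith [hone a]
  refine ⟨hC, ?_⟩
  have hat := cost_attained (ρ := ρ) hb hs hab.le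
  refine HasCost.imp hρ0.le ?_ hat (by linarith) le_rfl le_rfl
  intro k a' b' hlo hab' hhi hS hlt
  obtain ⟨j, hj, hSj⟩ := hS
  have hk1 : 1 ≤ k := by
    rcases Nat.eq_zero_or_pos k with rfl | h
    · simp at hlt
    · exact h
  have hjd : j < finrank ℝ E := by
    by_contra hcon
    exact not_slowEx_finrank hab' (hv a' hlo (by omega)) (by omega) hSj
  exact ⟨j, ⟨by omega, hjd, hSj⟩, pow_le_pow_of_le_one hρ0.le (by linarith) hj⟩

/-! ### cut of the time axis into blocks -/

/-- `[a, b)` is cut into consecutive blocks: each is minimal not `1`-slow (from the right), except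
possibly the first one, which is `1`-slow.  (Time is processed from `b` down to `a`.) -/
inductive Blocks (S : ℕ → ℕ → Prop) : ℕ → ℕ → Prop
  | nil (a : ℕ) : Blocks S a a
  | last {a b : ℕ} (hab : a < b) (h : S a b) : Blocks S a b
  | cons {a b c : ℕ} (hbc : b < c) (h : ¬ S b c) (h' : b + 1 < c → S (b + 1) c)
      (t : Blocks S a b) : Blocks S a c

lemma Blocks.le {S : ℕ → ℕ → Prop} {a b : ℕ} (h : Blocks S a b) : a ≤ b := by
  induction h with
  | nil => exact le_rfl
  | last hab _ => exact hab.le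
  | cons hbc _ _ _ ih => exact ih.trans hbc.le

/-- every window can be cut (greedily from the right). -/
theorem blocks_exist {S : ℕ → ℕ → Prop} (a : ℕ) : ∀ (n b : ℕ), b - a = n → a ≤ b → Blocks S a b := by
  classical
  intro n
  induction n using Nat.strong_induction_on with
  | _ n ih =>
  intro b hn hab
  rcases hab.eq_or_lt with rfl | hlt
  · exact .nil a
  by_cases hS : S a b
  · exact .last hlt hS
  -- the largest `b' < b` with `¬ S b' b`
  have hex : ∃ i, i < b - a ∧ ¬ S (b - 1 - i) b :=
    ⟨b - 1 - a, by omega, by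
      have : b - 1 - (b - 1 - a) = a := by omega
      rw [this]; exact hS⟩
  obtain ⟨h1, h2⟩ := Nat.find_spec hex
  set i := Nat.find hex with hi
  refine .cons (b := b - 1 - i) (by omega) h2 ?_ (ih (b - 1 - i - a) (by omega) _ rfl (by omega))
  intro hlt'
  have hi0 : 0 < i := by omega
  have hmin := Nat.find_min hex (m := i - 1) (by omega)
  push Not at hmin
  have := hmin (by omega)
  have e : b - 1 - (i - 1) = b - 1 - i + 1 := by omega
  rwa [e] at this

end Vale.Agent.P262.H118
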