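import Vale.Agent.P262.H118.Elem

/-!
# P262, milestone 1: the list of elementary moves as arrays (block FRM)
-/

namespace Vale.Agent.P262.H118

open RealInnerProductSpace Module Vale.Agent.P262.H274

/-! ### inverse of a strictly increasing time change -/

open Classical in
/-- the step containing the elementary index `m`. -/
noncomputable def tau (n : ℕ → ℕ) (m : ℕ) : ℕ := Nat.findGreatest (fun t => n t ≤ m) m

lemma le_of_lt_succ {n : ℕ → ℕ} (hn : ∀ t, n t < n (t + 1)) (t : ℕ) : t ≤ n t := by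
  induction t with
  | zero => exact Nat.zero_le _
  | succ t ih => have := hn t; omega

lemma tau_spec {n : ℕ → ℕ} (h0 : n 0 = 0) (hn : ∀ t, n t < n (t + 1)) (m : ℕ) :
    n (tau n m) ≤ m ∧ m < n (tau n m + 1) := by
  classical
  refine ⟨Nat.findGreatest_spec (P := fun t => n t ≤ m) (Nat.zero_le m) (by omega), ?_⟩
  by_contra hcon
  push Not at hcon
  have h1 : tau n m + 1 ≤ m := (le_of_lt_succ hn _).trans hcon
  exact Nat.findGreatest_is_greatest (P := fun t => n t ≤ m) (Nat.lt_succ_self (tau n m)) h1 hcon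

lemma tau_eq {n : ℕ → ℕ} (h0 : n 0 = 0) (hn : ∀ t, n t < n (t + 1)) {m t : ℕ} (h1 : n t ≤ m)
    (h2 : m < n (t + 1)) : tau n m = t := by
  have hmono : StrictMono n := strictMono_nat_of_lt_succ hn
  obtain ⟨h3, h4⟩ := tau_spec h0 hn m
  have h5 : tau n m < t + 1 := hmono.lt_iff_lt.1 (h3.trans_lt h2)
  have h6 : t < tau n m + 1 := hmono.lt_iff_lt.1 (h1.trans_lt h4)
  omega

variable {E : Type*} [NormedAddCommGroup E] [InnerProductSpace ℝ E] [FiniteDimensional ℝ E]
  {v : ℕ → E} {T : ℕ} {N δ : ℝ} {f : ℕ → E} {d : ℕ}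

/-- **Elementary moves.** State `m` is the vector `Q m`; `U i m = Uof (Q m) i`. -/
structure Elem (K : K1 v T N δ f d) where
  n : ℕ → ℕ
  Q : ℕ → ℕ → (E ≃ₗᵢ[ℝ] E)
  jj : ℕ → ℕ
  ph : ℕ → ℝ
  n_zero : n 0 = 0
  n_succ : ∀ t, n t + 2 ≤ n (t + 1)
  fix : ∀ m, Fix f (Q m)
  start : ∀ t, t < T → Q (n t) = fun i => K.P i t
  star : ∀ t, Q (n t + 1) = Q (n t)
  rot : ∀ t m, n t < m → m + 1 < n (t + 1) → Rot f (Q m) (jj m) (ph m) (Q (m + 1)) ∧
    t + 1 < T ∧ jj m + 1 < d ∧ t + 1 ∉ K.nw (jj m + 1)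
  reopen : ∀ t, t + 1 < T → ∀ i, i + 1 < d → t + 1 ∉ K.nw (i + 1) →
    Q (n (t + 1)) i = Q (n (t + 1) - 1) i
  angle : ∀ t j, ∑ m ∈ Finset.Ico (n t + 1) (n (t + 1) - 1), (if jj m = j then ph m else 0)
    ≤ K.al j t
  ph_nonneg : ∀ m, 0 ≤ ph m

omit [FiniteDimensional ℝ E] in
lemma RSeq.nonneg {P P' : ℕ → (E ≃ₗᵢ[ℝ] E)} {l : List (ℕ × ℝ)} (h : RSeq f P l P') :
    ∀ p ∈ l, 0 ≤ p.2 := by
  induction h with
  | nil => intro p hp; simp at hp
  | cons h _ ih =>
    intro p hp
    rcases List.mem_cons.1 hp with rfl | hp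
    · exact h.nonneg
    · exact ih p hp

lemma ang_eq_sum (l : List (ℕ × ℝ)) (j : ℕ) :
    ang l j = ∑ k ∈ Finset.range l.length,
      (if (l.getD k (0, 0)).1 = j then (l.getD k (0, 0)).2 else 0) := by
  unfold ang
  induction l with
  | nil => simp
  | cons p l ih =>
    rw [List.map_cons, List.sum_cons, ih, List.length_cons, Finset.sum_range_succ']
    simp only [List.getD_cons_succ, List.getD_cons_zero]
    rw [add_comm]

theorem exists_elem (K : K1 v T N δ f d) (hf : ONB f d) : Nonempty (Elem K) := by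
  classical
  -- data of the transitions
  have htr : ∀ t, ∃ (l : List (ℕ × ℝ)) (X : ℕ → (ℕ → (E ≃ₗᵢ[ℝ] E))),
      (X 0 = if t < T then (fun i => K.P i t) else fun _ => LinearIsometryEquiv.refl ℝ E) ∧
      (∀ k, k < l.length → Rot f (X k) (l.getD k (0, 0)).1 (l.getD k (0, 0)).2 (X (k + 1)) ∧
        t + 1 < T ∧ (l.getD k (0, 0)).1 + 1 < d ∧ t + 1 ∉ K.nw ((l.getD k (0, 0)).1 + 1)) ∧
      (∀ k, l.length ≤ k → X k = X l.length) ∧
      (t + 1 < T → ∀ i, i + 1 < d → t + 1 ∉ K.nw (i + 1) → X l.length i = K.P i (t + 1)) ∧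
      (∀ j, ang l j ≤ K.al j t) ∧ ∀ p ∈ l, 0 ≤ p.2 := by
    intro t
    by_cases ht : t + 1 < T
    · obtain ⟨l, P', h1, h2, h3, h4⟩ := K.transition hf ht
      obtain ⟨X, g1, g2, g3⟩ := h1.states
      refine ⟨l, fun k => X (min k l.length), ?_, ?_, ?_, ?_, h4, h1.nonneg⟩
      · rw [if_pos (by omega)]
        change X (min 0 l.length) = _
        rw [Nat.zero_min, g1]
      · intro k hk
        have e1 : min k l.length = k := by omega
        have e2 : min (k + 1) l.length = k + 1 := by omega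
        simp only [e1, e2]
        have hmem : l.getD k (0, 0) ∈ l := by
          rw [List.getD_eq_getElem _ _ hk]; exact List.getElem_mem hk
        exact ⟨g3 k hk, ht, (h3 _ hmem).1, (h3 _ hmem).2⟩
      · intro k hk
        have e1 : min k l.length = l.length := by omega
        simp only [e1, min_self]
      · intro _ i hi hn
        simp only [min_self]
        rw [g2]; exact h2 i hi hn
    · refine ⟨[], fun _ => if t < T then (fun i => K.P i t) else
        fun _ => LinearIsometryEquiv.refl ℝ E, rfl, fun k hk => absurd hk (by simp),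
        fun k _ => rfl, fun h => absurd h ht, fun j => by simpa [ang] using K.al_nonneg j t,
        by simp⟩
  choose l X hX0 hrot hconst hend hang hnn using htr
  let n : ℕ → ℕ := fun t => Nat.rec 0 (fun t m => m + 2 + (l t).length) t
  have hn0 : n 0 = 0 := rfl
  have hns : ∀ t, n (t + 1) = n t + 2 + (l t).length := fun _ => rfl
  have hlt : ∀ t, n t < n (t + 1) := fun t => by rw [hns]; omega
  have hτ : ∀ {t m}, n t ≤ m → m < n (t + 1) → tau n m = t := fun h1 h2 => tau_eq hn0 hlt h1 h2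
  let Q : ℕ → ℕ → (E ≃ₗᵢ[ℝ] E) := fun m => X (tau n m) (m - n (tau n m) - 1)
  let D : ℕ → ℕ × ℝ := fun m => (l (tau n m)).getD (m - n (tau n m) - 1) (0, 0)
  have hQ : ∀ {t m}, n t ≤ m → m < n (t + 1) → Q m = X t (m - n t - 1) := by
    intro t m h1 h2
    simp only [Q]
    rw [hτ h1 h2]
  have hD : ∀ {t m}, n t ≤ m → m < n (t + 1) → D m = (l t).getD (m - n t - 1) (0, 0) := by
    intro t m h1 h2
    simp only [D]
    rw [hτ h1 h2]
  have hXfix : ∀ t k, Fix f (X t k) := by
    intro t k
    have h0 : Fix f (X t 0) := by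
      rw [hX0]
      split_ifs
      · exact fun i x hx => K.P_fix i t x hx
      · exact fun i x hx => rfl
    have h1 : ∀ k, k ≤ (l t).length → Fix f (X t k) := by
      intro k
      induction k with
      | zero => exact fun _ => h0
      | succ k ih =>
        intro hk
        obtain ⟨g1, g2, g3, g4⟩ := hrot t k (by omega)
        exact g1.fix (hf.mem_perp (by omega)) (ih (by omega))
    rcases le_total k (l t).length with h | h
    · exact h1 k h
    · rw [hconst t k h]; exact h1 _ le_rfl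
  exact ⟨{
    n := n
    Q := Q
    jj := fun m => (D m).1
    ph := fun m => (D m).2
    n_zero := hn0
    n_succ := fun t => by rw [hns]; omega
    fix := fun m => hXfix _ _
    start := fun t ht => by
      rw [hQ le_rfl (hlt t)]
      have : n t - n t - 1 = 0 := by omega
      rw [this, hX0, if_pos ht]
    star := fun t => by
      rw [hQ le_rfl (hlt t), hQ (t := t) (by omega) (by rw [hns]; omega)]
      have e1 : n t - n t - 1 = 0 := by omega
      have e2 : n t + 1 - n t - 1 = 0 := by omega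
      rw [e1, e2]
    rot := fun t m h1 h2 => by
      have h3 : m < n (t + 1) := by omega
      rw [hQ h1.le h3, hQ (t := t) (m := m + 1) (by omega) h2, hD h1.le h3]
      rw [hns] at h2
      have e : m + 1 - n t - 1 = m - n t - 1 + 1 := by omega
      rw [e]
      exact hrot t (m - n t - 1) (by omega)
    reopen := fun t ht i hi hn => by
      rw [hQ (t := t + 1) (m := n (t + 1)) le_rfl (hlt (t + 1)), hQ (t := t) (m := n (t + 1) - 1) (by rw [hns]; omega)
        (by have := hlt t; omega)]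
      have e1 : n (t + 1) - n (t + 1) - 1 = 0 := by omega
      have e2 : n (t + 1) - 1 - n t - 1 = (l t).length := by rw [hns]; omega
      rw [e1, e2, hX0, if_pos ht, hend t ht i hi hn]
    angle := fun t j => by
      refine le_trans (le_of_eq ?_) (hang t j)
      rw [ang_eq_sum]
      have e1 : n (t + 1) - 1 = n t + 1 + (l t).length := by rw [hns]; omega
      rw [e1, Finset.sum_Ico_eq_sum_range]
      have e2 : n t + 1 + (l t).length - (n t + 1) = (l t).length := by omega
      rw [e2]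
      refine Finset.sum_congr rfl fun k hk => ?_
      rw [Finset.mem_range] at hk
      rw [hD (t := t) (m := n t + 1 + k) (by omega) (by rw [hns]; omega)]
      have e3 : n t + 1 + k - n t - 1 = k := by omega
      rw [e3]
    ph_nonneg := fun m => by
      simp only [D]
      rcases Nat.lt_or_ge (m - n (tau n m) - 1) (l (tau n m)).length with h | h
      · rw [List.getD_eq_getElem _ _ h]
        exact hnn _ _ (List.getElem_mem h)
      · rw [List.getD_eq_default _ _ h] }⟩

namespace Elem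

variable {K : K1 v T N δ f d} (M : Elem K)

/-- isometry of the coordinates of level `i` at state `m`. -/
noncomputable def U (i m : ℕ) : E ≃ₗᵢ[ℝ] E := Uof (M.Q m) i

lemma U_zero (m : ℕ) : M.U 0 m = LinearIsometryEquiv.refl ℝ E := rfl

lemma U_succ (i m : ℕ) : M.U (i + 1) m = (M.Q m i).trans (M.U i m) := rfl

lemma n_lt (t : ℕ) : M.n t < M.n (t + 1) := by have := M.n_succ t; omega

lemma U_start {t : ℕ} (ht : t < T) (i : ℕ) : M.U i (M.n t) = K.S i t := by
  unfold U
  rw [M.start t ht]
  induction i with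
  | zero => rw [K.S_zero]; rfl
  | succ i ih => rw [Uof, ih, K.S_succ]

lemma U_star (t i : ℕ) : M.U i (M.n t + 1) = M.U i (M.n t) := by
  unfold U; rw [M.star t]

/-- rotations are not seen by the levels `i ≤ j`. -/
lemma U_rot_le {t m : ℕ} (h1 : M.n t < m) (h2 : m + 1 < M.n (t + 1)) {i : ℕ} (hi : i ≤ M.jj m) :
    M.U i (m + 1) = M.U i m := (M.rot t m h1 h2).1.U_le hi

/-- rotations seen by the levels `i > j`. -/
lemma U_rot_gt {t m : ℕ} (h1 : M.n t < m) (h2 : m + 1 < M.n (t + 1)) {i : ℕ} (hi : M.jj m < i) :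
    ∃ (b : E) (hb : ON (f (M.jj m)) b), b ∈ (L f (M.jj m + 1))ᗮ ∧
      M.U i (m + 1) = (rotE hb (M.ph m)).trans (M.U i m) :=
  (M.rot t m h1 h2).1.U_gt (M.fix m) hi

lemma K_nw_mono (K : K1 v T N δ f d) : Monotone K.nw :=
  monotone_nat_of_le_succ fun i => (K.nw_subset_nb i).trans (K.nb_subset_nw i)

/-- reopening is not seen by the surviving levels. -/
lemma U_reopen {t : ℕ} (ht : t + 1 < T) {i : ℕ} (hi : i < d) (h : t + 1 ∉ K.nw i) :
    M.U i (M.n (t + 1)) = M.U i (M.n (t + 1) - 1) :=
  Uof_congr fun j hj => M.reopen t ht j (by omega) fun h' => h (K_nw_mono K (by omega) h')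

/-- a rotation in step `t` concerns a surviving level: all the levels `≤ j + 1` survive. -/
lemma rot_survive {t m : ℕ} (h1 : M.n t < m) (h2 : m + 1 < M.n (t + 1)) {i : ℕ}
    (hi : i ≤ M.jj m + 1) : t + 1 ∉ K.nw i :=
  fun h => (M.rot t m h1 h2).2.2.2 (K_nw_mono K hi h)

/-- total angle of the direction `j` over a life of level `j + 1`. -/
theorem angle_life {j : ℕ} (hj : j + 1 < d) {a b : ℕ} (h : Iv (K.nw (j + 1)) T a b) :
    ∑ t ∈ Finset.Ico a b, ∑ m ∈ Finset.Ico (M.n t + 1) (M.n (t + 1) - 1),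
      (if M.jj m = j then M.ph m else 0) ≤ 3 * Real.pi * N / δ :=
  (Finset.sum_le_sum fun t _ => M.angle t j).trans (K.angle j hj a b h)

end Elem

end Vale.Agent.P262.H118
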