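import Vale.Agent.P262.H118.K2b
import Vale.Agent.P262.H118.Elem2

/-!
# P262, milestone 2: the list of elementary moves on `K2` (block FRM)

A state is a family `X : List ℕ → (E ≃ₗᵢ E)` of relative isometries, `Up X q` = isometry of the
coordinates of the path `q`.  A rotation concerns exactly one path `q`.
-/

namespace Vale.Agent.P262.H118

open RealInnerProductSpace Module Vale.Agent.P262.H274

variable {E : Type*} [NormedAddCommGroup E] [InnerProductSpace ℝ E]

/-- isometry of the coordinates of a path. -/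
noncomputable def Up (X : List ℕ → (E ≃ₗᵢ[ℝ] E)) : List ℕ → (E ≃ₗᵢ[ℝ] E)
  | [] => LinearIsometryEquiv.refl ℝ E
  | c :: p => (X (c :: p)).trans (Up X p)

lemma Up_congr {X X' : List ℕ → (E ≃ₗᵢ[ℝ] E)} {q : List ℕ}
    (h : ∀ p, p <:+ q → p ≠ [] → X p = X' p) : Up X q = Up X' q := by
  induction q with
  | nil => rfl
  | cons c p ih =>
    rw [Up, Up, h (c :: p) (List.suffix_refl _) (List.cons_ne_nil _ _),
      ih fun r hr hr0 => h r (hr.trans (List.suffix_cons c p)) hr0]

/-- label spaces grow along the paths. -/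
def Mono2 (W : List ℕ → Submodule ℝ E) : Prop := ∀ c p, W p ≤ W (c :: p)

lemma Mono2.suffix {W : List ℕ → Submodule ℝ E} (h : Mono2 W) {p q : List ℕ} (hpq : p <:+ q) :
    W p ≤ W q := by
  obtain ⟨r, rfl⟩ := hpq
  induction r with
  | nil => exact le_rfl
  | cons c r ih => exact ih.trans (h c (r ++ p))

/-- `X (c :: p)` fixes the label space of the parent pointwise. -/
def Fix2 (W : List ℕ → Submodule ℝ E) (X : List ℕ → (E ≃ₗᵢ[ℝ] E)) : Prop :=
  ∀ c p, ∀ x ∈ W p, X (c :: p) x = x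

/-- the coordinates of a descendant `r` of `q` differ by an isometry fixing the labels of `q`. -/
theorem Fix2.change {W : List ℕ → Submodule ℝ E} (hW : Mono2 W) {X : List ℕ → (E ≃ₗᵢ[ℝ] E)}
    (hX : Fix2 W X) {q r : List ℕ} (h : q <:+ r) :
    ∃ C : E ≃ₗᵢ[ℝ] E, (∀ x ∈ W q, C x = x) ∧ Up X r = C.trans (Up X q) := by
  obtain ⟨s, rfl⟩ := h
  induction s with
  | nil => exact ⟨LinearIsometryEquiv.refl ℝ E, fun _ _ => rfl, by ext x; rfl⟩
  | cons c s ih =>
    obtain ⟨C, hC, hU⟩ := ih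
    refine ⟨(X (c :: (s ++ q))).trans C, fun x hx => ?_, ?_⟩
    · rw [LinearIsometryEquiv.trans_apply, hX c (s ++ q) x (hW.suffix ⟨s, rfl⟩ hx), hC x hx]
    · rw [List.cons_append, Up, hU]
      ext x; rfl

/-- the same with one isometry for two states which agree strictly below `q`. -/
theorem Fix2.change2 {W : List ℕ → Submodule ℝ E} (hW : Mono2 W) {X X' : List ℕ → (E ≃ₗᵢ[ℝ] E)}
    (hX : Fix2 W X) {q r : List ℕ} (h : q <:+ r)
    (he : ∀ s, s <:+ r → q <:+ s → s ≠ q → X s = X' s) :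
    ∃ C : E ≃ₗᵢ[ℝ] E, (∀ x ∈ W q, C x = x) ∧ Up X r = C.trans (Up X q) ∧
      Up X' r = C.trans (Up X' q) := by
  obtain ⟨s, rfl⟩ := h
  induction s with
  | nil => exact ⟨LinearIsometryEquiv.refl ℝ E, fun _ _ => rfl, by ext x; rfl, by ext x; rfl⟩
  | cons c s ih =>
    obtain ⟨C, hC, hU, hU'⟩ := ih fun u hu1 hu2 hu3 =>
      he u (hu1.trans (List.suffix_cons c (s ++ q))) hu2 hu3
    have e1 : X (c :: (s ++ q)) = X' (c :: (s ++ q)) := by
      refine he _ (List.suffix_refl _) ⟨c :: s, rfl⟩ fun h0 => ?_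
      have := congrArg List.length h0
      simp at this
      omega
    refine ⟨(X (c :: (s ++ q))).trans C, fun x hx => ?_, ?_, ?_⟩
    · rw [LinearIsometryEquiv.trans_apply, hX c (s ++ q) x (hW.suffix ⟨s, rfl⟩ hx), hC x hx]
    · rw [List.cons_append, Up, hU]
      ext x; rfl
    · rw [List.cons_append, Up, hU', ← e1]
      ext x; rfl

/-- one plane rotation of the path `q`, in the plane `(θ, b)`: `θ` a new label direction of `q`, `b`
orthogonal to the label space of `q`. -/
def Rot2 (W : List ℕ → Submodule ℝ E) (X : List ℕ → (E ≃ₗᵢ[ℝ] E)) (q : List ℕ) (φ : ℝ)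
    (X' : List ℕ → (E ≃ₗᵢ[ℝ] E)) : Prop :=
  ∃ (θ b : E) (h : ON θ b), θ ∈ W q ∧ θ ∈ (W q.tail)ᗮ ∧ b ∈ (W q)ᗮ ∧ 0 ≤ φ ∧ φ ≤ Real.pi / 2 ∧
    X' = Function.update X q ((rotE h φ).trans (X q))

section rot

variable {W : List ℕ → Submodule ℝ E} {X X' : List ℕ → (E ≃ₗᵢ[ℝ] E)} {q : List ℕ} {φ : ℝ}

lemma Rot2.nonneg (h : Rot2 W X q φ X') : 0 ≤ φ := by
  obtain ⟨_, _, _, _, _, _, h0, -, -⟩ := h
  exact h0

lemma Rot2.le (h : Rot2 W X q φ X') : φ ≤ Real.pi / 2 := by
  obtain ⟨_, _, _, _, _, _, -, h0, -⟩ := h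
  exact h0

lemma Rot2.of_ne (h : Rot2 W X q φ X') {r : List ℕ} (hr : r ≠ q) : X' r = X r := by
  obtain ⟨_, _, _, _, _, _, _, _, rfl⟩ := h
  rw [Function.update_of_ne hr]

lemma Rot2.fix (h : Rot2 W X q φ X') (hW : Mono2 W) (hX : Fix2 W X) : Fix2 W X' := by
  obtain ⟨θ, b, hON, h1, h2, h3, h4, h5, rfl⟩ := h
  intro c p x hx
  by_cases hcp : c :: p = q
  · subst hcp
    rw [Function.update_self, LinearIsometryEquiv.trans_apply, rotE_apply,
      rotL_of_perp _ ((Submodule.mem_orthogonal' _ _).1 h2 x hx)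
        ((Submodule.mem_orthogonal' _ _).1 h3 x (hW c p hx))]
    exact hX c p x hx
  · rw [Function.update_of_ne hcp]
    exact hX c p x hx

/-- paths which do not have `q` as a suffix do not see the rotation. -/
lemma Rot2.U_of_not (h : Rot2 W X q φ X') {r : List ℕ} (hr : ¬ q <:+ r) : Up X' r = Up X r :=
  Up_congr fun _ hp _ => h.of_ne fun h0 => hr (h0 ▸ hp)

/-- all the descendants of `q` see a rotation with the same label direction `θ` and the same
angle. -/
theorem Rot2.U_of_suffix (h : Rot2 W X q φ X') (hq : q ≠ []) (hW : Mono2 W) (hX : Fix2 W X) :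
    ∃ θ, θ ∈ W q ∧ θ ∈ (W q.tail)ᗮ ∧ ∀ r, q <:+ r →
      ∃ (b : E) (hb : ON θ b), b ∈ (W q)ᗮ ∧ Up X' r = (rotE hb φ).trans (Up X r) := by
  have hsuff := fun (r : List ℕ) (hr : ¬ q <:+ r) => h.U_of_not hr
  have hX' := h.fix hW hX
  have hne := fun (r : List ℕ) (hr : r ≠ q) => h.of_ne hr
  obtain ⟨θ, b, hON, h1, h2, h3, h4, h5, h6⟩ := h
  refine ⟨θ, h1, h2, fun r hr => ?_⟩
  -- at `q` itself
  have hUq : Up X' q = (rotE hON φ).trans (Up X q) := by
    obtain ⟨c, p, rfl⟩ := List.exists_cons_of_ne_nil hq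
    have hp : ¬ (c :: p) <:+ p := by
      intro h0
      have := h0.length_le
      simp at this
    rw [Up, Up, hsuff p hp, h6, Function.update_self]
    ext x; rfl
  obtain ⟨C, hC, hU, hU'⟩ := hX.change2 (X' := X') hW hr fun s _ _ hs => (hne s hs).symm
  have hCθ : C.symm θ = θ := by
    apply C.injective
    rw [LinearIsometryEquiv.apply_symm_apply]
    exact (hC θ h1).symm
  have hON' : ON θ (C.symm b) := by
    have := hON.map C.symm
    rwa [hCθ] at this
  refine ⟨C.symm b, hON', ?_, ?_⟩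
  · rw [Submodule.mem_orthogonal]
    intro x hx
    rw [← C.inner_map_map, LinearIsometryEquiv.apply_symm_apply, hC x hx]
    exact (Submodule.mem_orthogonal _ _).1 h3 x hx
  · rw [hU', hUq, hU]
    ext x
    simp only [LinearIsometryEquiv.trans_apply, rotE_apply]
    congr 1
    have := rotL_map C θ (C.symm b) φ x
    rw [LinearIsometryEquiv.apply_symm_apply, hC θ h1] at this
    exact this

/-- a sequence of plane rotations. -/
inductive RSeq2 (W : List ℕ → Submodule ℝ E) :
    (List ℕ → (E ≃ₗᵢ[ℝ] E)) → List (List ℕ × ℝ) → (List ℕ → (E ≃ₗᵢ[ℝ] E)) → Prop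
  | nil (X : List ℕ → (E ≃ₗᵢ[ℝ] E)) : RSeq2 W X [] X
  | cons {X X' X'' : List ℕ → (E ≃ₗᵢ[ℝ] E)} {q : List ℕ} {φ : ℝ} {l : List (List ℕ × ℝ)}
      (h : Rot2 W X q φ X') (t : RSeq2 W X' l X'') : RSeq2 W X ((q, φ) :: l) X''

lemma RSeq2.append {X'' : List ℕ → (E ≃ₗᵢ[ℝ] E)} {l l' : List (List ℕ × ℝ)}
    (h : RSeq2 W X l X') (h' : RSeq2 W X' l' X'') : RSeq2 W X (l ++ l') X'' := by
  induction h with
  | nil => exact h'
  | cons h _ ih => exact RSeq2.cons h (ih h')

lemma RSeq2.nonneg {l : List (List ℕ × ℝ)} (h : RSeq2 W X l X') : ∀ p ∈ l, 0 ≤ p.2 := by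
  induction h with
  | nil => intro p hp; simp at hp
  | cons h _ ih =>
    intro p hp
    rcases List.mem_cons.1 hp with rfl | hp
    · exact h.nonneg
    · exact ih p hp

/-- the states of a sequence of rotations. -/
lemma RSeq2.states {l : List (List ℕ × ℝ)} (h : RSeq2 W X l X') :
    ∃ Y : ℕ → (List ℕ → (E ≃ₗᵢ[ℝ] E)), Y 0 = X ∧ Y l.length = X' ∧
      ∀ k, k < l.length → Rot2 W (Y k) (l.getD k ([], 0)).1 (l.getD k ([], 0)).2 (Y (k + 1)) := by
  induction h with
  | nil X => exact ⟨fun _ => X, rfl, rfl, fun k hk => absurd hk (by simp)⟩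
  | @cons X X' X'' q φ l h _ ih =>
    obtain ⟨Y, h1, h2, h3⟩ := ih
    refine ⟨fun k => if k = 0 then X else Y (k - 1), by simp, ?_, ?_⟩
    · simp only [List.length_cons]
      rw [if_neg (by omega), Nat.add_sub_cancel]
      exact h2
    · intro k hk
      rcases Nat.eq_zero_or_pos k with rfl | hk0
      · have e2 : (if 0 + 1 = 0 then X else Y (0 + 1 - 1)) = X' := by
          rw [if_neg (by omega)]; exact h1
        simp only [List.getD_cons_zero]
        rw [e2]
        exact h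
      · obtain ⟨k, rfl⟩ : ∃ k', k = k' + 1 := ⟨k - 1, by omega⟩
        have e1 : (if k + 1 = 0 then X else Y (k + 1 - 1)) = Y k := by
          rw [if_neg (by omega), Nat.add_sub_cancel]
        have e2 : (if k + 1 + 1 = 0 then X else Y (k + 1 + 1 - 1)) = Y (k + 1) := by
          rw [if_neg (by omega), Nat.add_sub_cancel]
        simp only [List.getD_cons_succ]
        rw [e1, e2]
        exact h3 k (by simpa using hk)

variable [FiniteDimensional ℝ E]

lemma exists_rseq2 (hW : Mono2 W) (hq : q ≠ []) {Q : E ≃ₗᵢ[ℝ] E} {α : ℝ}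
    (h : PRF (W q.tail)ᗮ (W q ⊓ (W q.tail)ᗮ) Q α) : ∀ X : List ℕ → (E ≃ₗᵢ[ℝ] E),
    ∃ l, RSeq2 W X l (Function.update X q (Q.trans (X q))) ∧ (∀ p ∈ l, p.1 = q) ∧
      (l.map Prod.snd).sum = α := by
  induction h with
  | nil =>
    intro X
    refine ⟨[], ?_, by simp, by simp⟩
    have : Function.update X q ((LinearIsometryEquiv.refl ℝ E).trans (X q)) = X := by
      have e : (LinearIsometryEquiv.refl ℝ E).trans (X q) = X q := by ext x; rfl
      rw [e, Function.update_eq_self]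
    rw [this]; exact RSeq2.nil X
  | @cons θ b h hθ hb hbF φ h0 h1 Q α _ ih =>
    intro X
    have hle : W q.tail ≤ W q := by
      obtain ⟨c, p, rfl⟩ := List.exists_cons_of_ne_nil hq
      exact hW c p
    have hbq : b ∈ (W q)ᗮ := by
      rw [Submodule.mem_orthogonal]
      intro x hx
      have h2 : (W q.tail).starProjection x ∈ W q.tail := Submodule.starProjection_apply_mem _ _
      have h3 : x - (W q.tail).starProjection x ∈ W q ⊓ (W q.tail)ᗮ :=
        ⟨Submodule.sub_mem _ hx (hle h2), Submodule.sub_starProjection_mem_orthogonal _⟩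
      have h4 := (Submodule.mem_orthogonal _ _).1 hb _ h3
      have h5 := (Submodule.mem_orthogonal _ _).1 hbF _ h2
      rw [inner_sub_left, h5, sub_zero] at h4
      exact h4
    obtain ⟨l, hl1, hl2, hl3⟩ := ih (Function.update X q ((rotE h φ).trans (X q)))
    refine ⟨(q, φ) :: l, RSeq2.cons ⟨θ, b, h, hθ.1, hθ.2, hbq, h0, h1, rfl⟩ ?_, ?_, ?_⟩
    · rw [Function.update_self, Function.update_idem] at hl1
      exact hl1
    · intro p hp
      rcases List.mem_cons.1 hp with rfl | hp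
      · rfl
      · exact hl2 p hp
    · rw [List.map_cons, List.sum_cons, hl3]

end rot

/-- total angle of the rotations of the path `q`. -/
noncomputable def ang2 (l : List (List ℕ × ℝ)) (q : List ℕ) : ℝ :=
  (l.map fun p => if p.1 = q then p.2 else 0).sum

lemma ang2_append (l l' : List (List ℕ × ℝ)) (q : List ℕ) :
    ang2 (l ++ l') q = ang2 l q + ang2 l' q := by
  unfold ang2; rw [List.map_append, List.sum_append]

lemma ang2_same {l : List (List ℕ × ℝ)} {q : List ℕ} (h : ∀ p ∈ l, p.1 = q) :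
    ang2 l q = (l.map Prod.snd).sum := by
  unfold ang2
  congr 1
  exact List.map_congr_left fun p hp => by rw [if_pos (h p hp)]

lemma ang2_other {l : List (List ℕ × ℝ)} {q : List ℕ} (h : ∀ p ∈ l, p.1 ≠ q) :
    ang2 l q = 0 := by
  unfold ang2
  have : (l.map fun p => if p.1 = q then p.2 else 0) = l.map fun _ => 0 :=
    List.map_congr_left fun p hp => by rw [if_neg (h p hp)]
  rw [this]
  simp

lemma ang2_eq_sum (l : List (List ℕ × ℝ)) (q : List ℕ) :
    ang2 l q = ∑ k ∈ Finset.range l.length,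
      (if (l.getD k ([], 0)).1 = q then (l.getD k ([], 0)).2 else 0) := by
  unfold ang2
  induction l with
  | nil => simp
  | cons p l ih =>
    rw [List.map_cons, List.sum_cons, ih, List.length_cons, Finset.sum_range_succ']
    simp only [List.getD_cons_succ, List.getD_cons_zero]
    rw [add_comm]

variable [FiniteDimensional ℝ E] {v : ℕ → E} {T : ℕ} {N : ℕ → ℝ} {δ ρ : ℝ}

lemma K2.mono2 (K : K2 v T N δ ρ) (t : ℕ) : Mono2 fun q => K.W q t := fun c p => K.W_le c p t

lemma K2.fix2 (K : K2 v T N δ ρ) (t : ℕ) : Fix2 (fun q => K.W q t) fun q => K.P q t :=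
  fun c p _ hx => K.P_fix c p t hx

/-- transition from `t` to `t + 1` for a finite list of paths. -/
theorem K2.transition (K : K2 v T N δ ρ) {t : ℕ} (ht : t + 1 < T) :
    ∀ (g : List (List ℕ)), g.Nodup → (∀ q ∈ g, q ≠ []) →
    ∃ (l : List (List ℕ × ℝ)) (X' : List ℕ → (E ≃ₗᵢ[ℝ] E)),
      RSeq2 (fun q => K.W q t) (fun q => K.P q t) l X' ∧
      (∀ q ∈ g, t + 1 ∉ K.nw q → X' q = K.P q (t + 1)) ∧
      (∀ q, q ∉ g → X' q = K.P q t) ∧
      (∀ p ∈ l, p.1 ∈ g ∧ t + 1 ∉ K.nw p.1) ∧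
      (∀ c p, c :: p ∈ g → ang2 l (c :: p) ≤ K.al (c :: p) t) := by
  intro g
  induction g with
  | nil =>
    intro _ _
    exact ⟨[], fun q => K.P q t, RSeq2.nil _, by simp, fun _ _ => rfl, by simp, by simp⟩
  | cons q g ih =>
    intro hnd hne
    obtain ⟨hqg, hnd'⟩ := List.nodup_cons.1 hnd
    obtain ⟨l, X', h1, h2, h3, h4, h5⟩ := ih hnd' fun r hr => hne r (List.mem_cons_of_mem _ hr)
    have hq := hne q List.mem_cons_self
    have hl0 : ang2 l q = 0 := ang2_other fun p hp hpq => hqg (hpq ▸ (h4 p hp).1)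
    by_cases hn : t + 1 ∈ K.nw q
    · refine ⟨l, X', h1, ?_, fun r hr => h3 r fun h => hr (List.mem_cons_of_mem _ h),
        fun p hp => ⟨List.mem_cons_of_mem _ (h4 p hp).1, (h4 p hp).2⟩, ?_⟩
      · intro r hr hrn
        rcases List.mem_cons.1 hr with rfl | hr
        · exact absurd hn hrn
        · exact h2 r hr hrn
      · intro c p hcp
        rcases List.mem_cons.1 hcp with h | h
        · rw [h, hl0, ← h]; exact K.al_nonneg c p t
        · exact h5 c p h
    · obtain ⟨c, p, rfl⟩ := List.exists_cons_of_ne_nil hq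
      obtain ⟨Q, hQ, hQP⟩ := K.step (c := c) (p := p) ht hn
      obtain ⟨l', g1, g2, g3⟩ := exists_rseq2 (K.mono2 t) (q := c :: p) hq hQ X'
      have hXq : X' (c :: p) = K.P (c :: p) t := h3 _ hqg
      refine ⟨l ++ l', Function.update X' (c :: p) (Q.trans (X' (c :: p))), h1.append g1, ?_, ?_,
        ?_, ?_⟩
      · intro r hr hrn
        by_cases hrq : r = c :: p
        · subst hrq
          rw [Function.update_self, hXq, hQP]
        · rw [Function.update_of_ne hrq]
          exact h2 r ((List.mem_cons.1 hr).resolve_left hrq) hrn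
      · intro r hr
        have hrq : r ≠ c :: p := fun h => hr (h ▸ List.mem_cons_self)
        rw [Function.update_of_ne hrq]
        exact h3 r fun h => hr (List.mem_cons_of_mem _ h)
      · intro r hr
        rcases List.mem_append.1 hr with hr | hr
        · exact ⟨List.mem_cons_of_mem _ (h4 r hr).1, (h4 r hr).2⟩
        · rw [g2 r hr]; exact ⟨List.mem_cons_self, hn⟩
      · intro c' p' hcp
        rw [ang2_append]
        by_cases hcq : c' :: p' = c :: p
        · rw [hcq, hl0, zero_add, ang2_same g2, g3]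
        · have h6 : ang2 l' (c' :: p') = 0 := ang2_other fun r hr h0 => hcq (by
            rw [← h0, g2 r hr])
          rw [h6, add_zero]
          exact h5 c' p' ((List.mem_cons.1 hcp).resolve_left hcq)

end Vale.Agent.P262.H118
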