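import Vale.Agent.P262.H118.El2

/-!
# P262, milestone 2: the list of elementary moves on `K2` as arrays (block FRM)

Same conventions as in milestone 1 (`Elem2.lean`): the moves of the step `t` are
`m ∈ [n t, n (t+1))`: `m = n t` is the star, `n t < m < n (t+1) - 1` are plane rotations of one path
`jj m`, `m = n (t+1) - 1` is the reopening of the paths whose life ends.
-/

namespace Vale.Agent.P262.H118

open RealInnerProductSpace Module Vale.Agent.P262.H274

variable {E : Type*} [NormedAddCommGroup E] [InnerProductSpace ℝ E] [FiniteDimensional ℝ E]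
  {v : ℕ → E} {T : ℕ} {N : ℕ → ℝ} {δ ρ : ℝ}

/-! ### finite sets of paths -/

/-- paths of length `≤ n` with classes `≤ cm`. -/
def paths (cm : ℕ) : ℕ → Finset (List ℕ)
  | 0 => {[]}
  | n + 1 => insert [] ((Finset.range (cm + 1) ×ˢ paths cm n).image fun z => z.1 :: z.2)

lemma mem_paths {cm n : ℕ} {q : List ℕ} :
    q ∈ paths cm n ↔ q.length ≤ n ∧ ∀ c ∈ q, c ≤ cm := by
  induction n generalizing q with
  | zero =>
    rw [paths, Finset.mem_singleton]
    constructor
    · rintro rfl; simp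
    · rintro ⟨h, -⟩
      exact List.length_eq_zero_iff.1 (by omega)
  | succ n ih =>
    rw [paths, Finset.mem_insert, Finset.mem_image]
    constructor
    · rintro (rfl | ⟨⟨c, p⟩, h, rfl⟩)
      · simp
      · rw [Finset.mem_product, Finset.mem_range] at h
        obtain ⟨h1, h2⟩ := h
        have h3 := ih.1 h2
        refine ⟨by simpa using h3.1, fun c' hc' => ?_⟩
        rcases List.mem_cons.1 hc' with rfl | h4
        · change c' < cm + 1 at h1; omega
        · exact h3.2 c' h4
    · rintro ⟨h1, h2⟩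
      cases q with
      | nil => exact Or.inl rfl
      | cons c p =>
        refine Or.inr ⟨(c, p), ?_, rfl⟩
        rw [Finset.mem_product, Finset.mem_range]
        refine ⟨?_, ih.2 ⟨by simpa using h1, fun c' hc' => h2 c' (List.mem_cons_of_mem _ hc')⟩⟩
        have := h2 c List.mem_cons_self
        change c < cm + 1
        omega

/-- closed under taking the parent. -/
def Cl (G : Finset (List ℕ)) : Prop := ∀ p q, p <:+ q → q ∈ G → p ∈ G

lemma cl_paths (cm n : ℕ) : Cl (paths cm n) := by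
  intro p q h hq
  rw [mem_paths] at hq ⊢
  exact ⟨h.length_le.trans hq.1, fun c hc => hq.2 c (h.subset hc)⟩

/-- **Elementary moves**, for the paths in `G`. -/
structure El2 (K : K2 v T N δ ρ) (G : Finset (List ℕ)) where
  n : ℕ → ℕ
  Q : ℕ → List ℕ → (E ≃ₗᵢ[ℝ] E)
  jj : ℕ → List ℕ
  ph : ℕ → ℝ
  n_zero : n 0 = 0
  n_succ : ∀ t, n t + 2 ≤ n (t + 1)
  fix : ∀ m, Fix2 (fun q => K.W q (tau n m)) (Q m)
  start : ∀ t, t < T → Q (n t) = fun q => K.P q t
  star : ∀ t, Q (n t + 1) = Q (n t)
  rot : ∀ t m, n t < m → m + 1 < n (t + 1) →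
    Rot2 (fun q => K.W q t) (Q m) (jj m) (ph m) (Q (m + 1)) ∧
    t + 1 < T ∧ jj m ∈ G ∧ jj m ≠ [] ∧ t + 1 ∉ K.nw (jj m)
  reopen : ∀ t, t + 1 < T → ∀ q ∈ G, q ≠ [] → t + 1 ∉ K.nw q →
    Q (n (t + 1)) q = Q (n (t + 1) - 1) q
  angle : ∀ t c p, c :: p ∈ G →
    ∑ m ∈ Finset.Ico (n t + 1) (n (t + 1) - 1), (if jj m = c :: p then ph m else 0)
      ≤ K.al (c :: p) t
  ph_nonneg : ∀ m, 0 ≤ ph m

theorem exists_El2 (K : K2 v T N δ ρ) (G : Finset (List ℕ)) : Nonempty (El2 K G) := by
  classical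
  set g : List (List ℕ) := (G.erase []).toList with hg
  have hgnd : g.Nodup := Finset.nodup_toList _
  have hgmem : ∀ q, q ∈ g ↔ q ∈ G ∧ q ≠ [] := by
    intro q
    rw [hg, Finset.mem_toList, Finset.mem_erase]
    exact and_comm
  -- data of the transitions
  have htr : ∀ t, ∃ (l : List (List ℕ × ℝ)) (X : ℕ → (List ℕ → (E ≃ₗᵢ[ℝ] E))),
      (X 0 = if t < T then (fun q => K.P q t) else fun _ => LinearIsometryEquiv.refl ℝ E) ∧
      (∀ k, k < l.length → Rot2 (fun q => K.W q t) (X k) (l.getD k ([], 0)).1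
        (l.getD k ([], 0)).2 (X (k + 1)) ∧ t + 1 < T ∧ (l.getD k ([], 0)).1 ∈ G ∧
        (l.getD k ([], 0)).1 ≠ [] ∧ t + 1 ∉ K.nw (l.getD k ([], 0)).1) ∧
      (∀ k, l.length ≤ k → X k = X l.length) ∧
      (t + 1 < T → ∀ q ∈ G, q ≠ [] → t + 1 ∉ K.nw q → X l.length q = K.P q (t + 1)) ∧
      (∀ c p, c :: p ∈ G → ang2 l (c :: p) ≤ K.al (c :: p) t) ∧ ∀ p ∈ l, 0 ≤ p.2 := by
    intro t
    by_cases ht : t + 1 < T
    · obtain ⟨l, X', h1, h2, h3, h4, h5⟩ := K.transition ht g hgnd fun q hq => ((hgmem q).1 hq).2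
      obtain ⟨X, g1, g2, g3⟩ := h1.states
      refine ⟨l, fun k => X (min k l.length), ?_, ?_, ?_, ?_,
        fun c p hcp => h5 c p ((hgmem _).2 ⟨hcp, List.cons_ne_nil _ _⟩), h1.nonneg⟩
      · rw [if_pos (by omega)]
        change X (min 0 l.length) = _
        rw [Nat.zero_min, g1]
      · intro k hk
        have e1 : min k l.length = k := by omega
        have e2 : min (k + 1) l.length = k + 1 := by omega
        simp only [e1, e2]
        have hmem : l.getD k ([], 0) ∈ l := by
          rw [List.getD_eq_getElem _ _ hk]; exact List.getElem_mem hk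
        obtain ⟨h6, h7⟩ := h4 _ hmem
        obtain ⟨h8, h9⟩ := (hgmem _).1 h6
        exact ⟨g3 k hk, ht, h8, h9, h7⟩
      · intro k hk
        have e1 : min k l.length = l.length := by omega
        simp only [e1, min_self]
      · intro _ q hq hq0 hn
        simp only [min_self]
        rw [g2]; exact h2 q ((hgmem q).2 ⟨hq, hq0⟩) hn
    · refine ⟨[], fun _ => if t < T then (fun q => K.P q t) else
        fun _ => LinearIsometryEquiv.refl ℝ E, rfl, fun k hk => absurd hk (by simp),
        fun k _ => rfl, fun h => absurd h ht,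
        fun c p _ => by simpa [ang2] using K.al_nonneg c p t, by simp⟩
  choose l X hX0 hrot hconst hend hang hnn using htr
  let n : ℕ → ℕ := fun t => Nat.rec 0 (fun t m => m + 2 + (l t).length) t
  have hn0 : n 0 = 0 := rfl
  have hns : ∀ t, n (t + 1) = n t + 2 + (l t).length := fun _ => rfl
  have hlt : ∀ t, n t < n (t + 1) := fun t => by rw [hns]; omega
  have hτ : ∀ {t m}, n t ≤ m → m < n (t + 1) → tau n m = t := fun h1 h2 => tau_eq hn0 hlt h1 h2
  let Q : ℕ → List ℕ → (E ≃ₗᵢ[ℝ] E) := fun m => X (tau n m) (m - n (tau n m) - 1)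
  let D : ℕ → List ℕ × ℝ := fun m => (l (tau n m)).getD (m - n (tau n m) - 1) ([], 0)
  have hQ : ∀ {t m}, n t ≤ m → m < n (t + 1) → Q m = X t (m - n t - 1) := by
    intro t m h1 h2
    simp only [Q]
    rw [hτ h1 h2]
  have hD : ∀ {t m}, n t ≤ m → m < n (t + 1) → D m = (l t).getD (m - n t - 1) ([], 0) := by
    intro t m h1 h2
    simp only [D]
    rw [hτ h1 h2]
  have hXfix : ∀ t k, Fix2 (fun q => K.W q t) (X t k) := by
    intro t k
    have h0 : Fix2 (fun q => K.W q t) (X t 0) := by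
      rw [hX0]
      split_ifs
      · exact K.fix2 t
      · exact fun c p x hx => rfl
    have h1 : ∀ k, k ≤ (l t).length → Fix2 (fun q => K.W q t) (X t k) := by
      intro k
      induction k with
      | zero => exact fun _ => h0
      | succ k ih =>
        intro hk
        exact (hrot t k (by omega)).1.fix (K.mono2 t) (ih (by omega))
    rcases le_total k (l t).length with h | h
    · exact h1 k h
    · rw [hconst t k h]; exact h1 _ le_rfl
  exact ⟨{
    n := n
    Q := Q
    jj := fun m => (D m).1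
    ph := fun m => (D m).2
    n_zero := hn0
    n_succ := fun t => by rw [hns]; omega
    fix := fun m => hXfix _ _
    start := fun t ht => by
      rw [hQ le_rfl (hlt t)]
      have : n t - n t - 1 = 0 := by omega
      rw [this, hX0, if_pos ht]
    star := fun t => by
      rw [hQ le_rfl (hlt t), hQ (t := t) (by omega) (by rw [hns]; omega)]
      have e1 : n t - n t - 1 = 0 := by omega
      have e2 : n t + 1 - n t - 1 = 0 := by omega
      rw [e1, e2]
    rot := fun t m h1 h2 => by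
      have h3 : m < n (t + 1) := by omega
      rw [hQ h1.le h3, hQ (t := t) (m := m + 1) (by omega) h2, hD h1.le h3]
      rw [hns] at h2
      have e : m + 1 - n t - 1 = m - n t - 1 + 1 := by omega
      rw [e]
      exact hrot t (m - n t - 1) (by omega)
    reopen := fun t ht q hq hq0 hn => by
      rw [hQ (t := t + 1) (m := n (t + 1)) le_rfl (hlt (t + 1)),
        hQ (t := t) (m := n (t + 1) - 1) (by rw [hns]; omega) (by have := hlt t; omega)]
      have e1 : n (t + 1) - n (t + 1) - 1 = 0 := by omega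
      have e2 : n (t + 1) - 1 - n t - 1 = (l t).length := by rw [hns]; omega
      rw [e1, e2, hX0, if_pos ht, hend t ht q hq hq0 hn]
    angle := fun t c p hcp => by
      refine le_trans (le_of_eq ?_) (hang t c p hcp)
      rw [ang2_eq_sum]
      have e1 : n (t + 1) - 1 = n t + 1 + (l t).length := by rw [hns]; omega
      rw [e1, Finset.sum_Ico_eq_sum_range]
      have e2 : n t + 1 + (l t).length - (n t + 1) = (l t).length := by omega
      rw [e2]
      refine Finset.sum_congr rfl fun k hk => ?_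
      rw [Finset.mem_range] at hk
      rw [hD (t := t) (m := n t + 1 + k) (by omega) (by rw [hns]; omega)]
      have e3 : n t + 1 + k - n t - 1 = k := by omega
      rw [e3]
    ph_nonneg := fun m => by
      simp only [D]
      rcases Nat.lt_or_ge (m - n (tau n m) - 1) (l (tau n m)).length with h | h
      · rw [List.getD_eq_getElem _ _ h]
        exact hnn _ _ (List.getElem_mem h)
      · rw [List.getD_eq_default _ _ h] }⟩

namespace El2

variable {K : K2 v T N δ ρ} {G : Finset (List ℕ)} (M : El2 K G)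

/-- isometry of the coordinates of the path `q` at state `m`. -/
noncomputable def U (q : List ℕ) (m : ℕ) : E ≃ₗᵢ[ℝ] E := Up (M.Q m) q

/-- time step of the state `m`. -/
noncomputable def tm (m : ℕ) : ℕ := tau M.n m

lemma U_nil (m : ℕ) : M.U [] m = LinearIsometryEquiv.refl ℝ E := rfl

lemma U_cons (c : ℕ) (p : List ℕ) (m : ℕ) : M.U (c :: p) m = (M.Q m (c :: p)).trans (M.U p m) := rfl

lemma n_lt (t : ℕ) : M.n t < M.n (t + 1) := by have := M.n_succ t; omega

lemma tm_eq {m t : ℕ} (h1 : M.n t ≤ m) (h2 : m < M.n (t + 1)) : M.tm m = t :=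
  tau_eq M.n_zero M.n_lt h1 h2

lemma tm_spec (m : ℕ) : M.n (M.tm m) ≤ m ∧ m < M.n (M.tm m + 1) := tau_spec M.n_zero M.n_lt m

lemma tm_n (t : ℕ) : M.tm (M.n t) = t := M.tm_eq le_rfl (M.n_lt t)

lemma U_start {t : ℕ} (ht : t < T) (q : List ℕ) : M.U q (M.n t) = K.S q t := by
  unfold U
  rw [M.start t ht]
  induction q with
  | nil => rw [K.S_nil]; rfl
  | cons c p ih => rw [Up, ih, K.S_cons]

lemma U_star (t : ℕ) (q : List ℕ) : M.U q (M.n t + 1) = M.U q (M.n t) := by
  unfold U; rw [M.star t]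

/-- rotations are not seen by the paths which do not have `jj m` as a suffix. -/
lemma U_rot_not {t m : ℕ} (h1 : M.n t < m) (h2 : m + 1 < M.n (t + 1)) {r : List ℕ}
    (hr : ¬ M.jj m <:+ r) : M.U r (m + 1) = M.U r m := (M.rot t m h1 h2).1.U_of_not hr

/-- rotations seen by the paths which have `jj m` as a suffix: same direction `θ`, same angle. -/
lemma U_rot {t m : ℕ} (h1 : M.n t < m) (h2 : m + 1 < M.n (t + 1)) :
    ∃ θ, θ ∈ K.W (M.jj m) t ∧ θ ∈ (K.W (M.jj m).tail t)ᗮ ∧ ∀ r, M.jj m <:+ r →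
      ∃ (b : E) (hb : ON θ b), b ∈ (K.W (M.jj m) t)ᗮ ∧
        M.U r (m + 1) = (rotE hb (M.ph m)).trans (M.U r m) := by
  have h3 := M.fix m
  rw [show tau M.n m = t from M.tm_eq h1.le (by omega)] at h3
  exact (M.rot t m h1 h2).1.U_of_suffix (M.rot t m h1 h2).2.2.2.1 (K.mono2 t) h3

/-- reopening is not seen by the surviving paths. -/
lemma U_reopen (hG : Cl G) {t : ℕ} (ht : t + 1 < T) {q : List ℕ} (hq : q ∈ G)
    (h : t + 1 ∉ K.nw q) : M.U q (M.n (t + 1)) = M.U q (M.n (t + 1) - 1) :=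
  Up_congr fun p hp hp0 => M.reopen t ht p (hG p q hp hq) hp0 fun h' => h (K.nw_mono hp h')

/-- a rotation in step `t` concerns a surviving path. -/
lemma rot_survive {t m : ℕ} (h1 : M.n t < m) (h2 : m + 1 < M.n (t + 1)) {p : List ℕ}
    (hp : p <:+ M.jj m) : t + 1 ∉ K.nw p :=
  fun h => (M.rot t m h1 h2).2.2.2.2 (K.nw_mono hp h)

/-- total angle of a path over one of its lives. -/
theorem angle_life {c : ℕ} {p : List ℕ} (hG : c :: p ∈ G) {a b : ℕ}
    (h : Iv (K.nw (c :: p)) T a b) :
    ∑ t ∈ Finset.Ico a b, ∑ m ∈ Finset.Ico (M.n t + 1) (M.n (t + 1) - 1),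
      (if M.jj m = c :: p then M.ph m else 0) ≤
        Real.pi * 3 ^ (finrank ℝ (K.W (c :: p) a) - finrank ℝ (K.W p a)) * N c / δ :=
  (Finset.sum_le_sum fun t _ => M.angle t c p hG).trans (K.angle h)

/-- the coordinates of a descendant. -/
theorem exists_change (m : ℕ) {q r : List ℕ} (h : q <:+ r) :
    ∃ C : E ≃ₗᵢ[ℝ] E, (∀ x ∈ K.W q (M.tm m), C x = x) ∧ M.U r m = C.trans (M.U q m) :=
  (M.fix m).change (K.mono2 _) h

/-- the same isometry for both states of a move. -/
theorem exists_change2 {m : ℕ} {q r : List ℕ} (h : q <:+ r)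
    (he : ∀ s, s <:+ r → q <:+ s → s ≠ q → M.Q m s = M.Q (m + 1) s) :
    ∃ C : E ≃ₗᵢ[ℝ] E, (∀ x ∈ K.W q (M.tm m), C x = x) ∧ M.U r m = C.trans (M.U q m) ∧
      M.U r (m + 1) = C.trans (M.U q (m + 1)) :=
  (M.fix m).change2 (K.mono2 _) h he

end El2

end Vale.Agent.P262.H118
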