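import Vale.Agent.P262.H118.SysGeo

/-!
# P262, milestone 1: combinatorics of the blocks of a system, measurability of the rules
-/

open MeasureTheory ProbabilityTheory Set
open scoped ENNReal RealInnerProductSpace
open Vale.Agent.P262.H118 (L Iv st en ONB K1 rotE ON tau wrd L_mono)
open Vale.Agent.P262.H395 (fib mix Inv Fixes)

namespace Vale.Agent.P262.H118

/-! ### `st`, `en` -/

lemma st_mono_set {B B' : Set ℕ} (h : B ⊆ B') (h0 : 0 ∈ B) (t : ℕ) : st B t ≤ st B' t := by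
  by_contra hcon
  push Not at hcon
  exact not_mem_of_st hcon (st_le t) (h (st_mem h0 t))

lemma en_anti {B B' : Set ℕ} (h : B ⊆ B') (h0 : 0 ∈ B) {T t : ℕ} (ht : t < T) :
    en B' T (st B' t) ≤ en B T (st B t) := by
  have h1 := iv_st (B := B) h0 ht
  have h2 := iv_st (B := B') (h h0) ht
  by_contra hcon
  push Not at hcon
  rcases h1.1.2.2.2.1 with h3 | h3
  · exact h2.1.2.2.2.2 _ (by omega) hcon (h h3)
  · have := h2.1.2.2.1
    omega

lemma st_succ_of_mem {B : Set ℕ} {t : ℕ} (h : t + 1 ∈ B) : st B (t + 1) = t + 1 := by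
  have h1 := st_le (B := B) (t + 1)
  by_contra hcon
  exact not_mem_of_st (B := B) (t := t + 1) (r := t + 1) (by omega) le_rfl h

lemma st_succ_of_not_mem {B : Set ℕ} (h0 : 0 ∈ B) {t : ℕ} (h : t + 1 ∉ B) :
    st B (t + 1) = st B t := by
  have h1 := st_mem (B := B) h0 (t + 1)
  have h2 := st_le (B := B) (t + 1)
  have h3 : st B (t + 1) ≠ t + 1 := fun h4 => h (h4 ▸ h1)
  rcases lt_trichotomy (st B (t + 1)) (st B t) with h4 | h4 | h4
  · exact absurd (st_mem (B := B) h0 t) (not_mem_of_st h4 (by have := st_le (B := B) t; omega))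
  · exact h4
  · exact absurd h1 (not_mem_of_st h4 (by omega))

end Vale.Agent.P262.H118

namespace Vale.Agent.P262.M1.Sys

variable {E : Type*} [NormedAddCommGroup E] [InnerProductSpace ℝ E] [FiniteDimensional ℝ E]
  [MeasurableSpace E] [BorelSpace E] (S : Sys E)

open Vale.Agent.P262.H118 (st_mem st_le en_le lt_en iv_st st_mono_set en_anti
  st_succ_of_mem st_succ_of_not_mem)

lemma nb_mono : Monotone S.K.nb :=
  monotone_nat_of_le_succ fun i => (S.K.nb_subset_nw i).trans (S.K.nw_subset_nb (i + 1))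

lemma nw_mono : Monotone S.K.nw :=
  monotone_nat_of_le_succ fun i => (S.K.nw_subset_nb i).trans (S.K.nb_subset_nw i)

/-! ### time blocks -/

lemma sT_le (i m : ℕ) : S.sT i m ≤ S.tm m := st_le _

lemma lt_eT {m : ℕ} (h : S.tm m < S.T) (i : ℕ) : S.tm m < S.eT i m :=
  (iv_st (S.K.zero_mem_nb i) h).2.2

lemma eT_le (i m : ℕ) : S.eT i m ≤ S.T := en_le _ _ _

lemma iv_T {m : ℕ} (h : S.tm m < S.T) (i : ℕ) : Iv (S.K.nb i) S.T (S.sT i m) (S.eT i m) :=
  (iv_st (S.K.zero_mem_nb i) h).1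

lemma sT_mono {i j : ℕ} (hij : i ≤ j) (m : ℕ) : S.sT i m ≤ S.sT j m :=
  st_mono_set (S.nb_mono hij) (S.K.zero_mem_nb i) _

lemma eT_anti {i j : ℕ} (hij : i ≤ j) {m : ℕ} (h : S.tm m < S.T) : S.eT j m ≤ S.eT i m :=
  en_anti (S.nb_mono hij) (S.K.zero_mem_nb i) h

/-- times in one block. -/
lemma sT_eT_eq {i m m' : ℕ} (h1 : S.sT i m' ≤ S.tm m) (h2 : S.tm m < S.eT i m')
    (h : S.tm m' < S.T) : S.sT i m = S.sT i m' ∧ S.eT i m = S.eT i m' := by
  have h3 := S.iv_T h i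
  have h4 := h3.st_eq (S.K.zero_mem_nb i) h1 h2
  refine ⟨h4.1, ?_⟩
  change en (S.K.nb i) S.T (st (S.K.nb i) (S.tm m)) = _
  rw [h4.1]
  exact h4.2

/-! ### `sB`, `eB` -/

lemma sB_of_ne {i : ℕ} (hi : i ≠ S.lf) (m : ℕ) : S.sB i m = S.el.n (S.sT i m) := by
  unfold sB; rw [if_neg hi]

lemma eB_of_ne {i : ℕ} (hi : i ≠ S.lf) (m : ℕ) : S.eB i m = S.el.n (S.eT i m) - 1 := by
  unfold eB; rw [if_neg hi]

lemma sB_lf_star {m : ℕ} (h : S.IsStar m) : S.sB S.lf m = m := by
  unfold sB; rw [if_pos rfl, if_pos h]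

lemma eB_lf_star {m : ℕ} (h : S.IsStar m) : S.eB S.lf m = m + 1 := by
  unfold eB; rw [if_pos rfl, if_pos h]

lemma sB_lf {m : ℕ} (h : ¬ S.IsStar m) : S.sB S.lf m = S.el.n (S.tm m) + 1 := by
  unfold sB; rw [if_pos rfl, if_neg h]

lemma eB_lf {m : ℕ} (h : ¬ S.IsStar m) : S.eB S.lf m = S.el.n (S.tm m + 1) - 1 := by
  unfold eB; rw [if_pos rfl, if_neg h]

lemma n_mono : Monotone S.el.n := S.n_strictMono.monotone

lemma sB_le (i m : ℕ) : S.sB i m ≤ m := by
  have h1 := S.tm_spec m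
  by_cases hi : i = S.lf
  · subst hi
    by_cases hs : S.IsStar m
    · exact (S.sB_lf_star hs).le
    · rw [S.sB_lf hs]
      unfold IsStar at hs
      omega
  · rw [S.sB_of_ne hi]
    exact (S.n_mono (S.sT_le i m)).trans h1.1

lemma le_eB {m : ℕ} (h : S.tm m < S.T) (i : ℕ) : m ≤ S.eB i m := by
  have h1 := S.tm_spec m
  by_cases hi : i = S.lf
  · subst hi
    by_cases hs : S.IsStar m
    · rw [S.eB_lf_star hs]; omega
    · rw [S.eB_lf hs]; omega
  · rw [S.eB_of_ne hi]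
    have h2 := S.n_mono (Nat.succ_le_of_lt (S.lt_eT h i))
    rw [Nat.succ_eq_add_one] at h2
    omega

lemma same_self {m : ℕ} (h : S.tm m < S.T) (i : ℕ) : S.Same i m m := ⟨S.sB_le i m, S.le_eB h i⟩

lemma eB_le_mT {m : ℕ} (h : S.tm m < S.T) (i : ℕ) : S.eB i m ≤ S.mT := by
  have h1 := S.tm_spec m
  have h2 := S.n_mono (Nat.succ_le_of_lt h)
  have h3 := S.el.n_succ (S.tm m)
  rw [Nat.succ_eq_add_one] at h2
  unfold mT
  by_cases hi : i = S.lf
  · subst hi
    by_cases hs : S.IsStar m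
    · rw [S.eB_lf_star hs]
      unfold IsStar at hs
      omega
    · rw [S.eB_lf hs]; omega
  · rw [S.eB_of_ne hi]
    have := S.n_mono (S.eT_le i m)
    omega

/-- blocks are nested. -/
lemma sB_mono {i j : ℕ} (hij : i ≤ j) (hj : j ≤ S.lf) (m : ℕ) : S.sB i m ≤ S.sB j m := by
  have h1 := S.tm_spec m
  by_cases hi : i = S.lf
  · have : i = j := by omega
    rw [this]
  · rw [S.sB_of_ne hi]
    by_cases hj2 : j = S.lf
    · subst hj2
      have h2 := S.n_mono (S.sT_le i m)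
      by_cases hs : S.IsStar m
      · rw [S.sB_lf_star hs]; omega
      · rw [S.sB_lf hs]; omega
    · rw [S.sB_of_ne hj2]
      exact S.n_mono (S.sT_mono hij m)

lemma eB_anti {i j : ℕ} (hij : i ≤ j) (hj : j ≤ S.lf) {m : ℕ} (h : S.tm m < S.T) :
    S.eB j m ≤ S.eB i m := by
  have h1 := S.tm_spec m
  have h3 := S.el.n_succ (S.tm m)
  by_cases hi : i = S.lf
  · have : i = j := by omega
    rw [this]
  · rw [S.eB_of_ne hi]
    by_cases hj2 : j = S.lf
    · subst hj2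
      have h2 := S.n_mono (Nat.succ_le_of_lt (S.lt_eT h i))
      rw [Nat.succ_eq_add_one] at h2
      by_cases hs : S.IsStar m
      · rw [S.eB_lf_star hs]
        unfold IsStar at hs
        omega
      · rw [S.eB_lf hs]; omega
    · rw [S.eB_of_ne hj2]
      have := S.n_mono (S.eT_anti hij h)
      omega

lemma Same.le {l k m' m : ℕ} (h : S.Same l m' m) (hkl : k ≤ l) (hl : l ≤ S.lf)
    (hm : S.tm m' < S.T) : S.Same k m' m :=
  ⟨(S.sB_mono hkl hl m').trans h.1, h.2.trans (S.eB_anti hkl hl hm)⟩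

/-- above the leaf level all the states of a block have the same block. -/
lemma Same.eq {l m' m : ℕ} (h : S.Same l m' m) (hl : l ≠ S.lf) (hm : S.tm m' < S.T) :
    S.sB l m = S.sB l m' ∧ S.eB l m = S.eB l m' := by
  obtain ⟨h1, h2⟩ := h
  rw [S.sB_of_ne hl] at h1
  rw [S.eB_of_ne hl] at h2
  have h3 := S.tm_spec m
  have h4 : S.sT l m' ≤ S.tm m := by
    have := S.n_strictMono.lt_iff_lt.1 (h1.trans_lt h3.2)
    omega
  have h5 : S.tm m < S.eT l m' := by
    refine S.n_strictMono.lt_iff_lt.1 ?_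
    have h6 := S.n_strictMono (S.lt_eT hm l)
    omega
  obtain ⟨h6, h7⟩ := S.sT_eT_eq h4 h5 hm
  rw [S.sB_of_ne hl, S.sB_of_ne hl, S.eB_of_ne hl, S.eB_of_ne hl, h6, h7]
  exact ⟨rfl, rfl⟩

/-- at any level all the moves of a block have the same block. -/
lemma eq_of_lt {l m' m : ℕ} (h1 : S.sB l m' ≤ m) (h2 : m < S.eB l m') (hm : S.tm m' < S.T) :
    S.sB l m = S.sB l m' ∧ S.eB l m = S.eB l m' := by
  by_cases hl : l = S.lf
  · subst hl
    have h3 := S.tm_spec m'
    have h4 := S.el.n_succ (S.tm m')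
    by_cases hs : S.IsStar m'
    · rw [S.sB_lf_star hs] at h1
      rw [S.eB_lf_star hs] at h2
      have : m = m' := by omega
      rw [this]; exact ⟨rfl, rfl⟩
    · rw [S.sB_lf hs] at h1
      rw [S.eB_lf hs] at h2
      have h5 : S.tm m = S.tm m' := S.tm_eq (by omega) (by omega)
      have h6 : ¬ S.IsStar m := by unfold IsStar; rw [h5]; omega
      rw [S.sB_lf hs, S.eB_lf hs, S.sB_lf h6, S.eB_lf h6, h5]
      exact ⟨rfl, rfl⟩
  · exact Same.eq S ⟨h1, h2.le⟩ hl hm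

/-! ### which moves stay inside a block -/

/-- a star stays inside every block above the leaf level. -/
lemma star_inside {m : ℕ} (h : S.IsStar m) {l : ℕ} (hl : l ≠ S.lf) (hm : S.tm m < S.T) :
    m < S.eB l m ∧ S.sB l (m + 1) = S.sB l m ∧ S.eB l (m + 1) = S.eB l m := by
  have h1 := S.tm_succ_star h
  have h2 : S.sT l (m + 1) = S.sT l m := by unfold sT; rw [h1]
  have h3 : S.eT l (m + 1) = S.eT l m := by unfold eT; rw [h2]
  have h4 := S.el.n_succ (S.tm m)
  have h5 := S.n_mono (Nat.succ_le_of_lt (S.lt_eT hm l))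
  rw [Nat.succ_eq_add_one] at h5
  refine ⟨?_, ?_, ?_⟩
  · rw [S.eB_of_ne hl]
    unfold IsStar at h
    omega
  · rw [S.sB_of_ne hl, S.sB_of_ne hl, h2]
  · rw [S.eB_of_ne hl, S.eB_of_ne hl, h3]

/-- a rotation stays inside the blocks of all levels. -/
lemma rot_inside {m : ℕ} (h : S.IsRot m) (l : ℕ) (hm : S.tm m < S.T) :
    m < S.eB l m ∧ S.sB l (m + 1) = S.sB l m ∧ S.eB l (m + 1) = S.eB l m := by
  have h0 := h.not_star
  have h1 := S.tm_succ_rot h
  have h2 : S.sT l (m + 1) = S.sT l m := by unfold sT; rw [h1]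
  have h3 : S.eT l (m + 1) = S.eT l m := by unfold eT; rw [h2]
  have h5 := S.n_mono (Nat.succ_le_of_lt (S.lt_eT hm l))
  rw [Nat.succ_eq_add_one] at h5
  by_cases hl : l = S.lf
  · subst hl
    have h6 : ¬ S.IsStar (m + 1) := by
      unfold IsStar; rw [h1]; have := h.1; omega
    rw [S.eB_lf h0, S.eB_lf h6, S.sB_lf h0, S.sB_lf h6, h1]
    refine ⟨?_, rfl, rfl⟩
    have := h.2
    omega
  · refine ⟨?_, ?_, ?_⟩
    · rw [S.eB_of_ne hl]
      have := h.2
      omega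
    · rw [S.sB_of_ne hl, S.sB_of_ne hl, h2]
    · rw [S.eB_of_ne hl, S.eB_of_ne hl, h3]

/-- a reopening stays inside the blocks which do not end. -/
lemma re_inside {m : ℕ} (h : S.IsRe m) {l : ℕ} (hl : l ≠ S.lf) (hm : S.tm m + 1 < S.T)
    (hn : S.tm m + 1 ∉ S.K.nb l) :
    m < S.eB l m ∧ S.sB l (m + 1) = S.sB l m ∧ S.eB l (m + 1) = S.eB l m := by
  have h1 := S.tm_succ_re h
  have h2 : S.sT l (m + 1) = S.sT l m := by
    unfold sT; rw [h1]; exact st_succ_of_not_mem (S.K.zero_mem_nb l) hn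
  have h3 : S.eT l (m + 1) = S.eT l m := by unfold eT; rw [h2]
  have h4 : S.tm m + 1 < S.eT l m := by
    have h5 := S.lt_eT (by omega : S.tm m < S.T) l
    have h6 := S.iv_T (by omega : S.tm m < S.T) l
    by_contra hcon
    have h7 : S.eT l m = S.tm m + 1 := by omega
    rcases h6.2.2.2.1 with h8 | h8
    · rw [h7] at h8; exact hn h8
    · omega
  refine ⟨?_, ?_, ?_⟩
  · rw [S.eB_of_ne hl]
    have h5 := S.n_strictMono h4
    unfold IsRe at h
    omega
  · rw [S.sB_of_ne hl, S.sB_of_ne hl, h2]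
  · rw [S.eB_of_ne hl, S.eB_of_ne hl, h3]

/-- a reopening is the end of the blocks which end. -/
lemma re_end {m : ℕ} (h : S.IsRe m) {l : ℕ} (hm : S.tm m + 1 < S.T)
    (hn : S.tm m + 1 ∈ S.K.nb l ∨ l = S.lf) :
    S.eB l m = m ∧ S.sB l (m + 1) = m + 1 := by
  have h1 := S.tm_succ_re h
  by_cases hl : l = S.lf
  · subst hl
    have h2 : S.IsStar (m + 1) := by
      unfold IsStar; rw [h1]; exact h
    rw [S.eB_lf h.not_star, S.sB_lf_star h2]
    unfold IsRe at h
    exact ⟨by omega, rfl⟩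
  · have hn' := hn.resolve_right hl
    have h2 : S.sT l (m + 1) = S.tm m + 1 := by
      unfold sT; rw [h1]; exact st_succ_of_mem hn'
    have h5 := S.lt_eT (by omega : S.tm m < S.T) l
    have h6 := S.iv_T (by omega : S.tm m < S.T) l
    have h3 : S.eT l m = S.tm m + 1 := by
      by_contra hcon
      exact h6.2.2.2.2 _ (by have := S.sT_le l m; omega) (by omega) hn'
    rw [S.eB_of_ne hl, S.sB_of_ne hl, h2, h3]
    unfold IsRe at h
    exact ⟨by omega, h.symm⟩

/-- the levels which survive a reopening. -/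
lemma nb_not_mem_of_nw {l m : ℕ} (h : S.tm m + 1 ∉ S.K.nw (l + 1)) : S.tm m + 1 ∉ S.K.nb l :=
  fun h' => h (S.K.nb_subset_nw l h')

/-! ### the rules -/

lemma om_congr {i m m' : ℕ} (h1 : S.sB i m = S.sB i m') (h2 : S.eB i m = S.eB i m') :
    S.om i m = S.om i m' := by
  unfold om; rw [h1, h2]

lemma om_eq {l m' m : ℕ} (h : S.Same l m' m) (hl : l ≠ S.lf) (hm : S.tm m' < S.T) :
    S.om l m = S.om l m' := S.om_congr (Same.eq S h hl hm).1 (Same.eq S h hl hm).2

lemma om_eq_of_lt {l m' m : ℕ} (h1 : S.sB l m' ≤ m) (h2 : m < S.eB l m') (hm : S.tm m' < S.T) :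
    S.om l m = S.om l m' := S.om_congr (S.eq_of_lt h1 h2 hm).1 (S.eq_of_lt h1 h2 hm).2

lemma OM_eq {l m' m : ℕ} (h : S.Same l m' m) (hl : l < S.lf) (hm : S.tm m' < S.T) :
    S.OM l m = S.OM l m' := by
  unfold OM
  ext x
  simp only [mem_ofPred_eq]
  refine forall₂_congr fun i hi => ?_
  rw [S.om_eq (Same.le S h hi hl.le hm) (by omega) hm]

lemma OM_eq_of_lt {l m' m : ℕ} (hl : l ≤ S.lf) (h1 : S.sB l m' ≤ m) (h2 : m < S.eB l m')
    (hm : S.tm m' < S.T) : S.OM l m = S.OM l m' := by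
  unfold OM
  ext x
  simp only [mem_ofPred_eq]
  refine forall₂_congr fun i hi => ?_
  rw [S.om_eq_of_lt ((S.sB_mono hi hl m').trans h1) (h2.trans_le (S.eB_anti hi hl hm)) hm]

lemma OM_anti {l l' : ℕ} (h : l ≤ l') (m : ℕ) : S.OM l' m ⊆ S.OM l m :=
  fun _ hx i hi => hx i (hi.trans h)

lemma OM_subset_om (l m : ℕ) : S.OM l m ⊆ S.om l m := fun _ hx => hx l le_rfl

lemma OM_succ (l m : ℕ) : S.OM (l + 1) m = S.OM l m ∩ S.om (l + 1) m := by
  ext x
  constructor
  · exact fun hx => ⟨fun i hi => hx i (by omega), hx (l + 1) le_rfl⟩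
  · rintro ⟨h1, h2⟩ i hi
    rcases Nat.lt_or_ge i (l + 1) with h | h
    · exact h1 i (by omega)
    · have : i = l + 1 := by omega
      rw [this]; exact h2

lemma om_not_Z {i m : ℕ} {x : E} (h : x ∈ S.om i m) : x ∉ S.cp.Z i := h.1

/-! ### measurability and cylinders -/

lemma measurable_De (i m : ℕ) : Measurable (S.De i m) :=
  H395.measurable_fib (measurable_one.indicator (S.measurableSet_X i m).compl)

lemma measurable_Dc (i m : ℕ) : Measurable (S.Dc i m) :=
  H395.measurable_fib (measurable_one.indicator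
    ((S.measurableSet_X i m).inter (S.measurableSet_X i (m + 1))).compl)

lemma measurable_Dl (i m : ℕ) : Measurable (S.Dl i m) :=
  H395.measurable_fib (measurable_one.indicator
    ((S.measurableSet_X i m).symmDiff (S.measurableSet_X i (m + 1))))

lemma inv_De (i m : ℕ) : Inv (L S.f i) (S.De i m) := H395.inv_fib _ _

lemma inv_Dc (i m : ℕ) : Inv (L S.f i) (S.Dc i m) := H395.inv_fib _ _

lemma inv_Dl (i m : ℕ) : Inv (L S.f i) (S.Dl i m) := H395.inv_fib _ _

lemma measurableSet_Z (i : ℕ) : MeasurableSet (S.cp.Z i) := by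
  have := (S.cp.Z_closed i).measurableSet.compl
  rwa [compl_compl] at this

lemma Z_cyl (i : ℕ) (x : E) {w : E} (hw : w ∈ (L S.f i)ᗮ) : x + w ∈ S.cp.Z i ↔ x ∈ S.cp.Z i :=
  S.cp.Z_cyl i x w hw

lemma measurableSet_om (i m : ℕ) : MeasurableSet (S.om i m) := by
  have hA : Measurable fun x => ENNReal.ofReal (S.cp.A i x) :=
    ENNReal.measurable_ofReal.comp (S.cp.A_meas i)
  have hM : Measurable fun x => ENNReal.ofReal (S.M * S.cp.A i x) :=
    ENNReal.measurable_ofReal.comp ((S.cp.A_meas i).const_mul _)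
  have e : S.om i m = (S.cp.Z i)ᶜ ∩ ({x | ENNReal.ofReal (S.cp.A i x) ≤ S.De i (S.eB i m) x} ∪
      ⋃ k : ℕ, ⋃ _ : S.sB i m ≤ k ∧ k < S.eB i m,
        {x | ENNReal.ofReal (S.M * S.cp.A i x) ≤ S.Dc i k x}) := by
    ext x
    simp only [om, mem_inter_iff, mem_compl_iff, mem_union, mem_ofPred_eq, mem_iUnion]
    constructor
    · rintro ⟨h1, h2 | ⟨k, h3, h4, h5⟩⟩
      · exact ⟨h1, Or.inl h2⟩
      · exact ⟨h1, Or.inr ⟨k, ⟨h3, h4⟩, h5⟩⟩
    · rintro ⟨h1, h2 | ⟨k, ⟨h3, h4⟩, h5⟩⟩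
      · exact ⟨h1, Or.inl h2⟩
      · exact ⟨h1, Or.inr ⟨k, h3, h4, h5⟩⟩
  rw [e]
  refine (S.measurableSet_Z i).compl.inter ((measurableSet_le hA (S.measurable_De i _)).union ?_)
  exact MeasurableSet.iUnion fun k => MeasurableSet.iUnion fun _ =>
    measurableSet_le hM (S.measurable_Dc i k)

lemma om_cyl (i m : ℕ) (x : E) {w : E} (hw : w ∈ (L S.f i)ᗮ) :
    x + w ∈ S.om i m ↔ x ∈ S.om i m := by
  unfold om
  simp only [mem_ofPred_eq]
  rw [S.Z_cyl i x hw, S.cp.A_cyl i x w hw, S.inv_De i _ x w hw]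
  have : ∀ k, S.Dc i k (x + w) = S.Dc i k x := fun k => S.inv_Dc i k x w hw
  simp only [this]

lemma measurableSet_OM (r m : ℕ) : MeasurableSet (S.OM r m) := by
  have e : S.OM r m = ⋂ i : ℕ, ⋂ _ : i ≤ r, S.om i m := by
    ext x; simp [OM]
  rw [e]
  exact MeasurableSet.iInter fun i => MeasurableSet.iInter fun _ => S.measurableSet_om i m

lemma OM_cyl (r m : ℕ) (x : E) {w : E} (hw : w ∈ (L S.f r)ᗮ) :
    x + w ∈ S.OM r m ↔ x ∈ S.OM r m := by
  unfold OM
  simp only [mem_ofPred_eq]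
  exact forall₂_congr fun i hi =>
    S.om_cyl i m x (Submodule.orthogonal_le (L_mono S.f hi) hw)

lemma measurableSet_inn (l r m : ℕ) : MeasurableSet (S.inn l r m) := by
  have e : S.inn l r m = ⋂ i : ℕ, ⋂ _ : l < i, ⋂ _ : i ≤ r, S.om i m := by
    ext x; simp [inn]
  rw [e]
  exact MeasurableSet.iInter fun i => MeasurableSet.iInter fun _ => MeasurableSet.iInter fun _ =>
    S.measurableSet_om i m

lemma inn_cyl (l r m : ℕ) (x : E) {w : E} (hw : w ∈ (L S.f r)ᗮ) :
    x + w ∈ S.inn l r m ↔ x ∈ S.inn l r m := by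
  unfold inn
  simp only [mem_ofPred_eq]
  exact forall₂_congr fun i _ => forall_congr' fun hi =>
    S.om_cyl i m x (Submodule.orthogonal_le (L_mono S.f hi) hw)

lemma OM_inter_inn (l r m : ℕ) (hlr : l ≤ r) : S.OM l m ∩ S.inn l r m = S.OM r m := by
  ext x
  constructor
  · rintro ⟨h1, h2⟩ i hi
    rcases Nat.lt_or_ge l i with h | h
    · exact h2 i h hi
    · exact h1 i h
  · exact fun h => ⟨fun i hi => h i (by omega), fun i _ hi => h i hi⟩

omit [NormedAddCommGroup E] [InnerProductSpace ℝ E] [FiniteDimensional ℝ E] [BorelSpace E] in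
lemma measurable_iw {s : Set E} (hs : MeasurableSet s) : Measurable (iw s) :=
  measurable_one.indicator hs

omit [FiniteDimensional ℝ E] [MeasurableSpace E] [BorelSpace E] in
lemma inv_iw {W : Submodule ℝ E} {s : Set E} (h : ∀ x, ∀ w ∈ Wᗮ, (x + w ∈ s ↔ x ∈ s)) :
    Inv W (iw s) := by
  intro x w hw
  unfold iw
  by_cases hx : x ∈ s
  · rw [indicator_of_mem hx, indicator_of_mem ((h x w hw).2 hx)]; rfl
  · rw [indicator_of_notMem hx, indicator_of_notMem fun h' => hx ((h x w hw).1 h')]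

omit [NormedAddCommGroup E] [InnerProductSpace ℝ E] [FiniteDimensional ℝ E] [MeasurableSpace E]
  [BorelSpace E] in
lemma iw_le_one (s : Set E) (x : E) : iw s x ≤ 1 := by
  unfold iw
  by_cases hx : x ∈ s
  · rw [indicator_of_mem hx]; rfl
  · rw [indicator_of_notMem hx]; exact zero_le

omit [NormedAddCommGroup E] [InnerProductSpace ℝ E] [FiniteDimensional ℝ E] [MeasurableSpace E]
  [BorelSpace E] in
lemma iw_inter (s t : Set E) (x : E) : iw (s ∩ t) x = iw s x * iw t x := by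
  unfold iw
  by_cases hx : x ∈ s <;> by_cases hy : x ∈ t <;> simp [hx, hy]

lemma measurableSet_Kq (m : ℕ) : MeasurableSet (S.Kq m) :=
  (S.measurableSet_X _ m).diff (S.measurableSet_Z _)

lemma measurable_q (l m : ℕ) : Measurable (S.q l m) :=
  H395.measurable_fib (measurable_one.indicator (S.measurableSet_Kq m))

lemma inv_q (l m : ℕ) : Inv (L S.f l) (S.q l m) := H395.inv_fib _ _

/-! ### sums over blocks -/

/-- the blocks of a level are disjoint sets of moves. -/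
theorem sum_bl_le (l : ℕ) (F : ℕ → ℝ≥0∞) :
    ∑ m ∈ S.bl l, ∑ m' ∈ Finset.Ico (S.sB l m) (S.eB l m), F m' ≤ ∑ m' ∈ Finset.range S.mT, F m' := by
  classical
  have hd : (S.bl l : Set ℕ).PairwiseDisjoint fun m => Finset.Ico (S.sB l m) (S.eB l m) := by
    intro a ha b hb hab
    rw [Function.onFun, Finset.disjoint_left]
    intro m' h1 h2
    rw [Finset.mem_coe] at ha hb
    unfold bl at ha hb
    rw [Finset.mem_filter, Finset.mem_range] at ha hb
    rw [Finset.mem_Ico] at h1 h2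
    have e1 := S.eq_of_lt h1.1 h1.2 (S.tm_lt_of_lt ha.1)
    have e2 := S.eq_of_lt h2.1 h2.2 (S.tm_lt_of_lt hb.1)
    apply hab
    rw [← ha.2, ← hb.2, ← e1.1, ← e2.1]
  rw [← Finset.sum_biUnion hd]
  refine Finset.sum_le_sum_of_subset ?_
  intro m' hm'
  rw [Finset.mem_biUnion] at hm'
  obtain ⟨a, ha, h1⟩ := hm'
  unfold bl at ha
  rw [Finset.mem_filter, Finset.mem_range] at ha
  rw [Finset.mem_Ico] at h1
  rw [Finset.mem_range]
  exact h1.2.trans_le (S.eB_le_mT (S.tm_lt_of_lt ha.1) l)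

end Vale.Agent.P262.M1.Sys
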