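import Vale.Agent.P262.H118.El2b
import Vale.Agent.P262.H118.K2c
import Vale.Agent.P262.H118.SysBlk

/-!
# P262, milestone 2: windows of elementary states, sums over moves
-/

namespace Vale.Agent.P262.H118

open RealInnerProductSpace Module Vale.Agent.P262.H274

variable {E : Type*} [NormedAddCommGroup E] [InnerProductSpace ℝ E] [FiniteDimensional ℝ E]
  {v : ℕ → E} {T : ℕ} {N : ℕ → ℝ} {δ ρ : ℝ}

namespace El2

variable {K : K2 v T N δ ρ} {G : Finset (List ℕ)} (M : El2 K G)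

/-! ### moves -/

/-- `m` is a star move. -/
def IsStar (m : ℕ) : Prop := m = M.n (M.tm m)

/-- `m` is a rotation. -/
def IsRot (m : ℕ) : Prop := M.n (M.tm m) < m ∧ m + 1 < M.n (M.tm m + 1)

/-- `m` is a reopening. -/
def IsRe (m : ℕ) : Prop := m + 1 = M.n (M.tm m + 1)

lemma isStar_iff {m : ℕ} : M.IsStar m ↔ ∃ t, m = M.n t := by
  constructor
  · exact fun h => ⟨_, h⟩
  · rintro ⟨t, rfl⟩
    unfold IsStar
    rw [M.tm_n]

lemma cases_move (m : ℕ) : M.IsStar m ∨ M.IsRot m ∨ M.IsRe m := by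
  have h := M.tm_spec m
  unfold IsStar IsRot IsRe
  omega

variable {M} in
lemma IsRot.not_star {m : ℕ} (h : M.IsRot m) : ¬ M.IsStar m := by
  unfold IsRot IsStar at *
  omega

variable {M} in
lemma IsRe.not_star {m : ℕ} (h : M.IsRe m) : ¬ M.IsStar m := by
  have := M.n_succ (M.tm m)
  unfold IsRe IsStar at *
  omega

variable {M} in
lemma IsRot.not_re {m : ℕ} (h : M.IsRot m) : ¬ M.IsRe m := by
  unfold IsRot IsRe at *
  omega

lemma n_strictMono : StrictMono M.n := strictMono_nat_of_lt_succ M.n_lt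

lemma n_mono : Monotone M.n := M.n_strictMono.monotone

lemma tm_mono : Monotone M.tm := by
  intro m m' h
  have h1 := M.tm_spec m
  have h2 := M.tm_spec m'
  have h3 : M.tm m < M.tm m' + 1 := M.n_strictMono.lt_iff_lt.1 (h1.1.trans_lt (h.trans_lt h2.2))
  omega

lemma tm_succ_star {m : ℕ} (h : M.IsStar m) : M.tm (m + 1) = M.tm m := by
  have h1 := M.tm_spec m
  have h2 := M.n_succ (M.tm m)
  unfold IsStar at h
  exact M.tm_eq (by omega) (by omega)

lemma tm_succ_rot {m : ℕ} (h : M.IsRot m) : M.tm (m + 1) = M.tm m :=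
  M.tm_eq (by have := h.1; omega) h.2

lemma tm_succ_re {m : ℕ} (h : M.IsRe m) : M.tm (m + 1) = M.tm m + 1 := by
  rw [h, M.tm_n]

/-- the last state: after the last star. -/
def mT (_ : El2 K G) : ℕ := M.n T - 1

lemma tm_lt_of_lt {m : ℕ} (h : m < M.n T) : M.tm m < T :=
  M.n_strictMono.lt_iff_lt.1 ((M.tm_spec m).1.trans_lt h)

lemma tm_re_lt {m : ℕ} (h : M.IsRe m) (hm : m + 1 < M.n T) : M.tm m + 1 < T := by
  unfold IsRe at h
  exact M.n_strictMono.lt_iff_lt.1 (by omega)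

lemma rot_data {m : ℕ} (h : M.IsRot m) : M.tm m + 1 < T ∧ M.jj m ∈ G ∧ M.jj m ≠ [] ∧
    M.tm m + 1 ∉ K.nw (M.jj m) := (M.rot (M.tm m) m h.1 h.2).2

/-! ### state intervals of a partition `B` of the time axis -/

/-- first state of the interval of `B` containing the state (or move) `m`. -/
noncomputable def sS (B : Set ℕ) (m : ℕ) : ℕ := M.n (st B (M.tm m))

/-- last state of this interval: its moves inside are `[sS, eS)`. -/
noncomputable def eS (B : Set ℕ) (m : ℕ) : ℕ := M.n (en B T (st B (M.tm m))) - 1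

lemma sS_le (B : Set ℕ) (m : ℕ) : M.sS B m ≤ m :=
  (M.n_mono (st_le _)).trans (M.tm_spec m).1

lemma le_eS {B : Set ℕ} (h0 : 0 ∈ B) {m : ℕ} (h : M.tm m < T) : m ≤ M.eS B m := by
  have h1 := M.tm_spec m
  have h2 := M.n_mono (Nat.succ_le_of_lt (iv_st h0 h).2.2)
  rw [Nat.succ_eq_add_one] at h2
  unfold eS
  omega

lemma eS_lt {B : Set ℕ} {m : ℕ} (h : M.tm m < T) : M.eS B m < M.n T := by
  have h1 := M.n_mono (en_le B T (st B (M.tm m)))
  have h2 : 0 < M.n T := by
    have := M.n_strictMono (by omega : 0 < T)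
    omega
  unfold eS
  omega

lemma sS_mono {B B' : Set ℕ} (h : B ⊆ B') (h0 : 0 ∈ B) (m : ℕ) : M.sS B m ≤ M.sS B' m :=
  M.n_mono (st_mono_set h h0 _)

lemma eS_anti {B B' : Set ℕ} (h : B ⊆ B') (h0 : 0 ∈ B) {m : ℕ} (hm : M.tm m < T) :
    M.eS B' m ≤ M.eS B m := by
  have := M.n_mono (en_anti h h0 hm)
  unfold eS
  omega

/-- times of the states of an interval. -/
lemma tm_mem {B : Set ℕ} (h0 : 0 ∈ B) {m' m : ℕ} (hm : M.tm m' < T) (h1 : M.sS B m' ≤ m)
    (h2 : m ≤ M.eS B m') :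
    st B (M.tm m') ≤ M.tm m ∧ M.tm m < en B T (st B (M.tm m')) := by
  have h3 := M.tm_spec m
  have h4 := iv_st h0 hm
  unfold sS at h1
  unfold eS at h2
  constructor
  · have := M.n_strictMono.lt_iff_lt.1 (h1.trans_lt h3.2)
    omega
  · refine M.n_strictMono.lt_iff_lt.1 ?_
    have := M.n_strictMono h4.1.2.1
    omega

lemma same_eq {B : Set ℕ} (h0 : 0 ∈ B) {m' m : ℕ} (hm : M.tm m' < T) (h1 : M.sS B m' ≤ m)
    (h2 : m ≤ M.eS B m') : st B (M.tm m) = st B (M.tm m') ∧ M.sS B m = M.sS B m' ∧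
      M.eS B m = M.eS B m' := by
  obtain ⟨h3, h4⟩ := M.tm_mem h0 hm h1 h2
  have h5 := ((iv_st h0 hm).1.st_eq h0 h3 h4).1
  refine ⟨h5, ?_, ?_⟩
  · unfold sS; rw [h5]
  · unfold eS; rw [h5]

lemma same_self {B : Set ℕ} (h0 : 0 ∈ B) {m : ℕ} (hm : M.tm m < T) :
    M.sS B m ≤ m ∧ m ≤ M.eS B m := ⟨M.sS_le B m, M.le_eS h0 hm⟩

lemma congr_tm {B : Set ℕ} {m m' : ℕ} (h : M.tm m = M.tm m') :
    M.sS B m = M.sS B m' ∧ M.eS B m = M.eS B m' := by
  unfold sS eS; rw [h]; exact ⟨rfl, rfl⟩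

/-- stars and rotations are inside the intervals of every partition. -/
lemma active_inside {B : Set ℕ} (h0 : 0 ∈ B) {m : ℕ} (h : M.IsStar m ∨ M.IsRot m)
    (hm : M.tm m < T) :
    m < M.eS B m ∧ M.sS B (m + 1) = M.sS B m ∧ M.eS B (m + 1) = M.eS B m := by
  have h1 := M.n_mono (Nat.succ_le_of_lt (iv_st h0 hm).2.2)
  rw [Nat.succ_eq_add_one] at h1
  have h2 := M.n_succ (M.tm m)
  rcases h with h | h
  · have h3 := M.congr_tm (B := B) (M.tm_succ_star h)
    refine ⟨?_, h3.1, h3.2⟩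
    unfold IsStar at h
    unfold eS
    omega
  · have h3 := M.congr_tm (B := B) (M.tm_succ_rot h)
    refine ⟨?_, h3.1, h3.2⟩
    have := h.2
    unfold eS
    omega

/-- a reopening is inside the intervals which do not end. -/
lemma re_inside {B : Set ℕ} (h0 : 0 ∈ B) {m : ℕ} (h : M.IsRe m) (hm : M.tm m + 1 < T)
    (hn : M.tm m + 1 ∉ B) :
    m < M.eS B m ∧ M.sS B (m + 1) = M.sS B m ∧ M.eS B (m + 1) = M.eS B m := by
  have h1 := M.tm_succ_re h
  have h2 : st B (M.tm (m + 1)) = st B (M.tm m) := by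
    rw [h1]; exact st_succ_of_not_mem h0 hn
  have h4 : M.tm m + 1 < en B T (st B (M.tm m)) := by
    have h5 := (iv_st h0 (by omega : M.tm m < T))
    by_contra hcon
    have h7 : en B T (st B (M.tm m)) = M.tm m + 1 := by
      have := h5.2.2
      omega
    rcases h5.1.2.2.2.1 with h8 | h8
    · rw [h7] at h8; exact hn h8
    · omega
  refine ⟨?_, ?_, ?_⟩
  · have h5 := M.n_strictMono h4
    unfold IsRe at h
    unfold eS
    omega
  · unfold sS; rw [h2]
  · unfold eS; rw [h2]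

/-- a reopening is the end of the intervals which end. -/
lemma re_end {B : Set ℕ} (h0 : 0 ∈ B) {m : ℕ} (h : M.IsRe m) (hm : M.tm m + 1 < T)
    (hn : M.tm m + 1 ∈ B) : M.eS B m = m ∧ M.sS B (m + 1) = m + 1 := by
  have h1 := M.tm_succ_re h
  have h2 : st B (M.tm (m + 1)) = M.tm m + 1 := by rw [h1]; exact st_succ_of_mem hn
  have h5 := iv_st h0 (by omega : M.tm m < T)
  have h3 : en B T (st B (M.tm m)) = M.tm m + 1 := by
    have := h5.2.2
    by_contra hcon
    exact h5.1.2.2.2.2 _ (by have := h5.2.1; omega) (by omega) hn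
  unfold sS eS
  rw [h2, h3]
  unfold IsRe at h
  exact ⟨by omega, h.symm⟩

/-! ### sums over moves -/

/-- moves of the steps `[s, e)`. -/
lemma sum_steps {A : Type*} [AddCommMonoid A] (F : ℕ → A) {s e : ℕ} (hse : s ≤ e) :
    ∑ m ∈ Finset.Ico (M.n s) (M.n e), F m =
      ∑ t ∈ Finset.Ico s e, ∑ m ∈ Finset.Ico (M.n t) (M.n (t + 1)), F m := by
  induction e, hse using Nat.le_induction with
  | base => simp
  | succ e hse ih =>
    rw [Finset.sum_Ico_succ_top hse, ← ih, Finset.sum_Ico_consecutive _ (M.n_mono hse)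
      (M.n_lt e).le]

/-- the moves of one step: star, rotations, reopening. -/
lemma sum_step {A : Type*} [AddCommMonoid A] (F : ℕ → A) (t : ℕ) :
    ∑ m ∈ Finset.Ico (M.n t) (M.n (t + 1)), F m = F (M.n t) +
      ∑ m ∈ Finset.Ico (M.n t + 1) (M.n (t + 1) - 1), F m + F (M.n (t + 1) - 1) := by
  have h := M.n_succ t
  rw [← Finset.sum_Ico_consecutive _ (by omega : M.n t ≤ M.n t + 1)
    (by omega : M.n t + 1 ≤ M.n (t + 1)),
    ← Finset.sum_Ico_consecutive F (by omega : M.n t + 1 ≤ M.n (t + 1) - 1)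
    (by omega : M.n (t + 1) - 1 ≤ M.n (t + 1))]
  have e1 : Finset.Ico (M.n t) (M.n t + 1) = {M.n t} := Nat.Ico_succ_singleton _
  have e2 : Finset.Ico (M.n (t + 1) - 1) (M.n (t + 1)) = {M.n (t + 1) - 1} := by
    have : M.n (t + 1) = M.n (t + 1) - 1 + 1 := by omega
    conv_lhs => rw [this]
    rw [Nat.add_sub_cancel]
    exact Nat.Ico_succ_singleton _
  rw [e1, e2, Finset.sum_singleton, Finset.sum_singleton, add_assoc]

/-- regrouping of all the moves according to a partition of the time axis. -/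
theorem sum_regroup_moves {A : Type*} [AddCommMonoid A] {B : Set ℕ} (h0 : 0 ∈ B) (F : ℕ → A) :
    ∑ m ∈ Finset.range (M.n T), F m =
      ∑ a ∈ Finset.range T,
        B.indicator (fun a => ∑ m ∈ Finset.Ico (M.n a) (M.n (en B T a)), F m) a := by
  have h1 : Finset.range (M.n T) = Finset.Ico (M.n 0) (M.n T) := by
    rw [M.n_zero, Finset.range_eq_Ico]
  rw [h1, M.sum_steps F (Nat.zero_le T), ← Finset.range_eq_Ico, sum_regroup_all h0 T]
  refine Finset.sum_congr rfl fun a ha => ?_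
  rw [Finset.mem_range] at ha
  by_cases hmem : a ∈ B
  · rw [Set.indicator_of_mem hmem, Set.indicator_of_mem hmem, M.sum_steps F (lt_en ha).le]
  · rw [Set.indicator_of_notMem hmem, Set.indicator_of_notMem hmem]

/-- **rotations of a child inside a window**: `∑ w ^ k * angle * g ≤ g_max (π N_c / δ) Cost`. -/
theorem rot_sum (hδ : 0 < δ) {p : List ℕ} {c s e : ℕ} (hG : c :: p ∈ G) (hN : 0 ≤ N c)
    (h2 : 2 ≤ finrank ℝ (K.W p s)ᗮ) (h : Iv (K.B p c) T s e) {w : ℝ} (hw : 0 ≤ w)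
    (hwρ : 3 * w ≤ ρ) {g : ℕ → ℝ} {g0 : ℝ} (hg0 : 0 ≤ g0)
    (hg : ∀ m, M.n s ≤ m → m < M.n e → M.jj m = c :: p → g m ≤ g0) :
    ∑ t ∈ Finset.Ico s e, ∑ m ∈ Finset.Ico (M.n t + 1) (M.n (t + 1) - 1),
      (if M.jj m = c :: p then w ^ K.kd (c :: p) t * M.ph m * g m else 0)
      ≤ g0 * (Real.pi * N c / δ * Cost (K.Sw p s (N c)) ρ s e) := by
  have h3 := K.rot_sum hδ hN h2 h hw hwρ
  refine le_trans ?_ (mul_le_mul_of_nonneg_left h3 hg0)
  rw [Finset.mul_sum]
  refine Finset.sum_le_sum fun t ht => ?_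
  rw [Finset.mem_Ico] at ht
  have h4 := M.angle t c p hG
  calc ∑ m ∈ Finset.Ico (M.n t + 1) (M.n (t + 1) - 1),
        (if M.jj m = c :: p then w ^ K.kd (c :: p) t * M.ph m * g m else 0)
      ≤ ∑ m ∈ Finset.Ico (M.n t + 1) (M.n (t + 1) - 1),
        g0 * w ^ K.kd (c :: p) t * (if M.jj m = c :: p then M.ph m else 0) := by
        refine Finset.sum_le_sum fun m hm => ?_
        rw [Finset.mem_Ico] at hm
        by_cases hj : M.jj m = c :: p
        · rw [if_pos hj, if_pos hj]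
          have h5 := hg m (by have := M.n_mono ht.1; omega)
            (by have := M.n_mono (Nat.succ_le_of_lt ht.2); rw [Nat.succ_eq_add_one] at this; omega)
            hj
          have h6 := M.ph_nonneg m
          have h7 : 0 ≤ w ^ K.kd (c :: p) t * M.ph m := by positivity
          calc w ^ K.kd (c :: p) t * M.ph m * g m ≤ w ^ K.kd (c :: p) t * M.ph m * g0 := by gcongr
            _ = g0 * w ^ K.kd (c :: p) t * M.ph m := by ring
        · rw [if_neg hj, if_neg hj, mul_zero]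
    _ = g0 * w ^ K.kd (c :: p) t *
        ∑ m ∈ Finset.Ico (M.n t + 1) (M.n (t + 1) - 1), (if M.jj m = c :: p then M.ph m else 0) := by
        rw [Finset.mul_sum]
    _ ≤ g0 * w ^ K.kd (c :: p) t * K.al (c :: p) t := by gcongr
    _ = g0 * (w ^ K.kd (c :: p) t * K.al (c :: p) t) := by ring

end El2

end Vale.Agent.P262.H118
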