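import Vale.Agent.P262.H118.K1

/-!
# P262, milestone 1: the list of elementary moves (block FRM)

State `m`: a vector of isometries `Q m i` (`Q m i` fixes `L f i` pointwise), `U i m = Q m 0 ∘ ⋯ ∘
Q m (i-1)`.  Moves of step `t` are `m ∈ [n t, n (t+1))`: `m = n t` is the star, `n t < m <
n (t+1) - 1` are plane rotations, `m = n (t+1) - 1` is the reopening of the levels whose life ends.
-/

namespace Vale.Agent.P262.H118

open RealInnerProductSpace Module Vale.Agent.P262.H274

variable {E : Type*} [NormedAddCommGroup E] [InnerProductSpace ℝ E]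

/-- the isometries of the levels from the relative ones. -/
noncomputable def Uof (P : ℕ → (E ≃ₗᵢ[ℝ] E)) : ℕ → (E ≃ₗᵢ[ℝ] E)
  | 0 => LinearIsometryEquiv.refl ℝ E
  | i + 1 => (P i).trans (Uof P i)

lemma Uof_congr {P P' : ℕ → (E ≃ₗᵢ[ℝ] E)} {i : ℕ} (h : ∀ j, j < i → P j = P' j) :
    Uof P i = Uof P' i := by
  induction i with
  | zero => rfl
  | succ i ih => rw [Uof, Uof, h i (Nat.lt_succ_self i), ih fun j hj => h j (by omega)]

/-- `P i` fixes `L f i` pointwise. -/
def Fix (f : ℕ → E) (P : ℕ → (E ≃ₗᵢ[ℝ] E)) : Prop := ∀ i, ∀ x ∈ L f i, P i x = x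

lemma Uof_apply {f : ℕ → E} {P : ℕ → (E ≃ₗᵢ[ℝ] E)} (h : Fix f P) {i i' : ℕ} (hi : i ≤ i') {x : E}
    (hx : x ∈ L f i) : Uof P i' x = Uof P i x := by
  induction i', hi using Nat.le_induction with
  | base => rfl
  | succ i' hi ih =>
    rw [Uof, LinearIsometryEquiv.trans_apply, h i' x (L_mono f hi hx), ih]

/-- one plane rotation of the label direction `f j` by the angle `φ`. -/
def Rot (f : ℕ → E) (P : ℕ → (E ≃ₗᵢ[ℝ] E)) (j : ℕ) (φ : ℝ) (P' : ℕ → (E ≃ₗᵢ[ℝ] E)) : Prop :=
  ∃ (b : E) (h : ON (f j) b), b ∈ (L f (j + 1))ᗮ ∧ 0 ≤ φ ∧ φ ≤ Real.pi / 2 ∧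
    P' = Function.update P j ((rotE h φ).trans (P j))

lemma Rot.fix {f : ℕ → E} {P P' : ℕ → (E ≃ₗᵢ[ℝ] E)} {j : ℕ} {φ : ℝ} (h : Rot f P j φ P')
    (hj : f j ∈ (L f j)ᗮ) (hP : Fix f P) : Fix f P' := by
  obtain ⟨b, hON, hb, -, -, rfl⟩ := h
  intro i x hx
  by_cases hij : i = j
  · subst hij
    rw [Function.update_self, LinearIsometryEquiv.trans_apply, rotE_apply,
      rotL_of_perp _ ((Submodule.mem_orthogonal' _ _).1 hj x hx)
        ((Submodule.mem_orthogonal' _ _).1 (mem_L_succ_perp.1 hb).1 x hx)]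
    exact hP i x hx
  · rw [Function.update_of_ne hij]
    exact hP i x hx

lemma Rot.nonneg {f : ℕ → E} {P P' : ℕ → (E ≃ₗᵢ[ℝ] E)} {j : ℕ} {φ : ℝ} (h : Rot f P j φ P') :
    0 ≤ φ := by
  obtain ⟨b, hON, hb, h0, -, rfl⟩ := h
  exact h0

/-- levels `i ≤ j` do not see the rotation. -/
lemma Rot.U_le {f : ℕ → E} {P P' : ℕ → (E ≃ₗᵢ[ℝ] E)} {j : ℕ} {φ : ℝ} (h : Rot f P j φ P')
    {i : ℕ} (hi : i ≤ j) : Uof P' i = Uof P i := by
  obtain ⟨b, hON, hb, -, -, rfl⟩ := h
  refine Uof_congr fun k hk => ?_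
  rw [Function.update_of_ne (by omega)]

/-- all the levels `i > j` see a rotation in a plane `(f j, b')`, `b' ⟂ L f (j+1)`, with the same
angle. -/
theorem Rot.U_gt {f : ℕ → E} {P P' : ℕ → (E ≃ₗᵢ[ℝ] E)} {j : ℕ} {φ : ℝ} (h : Rot f P j φ P')
    (hP : Fix f P) {i : ℕ} (hi : j < i) :
    ∃ (b : E) (hb : ON (f j) b), b ∈ (L f (j + 1))ᗮ ∧ Uof P' i = (rotE hb φ).trans (Uof P i) := by
  have hle := fun (k : ℕ) (hk : k ≤ j) => h.U_le hk
  obtain ⟨b, hON, hb, -, -, rfl⟩ := h
  induction i, (Nat.succ_le_of_lt hi) using Nat.le_induction with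
  | base =>
    refine ⟨b, hON, hb, ?_⟩
    change (Function.update P j ((rotE hON φ).trans (P j)) j).trans (Uof _ j) = _
    rw [Function.update_self, hle j le_rfl]
    rfl
  | succ i hji ih =>
    have hji' : j < i := hji
    obtain ⟨b', hON', hb', hU⟩ := ih hji'
    have hfj : (P i).symm (f j) = f j := by
      apply (P i).injective
      rw [LinearIsometryEquiv.apply_symm_apply]
      exact (hP i (f j) (mem_L f hji')).symm
    have hON'' : ON (f j) ((P i).symm b') := by
      have := hON'.map (P i).symm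
      rwa [hfj] at this
    refine ⟨(P i).symm b', hON'', ?_, ?_⟩
    · rw [Submodule.mem_orthogonal]
      intro x hx
      rw [← (P i).inner_map_map, LinearIsometryEquiv.apply_symm_apply,
        hP i x (L_mono f hji hx)]
      exact (Submodule.mem_orthogonal _ _).1 hb' x hx
    · change (Function.update P j ((rotE hON φ).trans (P j)) i).trans (Uof _ i) = _
      rw [Function.update_of_ne (by omega), hU]
      ext x
      simp only [LinearIsometryEquiv.trans_apply, rotE_apply, Uof]
      congr 1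
      have := rotL_map (P i) (f j) ((P i).symm b') φ x
      rw [LinearIsometryEquiv.apply_symm_apply, hP i (f j) (mem_L f hji')] at this
      exact this

/-- a sequence of plane rotations. -/
inductive RSeq (f : ℕ → E) : (ℕ → (E ≃ₗᵢ[ℝ] E)) → List (ℕ × ℝ) → (ℕ → (E ≃ₗᵢ[ℝ] E)) → Prop
  | nil (P : ℕ → (E ≃ₗᵢ[ℝ] E)) : RSeq f P [] P
  | cons {P P' P'' : ℕ → (E ≃ₗᵢ[ℝ] E)} {j : ℕ} {φ : ℝ} {l : List (ℕ × ℝ)} (h : Rot f P j φ P')
      (t : RSeq f P' l P'') : RSeq f P ((j, φ) :: l) P''

lemma RSeq.append {f : ℕ → E} {P P' P'' : ℕ → (E ≃ₗᵢ[ℝ] E)} {l l' : List (ℕ × ℝ)}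
    (h : RSeq f P l P') (h' : RSeq f P' l' P'') : RSeq f P (l ++ l') P'' := by
  induction h with
  | nil => exact h'
  | cons h _ ih => exact RSeq.cons h (ih h')

lemma rotL_neg_left (p q : E) (φ : ℝ) (x : E) : rotL (-p) q φ x = rotL p (-q) φ x := by
  rw [rotL_apply, rotL_apply, inner_neg_left, inner_neg_left]
  module

lemma exists_rseq {f : ℕ → E} {j : ℕ} (hj : ‖f j‖ = 1) {Q : E ≃ₗᵢ[ℝ] E} {α : ℝ}
    (h : PRF (L f j)ᗮ (ℝ ∙ f j) Q α) : ∀ P : ℕ → (E ≃ₗᵢ[ℝ] E),
    ∃ l, RSeq f P l (Function.update P j (Q.trans (P j))) ∧ (∀ p ∈ l, p.1 = j) ∧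
      (l.map Prod.snd).sum = α := by
  induction h with
  | nil =>
    intro P
    refine ⟨[], ?_, by simp, by simp⟩
    have : Function.update P j ((LinearIsometryEquiv.refl ℝ E).trans (P j)) = P := by
      have e : (LinearIsometryEquiv.refl ℝ E).trans (P j) = P j := by ext x; rfl
      rw [e, Function.update_eq_self]
    rw [this]; exact RSeq.nil P
  | @cons θ b h hθ hb hbF φ h0 h1 Q α _ ih =>
    intro P
    -- normalise `θ`
    obtain ⟨b', hON', hb', hrot⟩ : ∃ (b' : E) (hON : ON (f j) b'), b' ∈ (L f (j + 1))ᗮ ∧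
        rotE h φ = rotE hON φ := by
      obtain ⟨c, hc⟩ := Submodule.mem_span_singleton.1 hθ
      have hc1 : |c| = 1 := by
        have := h.hp
        rw [← hc, norm_smul, hj, mul_one, Real.norm_eq_abs] at this
        exact this
      have hbj : ⟪f j, b⟫ = 0 := Submodule.mem_orthogonal_singleton_iff_inner_right.1 hb
      have hbL : b ∈ (L f (j + 1))ᗮ := mem_L_succ_perp.2 ⟨hbF, hbj⟩
      rcases eq_or_eq_neg_of_abs_eq hc1 with rfl | rfl
      · have hθ1 : θ = f j := by rw [← hc, one_smul]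
        subst hθ1
        exact ⟨b, h, hbL, rfl⟩
      · have hθ1 : θ = -f j := by rw [← hc, neg_smul, one_smul]
        subst hθ1
        have hON : ON (f j) (-b) :=
          ⟨hj, by rw [norm_neg, h.hq], by rw [inner_neg_right, hbj, neg_zero]⟩
        refine ⟨-b, hON, Submodule.neg_mem _ hbL, ?_⟩
        ext x
        exact rotL_neg_left (f j) b φ x
    obtain ⟨l, hl1, hl2, hl3⟩ := ih (Function.update P j ((rotE hON' φ).trans (P j)))
    refine ⟨(j, φ) :: l, RSeq.cons ⟨b', hON', hb', h0, h1, rfl⟩ ?_, ?_, ?_⟩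
    · rw [Function.update_self, Function.update_idem] at hl1
      rw [hrot]
      exact hl1
    · intro p hp
      rcases List.mem_cons.1 hp with rfl | hp
      · rfl
      · exact hl2 p hp
    · rw [List.map_cons, List.sum_cons, hl3]

/-- total angle of the rotations of the direction `j`. -/
noncomputable def ang (l : List (ℕ × ℝ)) (j : ℕ) : ℝ :=
  (l.map fun p => if p.1 = j then p.2 else 0).sum

lemma ang_append (l l' : List (ℕ × ℝ)) (j : ℕ) : ang (l ++ l') j = ang l j + ang l' j := by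
  unfold ang; rw [List.map_append, List.sum_append]

lemma ang_same {l : List (ℕ × ℝ)} {j : ℕ} (h : ∀ p ∈ l, p.1 = j) :
    ang l j = (l.map Prod.snd).sum := by
  unfold ang
  congr 1
  exact List.map_congr_left fun p hp => by rw [if_pos (h p hp)]

lemma ang_other {l : List (ℕ × ℝ)} {j k : ℕ} (h : ∀ p ∈ l, p.1 = j) (hk : j ≠ k) :
    ang l k = 0 := by
  unfold ang
  have : (l.map fun p => if p.1 = k then p.2 else 0) = l.map fun _ => 0 :=
    List.map_congr_left fun p hp => by rw [if_neg (by rw [h p hp]; exact hk)]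
  rw [this]
  simp

variable [FiniteDimensional ℝ E] {v : ℕ → E} {T : ℕ} {N δ : ℝ} {f : ℕ → E} {d : ℕ}

open Classical in
/-- transition from `t` to `t + 1`. -/
theorem K1.transition (K : K1 v T N δ f d) (hf : ONB f d) {t : ℕ} (ht : t + 1 < T) :
    ∃ (l : List (ℕ × ℝ)) (P' : ℕ → (E ≃ₗᵢ[ℝ] E)), RSeq f (fun i => K.P i t) l P' ∧
      (∀ i, i + 1 < d → t + 1 ∉ K.nw (i + 1) → P' i = K.P i (t + 1)) ∧
      (∀ p ∈ l, p.1 + 1 < d ∧ t + 1 ∉ K.nw (p.1 + 1)) ∧ ∀ j, ang l j ≤ K.al j t := by
  let V : ℕ → ℕ → (E ≃ₗᵢ[ℝ] E) := fun j i =>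
    if i < j ∧ i + 1 < d ∧ t + 1 ∉ K.nw (i + 1) then K.P i (t + 1) else K.P i t
  have key : ∀ j, ∃ l : List (ℕ × ℝ), RSeq f (V 0) l (V j) ∧
      (∀ p ∈ l, p.1 < j ∧ p.1 + 1 < d ∧ t + 1 ∉ K.nw (p.1 + 1)) ∧ ∀ k, ang l k ≤ K.al k t := by
    intro j
    induction j with
    | zero => exact ⟨[], RSeq.nil _, by simp, fun k => by simpa [ang] using K.al_nonneg k t⟩
    | succ j ih =>
      obtain ⟨l, hl1, hl2, hl3⟩ := ih
      by_cases hj : j + 1 < d ∧ t + 1 ∉ K.nw (j + 1)
      · obtain ⟨Q, hQ, hQP⟩ := K.step j hj.1 t ht hj.2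
        obtain ⟨l', h1, h2, h3⟩ := exists_rseq (hf.norm j (by omega)) hQ (V j)
        have hV : Function.update (V j) j (Q.trans (V j j)) = V (j + 1) := by
          ext i x
          by_cases hij : i = j
          · subst hij
            rw [Function.update_self]
            simp only [V]
            rw [if_neg (by omega), if_pos ⟨Nat.lt_succ_self i, hj.1, hj.2⟩, hQP]
          · rw [Function.update_of_ne hij]
            simp only [V]
            by_cases hi : i < j
            · by_cases hi2 : i + 1 < d ∧ t + 1 ∉ K.nw (i + 1)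
              · rw [if_pos ⟨hi, hi2⟩, if_pos ⟨by omega, hi2⟩]
              · rw [if_neg (fun h => hi2 h.2), if_neg (fun h => hi2 h.2)]
            · rw [if_neg (fun h => hi h.1), if_neg (fun h => by omega)]
        rw [hV] at h1
        refine ⟨l ++ l', hl1.append h1, ?_, ?_⟩
        · intro p hp
          rcases List.mem_append.1 hp with hp | hp
          · obtain ⟨h4, h5⟩ := hl2 p hp
            exact ⟨by omega, h5⟩
          · rw [h2 p hp]; exact ⟨Nat.lt_succ_self j, hj.1, hj.2⟩
        · intro k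
          rw [ang_append]
          by_cases hk : j = k
          · subst hk
            rw [ang_same h2, h3]
            have h6 : ang l j = 0 := by
              unfold ang
              have : (l.map fun p => if p.1 = j then p.2 else 0) = l.map fun _ => 0 :=
                List.map_congr_left fun p hp => by
                  rw [if_neg]; have := (hl2 p hp).1; omega
              rw [this]; simp
            rw [h6, zero_add]
          · rw [ang_other h2 hk, add_zero]
            exact hl3 k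
      · refine ⟨l, ?_, fun p hp => ?_, hl3⟩
        · have hV : V (j + 1) = V j := by
            ext i x
            simp only [V]
            by_cases hij : i = j
            · subst hij
              rw [if_neg (fun h => hj h.2), if_neg (fun h => hj h.2)]
            · by_cases hi : i < j
              · by_cases hi2 : i + 1 < d ∧ t + 1 ∉ K.nw (i + 1)
                · rw [if_pos ⟨by omega, hi2⟩, if_pos ⟨hi, hi2⟩]
                · rw [if_neg (fun h => hi2 h.2), if_neg (fun h => hi2 h.2)]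
              · rw [if_neg (fun h => by omega), if_neg (fun h => hi h.1)]
          rw [hV]; exact hl1
        · obtain ⟨h4, h5⟩ := hl2 p hp
          exact ⟨by omega, h5⟩
  obtain ⟨l, h1, h2, h3⟩ := key d
  refine ⟨l, V d, ?_, ?_, fun p hp => (h2 p hp).2, h3⟩
  · have : V 0 = fun i => K.P i t := by
      ext i x
      simp only [V]
      rw [if_neg (fun h => by omega)]
    rw [← this]; exact h1
  · intro i hi hn
    simp only [V]
    rw [if_pos ⟨by omega, hi, hn⟩]

omit [FiniteDimensional ℝ E] in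
/-- the states of a sequence of rotations. -/
lemma RSeq.states {P P' : ℕ → (E ≃ₗᵢ[ℝ] E)} {l : List (ℕ × ℝ)} (h : RSeq f P l P') :
    ∃ X : ℕ → (ℕ → (E ≃ₗᵢ[ℝ] E)), X 0 = P ∧ X l.length = P' ∧
      ∀ k, k < l.length → Rot f (X k) (l.getD k (0, 0)).1 (l.getD k (0, 0)).2 (X (k + 1)) := by
  induction h with
  | nil P => exact ⟨fun _ => P, rfl, rfl, fun k hk => absurd hk (by simp)⟩
  | @cons P P' P'' j φ l h _ ih =>
    obtain ⟨X, h1, h2, h3⟩ := ih
    refine ⟨fun k => if k = 0 then P else X (k - 1), by simp, ?_, ?_⟩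
    · simp only [List.length_cons]
      rw [if_neg (by omega), Nat.add_sub_cancel]
      exact h2
    · intro k hk
      rcases Nat.eq_zero_or_pos k with rfl | hk0
      · have e2 : (if 0 + 1 = 0 then P else X (0 + 1 - 1)) = P' := by
          rw [if_neg (by omega)]; exact h1
        simp only [List.getD_cons_zero]
        rw [e2]
        exact h
      · obtain ⟨k, rfl⟩ : ∃ k', k = k' + 1 := ⟨k - 1, by omega⟩
        have e1 : (if k + 1 = 0 then P else X (k + 1 - 1)) = X k := by
          rw [if_neg (by omega), Nat.add_sub_cancel]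
        have e2 : (if k + 1 + 1 = 0 then P else X (k + 1 + 1 - 1)) = X (k + 1) := by
          rw [if_neg (by omega), Nat.add_sub_cancel]
        simp only [List.getD_cons_succ]
        rw [e1, e2]
        exact h3 k (by simpa using hk)

end Vale.Agent.P262.H118
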