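import Vale.Agent.P262.H118.Chain
import Vale.Agent.P262.H274.D5

/-!
# P262, scheme S1: frames (block FRM), part 2

Reversal of rotation chains, pulled back picture (`PR V Q α`: `Q` is a product of plane rotations
with planes `(θ, b)`, `θ ∈ V`, `b ∈ Vᗮ`, total angle `α`), and the **frame path** of a slow piece:
a fixed subspace `V` and isometries `R t` with `(R t)⁻¹ v_t ∈ Vᗮ` and consecutive `R`'s differing by
such products with total angle `≤ π 3^k N / δ`.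
-/

namespace Vale.Agent.P262.H118

open RealInnerProductSpace Module

variable {E : Type*} [NormedAddCommGroup E] [InnerProductSpace ℝ E]

lemma rotL_neg_right (p q : E) (φ : ℝ) (x : E) : rotL p (-q) φ x = rotL p q (-φ) x := by
  rw [rotL_apply, rotL_apply, Real.sin_neg, Real.cos_neg, inner_neg_left]
  module

lemma rotL_map (R : E ≃ₗᵢ[ℝ] E) (p q : E) (φ : ℝ) (x : E) :
    rotL (R p) (R q) φ (R x) = R (rotL p q φ x) := by
  rw [rotL_apply, rotL_apply, R.inner_map_map, R.inner_map_map, map_add, map_add, map_smul,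
    map_smul]

lemma ON.map {p q : E} (h : ON p q) (R : E ≃ₗᵢ[ℝ] E) : ON (R p) (R q) :=
  ⟨by rw [R.norm_map, h.hp], by rw [R.norm_map, h.hq], by rw [R.inner_map_map, h.hpq]⟩

lemma ON.neg_right {p q : E} (h : ON p q) : ON p (-q) :=
  ⟨h.hp, by rw [norm_neg, h.hq], by rw [inner_neg_right, h.hpq, neg_zero]⟩

lemma RotStep.symm {F V V' : Submodule ℝ E} {φ : ℝ} (hV : V ≤ F) (h : RotStep F V φ V') :
    RotStep F V' φ V := by
  obtain ⟨θ, b, hON, hθ, hb, hbV, h0, h1, rfl⟩ := h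
  set R := rotE hON φ with hR
  have hRx : ∀ x, R x = rotL θ b φ x := fun x => rfl
  refine ⟨R θ, -(R b), (hON.map R).neg_right, ⟨θ, hθ, rfl⟩, ?_, ?_, h0, h1, ?_⟩
  · refine F.neg_mem ?_
    rw [hRx, hON.apply_q]
    exact F.add_mem (F.smul_mem _ (hV hθ)) (F.smul_mem _ hb)
  · refine Submodule.neg_mem _ ?_
    rw [Submodule.mem_orthogonal]
    rintro _ ⟨x, hx, rfl⟩
    rw [← hRx, R.inner_map_map]
    exact (Submodule.mem_orthogonal V b).1 hbV x hx
  · have key : ∀ x, rotL (R θ) (-(R b)) φ (rotL θ b φ x) = x := by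
      intro x
      rw [rotL_neg_right, ← hRx, rotL_map, hRx, hON.rot_rot, add_neg_cancel, ON.rot_zero]
    refine le_antisymm ?_ ?_
    · intro x hx
      exact ⟨rotL θ b φ x, ⟨x, hx, rfl⟩, key x⟩
    · rintro _ ⟨_, ⟨x, hx, rfl⟩, rfl⟩
      rw [key]; exact hx

lemma RotChain.symm {F V V' : Submodule ℝ E} {α : ℝ} (h : RotChain F V V' α) (hV : V ≤ F) :
    RotChain F V' V α := by
  induction h with
  | nil V => exact RotChain.nil V
  | cons h _ ih =>
    rw [add_comm]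
    refine (ih (h.le hV)).trans ?_
    have := RotChain.cons (h.symm hV) (RotChain.nil _)
    rwa [add_zero] at this

/-- alignment, also for `v ∈ V` when `V ≠ F`. -/
theorem align' [FiniteDimensional ℝ E] {F V : Submodule ℝ E} (hV : V < F) {v : E} (hv : v ∈ F) :
    ∃ α V', RotChain F V V' α ∧ v ∈ V'ᗮ ∧ α * ‖v‖ ≤ Real.pi / 2 * ‖V.starProjection v‖ := by
  by_cases hvV : v ∈ V
  swap
  · exact align hV.le hv hvV
  by_cases hv0 : v = 0
  · exact ⟨0, V, RotChain.nil V, by rw [hv0]; exact Submodule.zero_mem _, by simp [hv0]⟩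
  -- choose `b ∈ F`, `b ⟂ V`
  have hne : Vᗮ ⊓ F ≠ ⊥ := by
    intro h
    have := Submodule.sup_orthogonal_inf_of_hasOrthogonalProjection hV.le
    rw [h, sup_bot_eq] at this
    exact hV.ne this
  obtain ⟨b, ⟨hbV, hbF⟩, hb1⟩ := exists_unit_mem hne
  have nv : 0 < ‖v‖ := norm_pos_iff.2 hv0
  set θ : E := ‖v‖⁻¹ • v with hθ
  have hθV : θ ∈ V := V.smul_mem _ hvV
  have hON : ON θ b := by
    refine ⟨?_, hb1, (Submodule.mem_orthogonal V b).1 hbV θ hθV⟩
    rw [hθ, norm_smul, norm_inv, norm_norm, inv_mul_cancel₀ nv.ne']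
  have hpi := Real.pi_pos
  refine ⟨Real.pi / 2, V.map (rotL θ b (Real.pi / 2)), ?_, ?_, ?_⟩
  · have := RotChain.cons (F := F) (V := V) (φ := Real.pi / 2)
      ⟨θ, b, hON, hθV, hbF, hbV, by positivity, le_rfl, rfl⟩ (RotChain.nil _)
    rwa [add_zero] at this
  · rw [Submodule.mem_orthogonal]
    rintro _ ⟨x, hx, rfl⟩
    have hbx : ⟪b, x⟫ = 0 := (Submodule.mem_orthogonal' V b).1 hbV x hx
    have e1 := hON.inner_p (Real.pi / 2) x
    rw [hbx, Real.cos_pi_div_two, zero_mul, mul_zero, sub_zero] at e1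
    have hveq : v = ‖v‖ • θ := by
      rw [hθ, smul_smul, mul_inv_cancel₀ nv.ne', one_smul]
    rw [real_inner_comm, hveq, real_inner_smul_left, e1, mul_zero]
  · rw [(Submodule.starProjection_eq_self_iff).2 hvV]

/-! ### pulled back picture -/

/-- `Q = ρ₁ ∘ ρ₂ ∘ ⋯ ∘ ρ_n` with plane rotations `ρ_i`, planes `(θ_i, b_i)`, `θ_i ∈ V`,
`b_i ∈ Vᗮ`, angles in `[0, π/2]` with sum `α`. -/
inductive PR (V : Submodule ℝ E) : (E ≃ₗᵢ[ℝ] E) → ℝ → Prop
  | nil : PR V (LinearIsometryEquiv.refl ℝ E) 0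
  | cons {θ b : E} (h : ON θ b) (hθ : θ ∈ V) (hb : b ∈ Vᗮ) {φ : ℝ} (h0 : 0 ≤ φ)
      (h1 : φ ≤ Real.pi / 2) {Q : E ≃ₗᵢ[ℝ] E} {α : ℝ} (t : PR V Q α) :
      PR V (Q.trans (rotE h φ)) (φ + α)

lemma PR.nonneg {V : Submodule ℝ E} {Q : E ≃ₗᵢ[ℝ] E} {α : ℝ} (h : PR V Q α) : 0 ≤ α := by
  induction h with
  | nil => exact le_rfl
  | cons _ _ _ h0 _ _ ih => exact add_nonneg h0 ih

lemma PR.trans {V : Submodule ℝ E} {Q Q' : E ≃ₗᵢ[ℝ] E} {α β : ℝ} (h : PR V Q α)
    (h' : PR V Q' β) : PR V (Q'.trans Q) (α + β) := by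
  induction h with
  | nil =>
    rw [zero_add]
    exact h'
  | cons h hθ hb h0 h1 _ ih =>
    rw [add_assoc]
    exact PR.cons h hθ hb h0 h1 ih

/-- pulled back rotation chains. -/
lemma pr_of_rotChain {V V₁ V₂ : Submodule ℝ E} {α : ℝ} (h : RotChain ⊤ V₁ V₂ α) :
    ∀ R : E ≃ₗᵢ[ℝ] E, V₁ = V.map (R.toLinearEquiv : E →ₗ[ℝ] E) →
    ∃ Q, PR V Q α ∧ V₂ = V.map ((Q.trans R).toLinearEquiv : E →ₗ[ℝ] E) := by
  induction h with
  | nil V₁ => exact fun R hR => ⟨_, PR.nil, hR⟩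
  | @cons V₁ V₂ V₃ φ α h _ ih =>
    intro R hR
    obtain ⟨θ, b, hON, hθ, -, hb, h0, h1, h2⟩ := h
    -- pull back the plane
    have hθ' : R.symm θ ∈ V := by
      rw [hR] at hθ
      obtain ⟨x, hx, hxe⟩ := hθ
      have : R.symm θ = x := by
        rw [← hxe]; exact R.symm_apply_apply x
      rw [this]; exact hx
    have hb' : R.symm b ∈ Vᗮ := by
      rw [Submodule.mem_orthogonal]
      intro x hx
      have h3 : ⟪R x, b⟫ = 0 := (Submodule.mem_orthogonal V₁ b).1 hb (R x) (by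
        rw [hR]; exact ⟨x, hx, rfl⟩)
      rw [← R.inner_map_map, R.apply_symm_apply]
      exact h3
    have hON' : ON (R.symm θ) (R.symm b) := hON.map R.symm
    have hstep : ∀ x, rotL θ b φ (R x) = R (rotL (R.symm θ) (R.symm b) φ x) := by
      intro x
      have := rotL_map R (R.symm θ) (R.symm b) φ x
      rwa [R.apply_symm_apply, R.apply_symm_apply] at this
    obtain ⟨Q, hQ, hQV⟩ := ih ((rotE hON' φ).trans R) (by
      rw [h2, hR]
      ext y
      constructor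
      · rintro ⟨_, ⟨x, hx, rfl⟩, rfl⟩
        exact ⟨x, hx, (hstep x).symm⟩
      · rintro ⟨x, hx, rfl⟩
        exact ⟨R x, ⟨x, hx, rfl⟩, hstep x⟩)
    exact ⟨_, PR.cons hON' hθ' hb' h0 h1 hQ, hQV⟩

/-- **Frame path**: chains between consecutive aligned frames, pulled back. -/
lemma frame_path_aux (W : ℕ → Submodule ℝ E) (α : ℕ → ℝ) (a : ℕ)
    (h : ∀ t, RotChain ⊤ (W (a + t)) (W (a + t + 1)) (α (a + t))) (V : Submodule ℝ E)
    (hV : W a = V) :
    ∃ R : ℕ → (E ≃ₗᵢ[ℝ] E), R 0 = LinearIsometryEquiv.refl ℝ E ∧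
      (∀ t, W (a + t) = V.map ((R t).toLinearEquiv : E →ₗ[ℝ] E)) ∧
      ∀ t, ∃ Q, PR V Q (α (a + t)) ∧ R (t + 1) = Q.trans (R t) := by
  classical
  -- build by recursion the pairs
  let P : ℕ → (E ≃ₗᵢ[ℝ] E) → Prop := fun t R => W (a + t) = V.map (R.toLinearEquiv : E →ₗ[ℝ] E)
  have step : ∀ t R, P t R → ∃ R', P (t + 1) R' ∧ ∃ Q, PR V Q (α (a + t)) ∧ R' = Q.trans R := by
    intro t R hR
    obtain ⟨Q, hQ, hQ'⟩ := pr_of_rotChain (h t) R hR
    exact ⟨Q.trans R, hQ', Q, hQ, rfl⟩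
  let nxt : ℕ → (E ≃ₗᵢ[ℝ] E) → (E ≃ₗᵢ[ℝ] E) := fun t R =>
    if h : P t R then (step t R h).choose else R
  let R : ℕ → (E ≃ₗᵢ[ℝ] E) := fun t => Nat.rec (LinearIsometryEquiv.refl ℝ E) nxt t
  have hRs : ∀ t, R (t + 1) = nxt t (R t) := fun t => rfl
  have hP : ∀ t, P t (R t) := by
    intro t
    induction t with
    | zero =>
      change W (a + 0) = V.map _
      rw [add_zero, hV]
      change V = V.map (LinearMap.id : E →ₗ[ℝ] E)
      rw [Submodule.map_id]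
    | succ t ih =>
      rw [hRs]
      simp only [nxt]
      rw [dif_pos ih]
      exact (step t (R t) ih).choose_spec.1
  refine ⟨R, rfl, hP, fun t => ?_⟩
  obtain ⟨Q, hQ, hQ'⟩ := (step t (R t) (hP t)).choose_spec.2
  refine ⟨Q, hQ, ?_⟩
  rw [← hQ', hRs]
  simp only [nxt]
  rw [dif_pos (hP t)]

end Vale.Agent.P262.H118
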