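import Vale.Agent.P262.H118.K1a
import Vale.Agent.P262.H118.Axis

/-!
# P262, milestone 1: the time axis with one dimensional labels, as double arrays (block FRM, K1)

Time is processed upwards, `t ∈ [0, T)`; `v t` is the `t`-th processed vector, `‖v t‖ = δ`.
Levels `i = 0, …, d - 1`; label space of level `i` (in pulled back coordinates): the fixed flag
`L f i = span (f 0, …, f (i-1))`.
-/

namespace Vale.Agent.P262.H118

open RealInnerProductSpace Module Vale.Agent.P262.H274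

variable {E : Type*} [NormedAddCommGroup E] [InnerProductSpace ℝ E]

/-- the flag. -/
def L (f : ℕ → E) : ℕ → Submodule ℝ E
  | 0 => ⊥
  | i + 1 => L f i ⊔ (ℝ ∙ f i)

lemma L_le_succ (f : ℕ → E) (i : ℕ) : L f i ≤ L f (i + 1) := le_sup_left

lemma L_mono (f : ℕ → E) : Monotone (L f) := monotone_nat_of_le_succ (L_le_succ f)

lemma mem_L (f : ℕ → E) {i j : ℕ} (h : i < j) : f i ∈ L f j :=
  L_mono f (Nat.succ_le_of_lt h) ((le_sup_right : (ℝ ∙ f i) ≤ L f (i + 1))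
    (Submodule.mem_span_singleton_self _))

lemma mem_L_succ_perp {f : ℕ → E} {i : ℕ} {x : E} :
    x ∈ (L f (i + 1))ᗮ ↔ x ∈ (L f i)ᗮ ∧ ⟪f i, x⟫ = 0 := by
  rw [L, ← Submodule.inf_orthogonal, Submodule.mem_inf,
    Submodule.mem_orthogonal_singleton_iff_inner_right]

/-- orthonormal up to `d`. -/
structure ONB (f : ℕ → E) (d : ℕ) : Prop where
  norm : ∀ i, i < d → ‖f i‖ = 1
  orth : ∀ i j, i < j → j < d → ⟪f i, f j⟫ = 0

lemma ONB.mem_perp {f : ℕ → E} {d : ℕ} (hf : ONB f d) {i : ℕ} (hi : i < d) : f i ∈ (L f i)ᗮ := by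
  have : ∀ j, j ≤ i → f i ∈ (L f j)ᗮ := by
    intro j
    induction j with
    | zero => intro _; simp [L]
    | succ j ih => exact fun h => mem_L_succ_perp.2 ⟨ih (by omega), hf.orth j i (by omega) hi⟩
  exact this i le_rfl

variable [FiniteDimensional ℝ E]

lemma ONB.finrank_perp {f : ℕ → E} {d : ℕ} (hf : ONB f d) (hd : finrank ℝ E = d) {i : ℕ}
    (hi : i ≤ d) : finrank ℝ (L f i)ᗮ + i = d := by
  induction i with
  | zero =>
    have : (L f 0)ᗮ = ⊤ := by simp [L]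
    rw [this, finrank_top, hd]
    rfl
  | succ i ih =>
    have h1 := ih (by omega)
    have hle : (ℝ ∙ f i) ≤ (L f i)ᗮ :=
      (Submodule.span_singleton_le_iff_mem _ _).2 (hf.mem_perp (by omega))
    have h2 := finrank_sup_perp hle
    have h3 : f i ≠ 0 := by
      intro h
      have := hf.norm i (by omega)
      rw [h, norm_zero] at this
      norm_num at this
    rw [finrank_span_singleton h3] at h2
    change finrank ℝ (L f i ⊔ (ℝ ∙ f i) : Submodule ℝ E)ᗮ + (i + 1) = d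
    omega

/-- the word of a level: `(S t)⁻¹ (v t)`. -/
noncomputable def wrd (v : ℕ → E) (S : ℕ → (E ≃ₗᵢ[ℝ] E)) : ℕ → E := fun t => (S t).symm (v t)

/-- slowness of level `i`: exactly `1`-slow in the type `(L f i)ᗮ`. -/
def Sl (v : ℕ → E) (N : ℝ) (f : ℕ → E) (S : ℕ → (E ≃ₗᵢ[ℝ] E)) (i : ℕ) (s e : ℕ) : Prop :=
  SlowEx (wd (L f i) (wrd v S)) N 1 s e

/-- a single step is exactly `1`-slow if `dim ≥ 2`. -/
lemma slowEx_one_step {G : Type*} [NormedAddCommGroup G] [InnerProductSpace ℝ G]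
    [FiniteDimensional ℝ G] (w : ℕ → G) {N : ℝ} (hN : 0 ≤ N) (h2 : 2 ≤ finrank ℝ G) (t : ℕ) :
    SlowEx w N 1 t (t + 1) := by
  have h3 : (ℝ ∙ w t)ᗮ ≠ ⊥ := by
    intro h
    have h1 := (ℝ ∙ w t).finrank_add_finrank_orthogonal
    rw [h, finrank_bot] at h1
    have h4 : finrank ℝ (ℝ ∙ w t) ≤ 1 := by
      have := finrank_span_le_card (R := ℝ) ({w t} : Set G)
      simpa using this
    omega
  obtain ⟨θ, hθ, hθ1⟩ := exists_unit_mem h3
  have hθ0 : θ ≠ 0 := by rintro rfl; simp at hθ1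
  refine ⟨fun _ => ℝ ∙ θ, fun _ => finrank_span_singleton hθ0, ?_⟩
  rw [Nat.Ico_succ_singleton, Finset.sum_singleton, sub_self, norm_zero, add_zero]
  have h5 : (ℝ ∙ θ).starProjection (w t) = 0 := by
    rw [Submodule.starProjection_apply_eq_zero_iff,
      Submodule.mem_orthogonal_singleton_iff_inner_right]
    rw [Submodule.mem_orthogonal_singleton_iff_inner_right] at hθ
    rw [real_inner_comm]; exact hθ
  rw [h5, norm_zero]; exact hN

/-- **One level step.** -/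
theorem level_step {v : ℕ → E} {T : ℕ} {N δ : ℝ} {f : ℕ → E} {d : ℕ} (hf : ONB f d)
    (hd : finrank ℝ E = d) (hN : 0 ≤ N) (hδ : 0 < δ) (hδ1 : δ ≤ 1) (hv : ∀ t, t < T → ‖v t‖ = δ)
    {i : ℕ} (hi : i + 1 < d) (S : ℕ → (E ≃ₗᵢ[ℝ] E)) (B : Set ℕ)
    (hp : ∀ t, t < T → wrd v S t ∈ (L f i)ᗮ) :
    ∃ (P : ℕ → (E ≃ₗᵢ[ℝ] E)) (al : ℕ → ℝ),
      (∀ t, ∀ x ∈ L f i, P t x = x) ∧
      (∀ t, t < T → wrd v (fun t => (P t).trans (S t)) t ∈ (L f (i + 1))ᗮ) ∧
      (∀ t, t + 1 < T → t + 1 ∉ nwOf (Sl v N f S i) B →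
        ∃ Q, PRF (L f i)ᗮ (ℝ ∙ f i) Q (al t) ∧ P (t + 1) = Q.trans (P t)) ∧
      (∀ s e, Iv (nwOf (Sl v N f S i) B) T s e →
        ∑ t ∈ Finset.Ico s e, al t ≤ 3 * Real.pi * N / δ) ∧
      ∀ t, 0 ≤ al t := by
  classical
  set C := nwOf (Sl v N f S i) B with hC
  have h0 : 0 ∈ C := zero_mem_nwOf
  have hfr : finrank ℝ (L f i)ᗮ + i = d := hf.finrank_perp hd (by omega)
  have hfr2 : 2 ≤ finrank ℝ (L f i)ᗮ := by omega
  -- the word in `(L f i)ᗮ`
  set w : ℕ → E := fun t => ((wd (L f i) (wrd v S) t : (L f i)ᗮ) : E) with hw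
  have hwmem : ∀ t, w t ∈ (L f i)ᗮ := fun t => (wd (L f i) (wrd v S) t).2
  have hweq : ∀ t, t < T → w t = wrd v S t := fun t ht => coe_wd (hp t ht)
  -- a frame path for every life
  have hlife : ∀ s, ∃ (V : Submodule ℝ E) (R : ℕ → (E ≃ₗᵢ[ℝ] E)) (α : ℕ → ℝ)
      (G : E ≃ₗᵢ[ℝ] E), s ∈ C → s < T → (∀ x, G x ∈ (L f i)ᗮ ↔ x ∈ (L f i)ᗮ) ∧
      (∀ x ∈ L f i, G x = x) ∧ (∀ x, G x ∈ V ↔ x ∈ (ℝ ∙ f i)) ∧
      FPathIn (L f i)ᗮ w V s (en C T s) R α ∧
      ∑ t ∈ Finset.Ico s (en C T s), α t ≤ 3 * Real.pi * N / δ := by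
    intro s
    by_cases hs : s ∈ C ∧ s < T
    swap
    · exact ⟨⊥, fun _ => LinearIsometryEquiv.refl ℝ E, fun _ => 0,
        LinearIsometryEquiv.refl ℝ E, fun h1 h2 => absurd ⟨h1, h2⟩ hs⟩
    obtain ⟨hs, hsT⟩ := hs
    have hiv := iv_en hs hsT
    have hslow : Sl v N f S i s (en C T s) :=
      life_slow (fun t => slowEx_one_step _ hN hfr2 t) hiv
    obtain ⟨V, R, α, hV1, hP, hα⟩ := frame_path_in (F := (L f i)ᗮ) hiv.2.1 hδ hδ1 hwmem
      (fun t h1 h2 => by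
        have h3 : t < T := lt_of_lt_of_le h2 (en_le _ _ _)
        rw [hweq t h3]
        unfold wrd
        rw [LinearIsometryEquiv.norm_map, hv t h3]) (by omega) (slowIn_of_slowEx hslow)
    -- unit vector of `V`
    have hVne : V ≠ ⊥ := by rintro rfl; simp at hV1
    obtain ⟨θ, hθV, hθ1⟩ := exists_unit_mem hVne
    obtain ⟨G, hG1, hG2, hG3⟩ := exists_swap (hf.norm i (by omega)) hθ1 (hf.mem_perp (by omega))
      (hP.le hθV)
    have hVspan : V = ℝ ∙ θ := by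
      have hθ0 : θ ≠ 0 := by rintro rfl; simp at hθ1
      refine (Submodule.eq_of_le_of_finrank_eq
        ((Submodule.span_singleton_le_iff_mem _ _).2 hθV) ?_).symm
      rw [finrank_span_singleton hθ0, hV1]
    refine ⟨V, R, α, G, fun _ _ => ⟨hG2, fun x hx => hG3 x ?_, fun x => ?_, hP, ?_⟩⟩
    · exact Submodule.le_orthogonal_orthogonal _ hx
    · rw [hVspan, Submodule.mem_span_singleton, Submodule.mem_span_singleton]
      constructor
      · rintro ⟨c, hc⟩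
        refine ⟨c, G.injective ?_⟩
        rw [map_smul, hG1, hc]
      · rintro ⟨c, hc⟩
        exact ⟨c, by rw [← hc, map_smul, hG1]⟩
    · refine hα.trans (le_of_eq ?_)
      rw [pow_one]; ring
  choose V R α G H using hlife
  -- definition of `P`
  let σ : ℕ → ℕ := st C
  refine ⟨fun t => if t < T then (G (σ t)).trans (R (σ t) t) else LinearIsometryEquiv.refl ℝ E,
    fun t => if t < T then α (σ t) t else 0, ?_, ?_, ?_, ?_, ?_⟩
  · intro t x hx
    by_cases ht : t < T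
    · obtain ⟨h1, h2, h3, h4, h5⟩ := H (σ t) (st_mem h0 t) ((st_le t).trans_lt ht)
      simp only [if_pos ht, LinearIsometryEquiv.trans_apply]
      rw [h2 x hx, h4.fix t x (Submodule.le_orthogonal_orthogonal _ hx)]
    · simp only [if_neg ht]
      rfl
  · intro t ht
    obtain ⟨h1, h2, h3, h4, h5⟩ := H (σ t) (st_mem h0 t) ((st_le t).trans_lt ht)
    have hst := iv_st h0 ht (B := C)
    have hperp := h4.perp t hst.2.1 hst.2.2
    have hm := h4.mem t (hwmem t)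
    rw [hweq t ht] at hperp hm
    have e : wrd v (fun t => ((if t < T then (G (σ t)).trans (R (σ t) t)
        else LinearIsometryEquiv.refl ℝ E) : E ≃ₗᵢ[ℝ] E).trans (S t)) t
        = (G (σ t)).symm ((R (σ t) t).symm (wrd v S t)) := by
      unfold wrd
      simp only [if_pos ht]
      rfl
    rw [e, mem_L_succ_perp]
    constructor
    · rw [← h1, LinearIsometryEquiv.apply_symm_apply]; exact hm
    · rw [← (G (σ t)).inner_map_map, LinearIsometryEquiv.apply_symm_apply]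
      exact (Submodule.mem_orthogonal _ _).1 hperp _
        ((h3 _).2 (Submodule.mem_span_singleton_self _))
  · intro t ht hnm
    have ht' : t < T := by omega
    have hσ : σ (t + 1) = σ t := by
      have hst := iv_st h0 ht' (B := C)
      have hlt : t + 1 < en C T (st C t) := by
        by_contra hcon
        have h6 : en C T (st C t) = t + 1 := by omega
        rcases hst.1.2.2.2.1 with h7 | h7
        · rw [h6] at h7; exact hnm h7
        · omega
      exact (hst.1.st_eq h0 (by omega) hlt).1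
    obtain ⟨h1, h2, h3, h4, h5⟩ := H (σ t) (st_mem h0 t) ((st_le t).trans_lt ht')
    have hst := iv_st h0 ht' (B := C)
    have hst' := iv_st h0 ht (B := C)
    have hen : t + 1 < en C T (σ t) := by
      have := hst'.2.2
      change t + 1 < en C T (σ (t + 1)) at this
      rwa [hσ] at this
    obtain ⟨Q, hQ, hQR⟩ := h4.step t hst.2.1 hen
    refine ⟨((G (σ t)).trans Q).trans (G (σ t)).symm, ?_, ?_⟩
    · simp only [if_pos ht']
      exact hQ.conj (G (σ t)) h1 h3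
    · simp only [if_pos ht, if_pos ht']
      rw [hσ, hQR]
      ext x
      simp only [LinearIsometryEquiv.trans_apply, LinearIsometryEquiv.apply_symm_apply]
  · intro s e hiv
    have hsT : s < T := lt_of_lt_of_le hiv.2.1 hiv.2.2.1
    obtain ⟨h1, h2, h3, h4, h5⟩ := H s hiv.1 hsT
    have hen : en C T s = e := (hiv.st_eq h0 le_rfl hiv.2.1).2
    rw [hen] at h5
    refine le_trans (le_of_eq ?_) h5
    refine Finset.sum_congr rfl fun t ht => ?_
    rw [Finset.mem_Ico] at ht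
    have hσ : σ t = s := (hiv.st_eq h0 ht.1 ht.2).1
    simp only [if_pos (lt_of_lt_of_le ht.2 hiv.2.2.1)]
    rw [hσ]
  · intro t
    by_cases ht : t < T
    · simp only [if_pos ht]
      exact (H (σ t) (st_mem h0 t) ((st_le t).trans_lt ht)).2.2.2.1.nonneg t
    · simp only [if_neg ht]
      exact le_rfl

/-- **The time axis with one dimensional labels.** -/
structure K1 (v : ℕ → E) (T : ℕ) (N δ : ℝ) (f : ℕ → E) (d : ℕ) where
  /-- total isometry of the coordinates of level `i` at time `t`: `v t = S i t (word)`. -/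
  S : ℕ → ℕ → (E ≃ₗᵢ[ℝ] E)
  P : ℕ → ℕ → (E ≃ₗᵢ[ℝ] E)
  /-- starting times of lives of level `i` -/
  nw : ℕ → Set ℕ
  al : ℕ → ℕ → ℝ
  S_zero : ∀ t, S 0 t = LinearIsometryEquiv.refl ℝ E
  S_succ : ∀ i t, S (i + 1) t = (P i t).trans (S i t)
  P_fix : ∀ i t, ∀ x ∈ L f i, P i t x = x
  perp : ∀ i, i < d → ∀ t, t < T → wrd v (S i) t ∈ (L f i)ᗮ
  nw_zero : nw 0 = {0}
  nw_succ : ∀ i, nw (i + 1) = nwOf (Sl v N f (S i) i) (nw i)
  step : ∀ i, i + 1 < d → ∀ t, t + 1 < T → t + 1 ∉ nw (i + 1) →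
    ∃ Q, PRF (L f i)ᗮ (ℝ ∙ f i) Q (al i t) ∧ P i (t + 1) = Q.trans (P i t)
  angle : ∀ i, i + 1 < d → ∀ s e, Iv (nw (i + 1)) T s e →
    ∑ t ∈ Finset.Ico s e, al i t ≤ 3 * Real.pi * N / δ
  al_nonneg : ∀ i t, 0 ≤ al i t

/-- starting times of the blocks of level `i`. -/
def K1.nb {v : ℕ → E} {T : ℕ} {N δ : ℝ} {f : ℕ → E} {d : ℕ} (K : K1 v T N δ f d) (i : ℕ) : Set ℕ :=
  nbOf (Sl v N f (K.S i) i) (K.nw i)

/-- **Existence.** -/
theorem exists_K1 {v : ℕ → E} {T : ℕ} {N δ : ℝ} {f : ℕ → E} {d : ℕ} (hf : ONB f d)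
    (hd : finrank ℝ E = d) (hN : 0 ≤ N) (hδ : 0 < δ) (hδ1 : δ ≤ 1)
    (hv : ∀ t, t < T → ‖v t‖ = δ) : Nonempty (K1 v T N δ f d) := by
  classical
  let St := (ℕ → (E ≃ₗᵢ[ℝ] E)) × Set ℕ
  -- choice of the level step
  have hstep : ∀ (i : ℕ) (p : St), ∃ (P : ℕ → (E ≃ₗᵢ[ℝ] E)) (al : ℕ → ℝ),
      (∀ t, ∀ x ∈ L f i, P t x = x) ∧ (∀ t, 0 ≤ al t) ∧
      (i + 1 < d → (∀ t, t < T → wrd v p.1 t ∈ (L f i)ᗮ) →
      (∀ t, t < T → wrd v (fun t => (P t).trans (p.1 t)) t ∈ (L f (i + 1))ᗮ) ∧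
      (∀ t, t + 1 < T → t + 1 ∉ nwOf (Sl v N f p.1 i) p.2 →
        ∃ Q, PRF (L f i)ᗮ (ℝ ∙ f i) Q (al t) ∧ P (t + 1) = Q.trans (P t)) ∧
      (∀ s e, Iv (nwOf (Sl v N f p.1 i) p.2) T s e →
        ∑ t ∈ Finset.Ico s e, al t ≤ 3 * Real.pi * N / δ)) := by
    intro i p
    by_cases h : i + 1 < d ∧ ∀ t, t < T → wrd v p.1 t ∈ (L f i)ᗮ
    · obtain ⟨P, al, h1, h2, h3, h4, h5⟩ := level_step hf hd hN hδ hδ1 hv h.1 p.1 p.2 h.2
      exact ⟨P, al, h1, h5, fun _ _ => ⟨h2, h3, h4⟩⟩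
    · exact ⟨fun _ => LinearIsometryEquiv.refl ℝ E, fun _ => 0, fun _ _ _ => rfl,
        fun _ => le_rfl, fun h1 h2 => absurd ⟨h1, h2⟩ h⟩
  choose P al hfix hal H using hstep
  let σ : ℕ → St := fun i => Nat.rec (fun _ => LinearIsometryEquiv.refl ℝ E, {0})
    (fun i p => (fun t => (P i p t).trans (p.1 t), nwOf (Sl v N f p.1 i) p.2)) i
  have hσ : ∀ i, σ (i + 1) = (fun t => (P i (σ i) t).trans ((σ i).1 t),
      nwOf (Sl v N f (σ i).1 i) (σ i).2) := fun i => rfl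
  have hperp : ∀ i, i < d → ∀ t, t < T → wrd v (σ i).1 t ∈ (L f i)ᗮ := by
    intro i
    induction i with
    | zero => intro _ t _; simp [L]
    | succ i ih =>
      intro hi t ht
      exact (H i (σ i) hi (ih (by omega))).1 t ht
  exact ⟨{
    S := fun i => (σ i).1
    P := fun i => P i (σ i)
    nw := fun i => (σ i).2
    al := fun i => al i (σ i)
    S_zero := fun t => rfl
    S_succ := fun i t => rfl
    P_fix := fun i t x hx => hfix i (σ i) t x hx
    perp := hperp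
    nw_zero := rfl
    nw_succ := fun i => rfl
    step := fun i hi => (H i (σ i) hi (hperp i (by omega))).2.1
    angle := fun i hi => (H i (σ i) hi (hperp i (by omega))).2.2
    al_nonneg := fun i t => hal i (σ i) t }⟩

namespace K1

variable {v : ℕ → E} {T : ℕ} {N δ : ℝ} {f : ℕ → E} {d : ℕ} (K : K1 v T N δ f d)

lemma zero_mem_nw (i : ℕ) : 0 ∈ K.nw i := by
  cases i with
  | zero => rw [K.nw_zero]; rfl
  | succ i => rw [K.nw_succ]; exact zero_mem_nwOf

lemma zero_mem_nb (i : ℕ) : 0 ∈ K.nb i := zero_mem_nbOf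

lemma nw_subset_nb (i : ℕ) : K.nw i ⊆ K.nb i := subset_nbOf

lemma nb_subset_nw (i : ℕ) : K.nb i ⊆ K.nw (i + 1) := by
  rw [K.nw_succ]; exact nbOf_subset_nwOf

/-- blocks are minimal not slow, or the (slow) last block of a life. -/
theorem block {i s e : ℕ} (h : Iv (K.nb i) T s e) :
    (¬ Sl v N f (K.S i) i s e ∧ ∀ r, s < r → r < e → Sl v N f (K.S i) i s r) ∨
      ((e ∈ K.nw i ∨ e = T) ∧ ∀ r, s < r → r ≤ e → Sl v N f (K.S i) i s r) :=
  block_cases h

/-- at most two lives of level `i + 1` start in a block of level `i`. -/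
theorem lives {i s e t : ℕ} (h : Iv (K.nb i) T s e) (h1 : s ≤ t) (h2 : t < e)
    (ht : t ∈ K.nw (i + 1)) : t = s ∨ (t + 1 = e ∧ ¬ Sl v N f (K.S i) i s e) := by
  rw [K.nw_succ] at ht
  exact nwOf_block h h1 h2 ht

/-- at the leaf level every block is a single step. -/
theorem leaf_block (hf : ONB f d) (hd : finrank ℝ E = d) (hd1 : 1 ≤ d) (hNδ : N < δ)
    (hv : ∀ t, t < T → ‖v t‖ = δ) {s e : ℕ} (h : Iv (K.nb (d - 1)) T s e) : e = s + 1 := by
  obtain ⟨h1, h2, h3, h4, h5⟩ := h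
  have hfr := hf.finrank_perp hd (i := d - 1) (by omega)
  have hsT : s < T := by omega
  have hns : ¬ Sl v N f (K.S (d - 1)) (d - 1) s (s + 1) := by
    refine not_slowEx_finrank (Nat.lt_succ_self s) ?_ (by omega)
    rw [norm_wd (K.perp (d - 1) (by omega) s hsT)]
    unfold wrd
    rw [LinearIsometryEquiv.norm_map, hv s hsT]
    exact hNδ
  by_contra hcon
  have h6 : s + 1 ∈ K.nb (d - 1) := by
    refine mem_nbOf_of_not_slow ?_
    have : cur (Sl v N f (K.S (d - 1)) (d - 1)) (K.nw (d - 1)) s = s := h1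
    rw [this]; exact hns
  exact h5 (s + 1) (by omega) (by omega) h6

end K1

end Vale.Agent.P262.H118
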