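import Vale.Agent.P262.H118.Sub

/-!
# P262, milestone 1: the time axis with one dimensional labels (block FRM, K1), part a

Cutting a time axis: `cur`, `nbOf`, `nwOf` (blocks of a level, lives of the next level), and the
conjugation lemma.
-/

namespace Vale.Agent.P262.H118

open RealInnerProductSpace Module Vale.Agent.P262.H274

/-! ### partitions of the time axis given by sets of starting times -/

/-- `[s, e)` is an interval of the partition of `[0, T)` with starting times `B`. -/
def Iv (B : Set ℕ) (T s e : ℕ) : Prop :=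
  s ∈ B ∧ s < e ∧ e ≤ T ∧ (e ∈ B ∨ e = T) ∧ ∀ r, s < r → r < e → r ∉ B

open Classical in
/-- the start of the block containing `t`: lives start at `B`, a block `[s, e)` is closed as soon as
`¬ S s e`. -/
noncomputable def cur (S : ℕ → ℕ → Prop) (B : Set ℕ) : ℕ → ℕ
  | 0 => 0
  | t + 1 => if t + 1 ∈ B ∨ ¬ S (cur S B t) (t + 1) then t + 1 else cur S B t

/-- starting times of blocks. -/
def nbOf (S : ℕ → ℕ → Prop) (B : Set ℕ) : Set ℕ := {t | cur S B t = t}

/-- starting times of the lives of the next level. -/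
def nwOf (S : ℕ → ℕ → Prop) (B : Set ℕ) : Set ℕ := {t | cur S B t = t ∨ ¬ S (cur S B t) (t + 1)}

variable {S : ℕ → ℕ → Prop} {B : Set ℕ}

lemma cur_le (t : ℕ) : cur S B t ≤ t := by
  induction t with
  | zero => exact le_rfl
  | succ t ih =>
    rw [cur]
    split_ifs
    · exact le_rfl
    · omega

lemma zero_mem_nbOf : 0 ∈ nbOf S B := rfl

lemma zero_mem_nwOf : 0 ∈ nwOf S B := Or.inl rfl

lemma nbOf_subset_nwOf : nbOf S B ⊆ nwOf S B := fun _ h => Or.inl h

lemma subset_nbOf : B ⊆ nbOf S B := by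
  intro t ht
  cases t with
  | zero => rfl
  | succ t =>
    change cur S B (t + 1) = t + 1
    rw [cur, if_pos (Or.inl ht)]

lemma cur_succ_of_not_mem {t : ℕ} (h : t + 1 ∉ nbOf S B) : cur S B (t + 1) = cur S B t := by
  have h1 : ¬ (t + 1 ∈ B ∨ ¬ S (cur S B t) (t + 1)) := by
    intro h2
    apply h
    change cur S B (t + 1) = t + 1
    rw [cur, if_pos h2]
  rw [cur, if_neg h1]

lemma slow_of_not_mem {t : ℕ} (h : t + 1 ∉ nbOf S B) : S (cur S B t) (t + 1) := by
  by_contra h2
  apply h
  change cur S B (t + 1) = t + 1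
  rw [cur, if_pos (Or.inr h2)]

lemma mem_nbOf_of_not_slow {t : ℕ} (h : ¬ S (cur S B t) (t + 1)) : t + 1 ∈ nbOf S B := by
  by_contra h2
  exact h (slow_of_not_mem h2)

lemma cur_eq_of_block {s e : ℕ} (hs : s ∈ nbOf S B) (h : ∀ r, s < r → r < e → r ∉ nbOf S B) :
    ∀ t, s ≤ t → t < e → cur S B t = s := by
  intro t hst
  induction t, hst using Nat.le_induction with
  | base => exact fun _ => hs
  | succ t hst ih =>
    intro hte
    rw [cur_succ_of_not_mem (h (t + 1) (by omega) hte), ih (by omega)]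

/-- the blocks: complete (minimal not slow) or the last block of a life. -/
theorem block_cases {T s e : ℕ} (h : Iv (nbOf S B) T s e) :
    (¬ S s e ∧ ∀ r, s < r → r < e → S s r) ∨
      ((e ∈ B ∨ e = T) ∧ ∀ r, s < r → r ≤ e → S s r) := by
  obtain ⟨hs, hse, heT, he, hr⟩ := h
  have hcur := cur_eq_of_block hs hr
  have hslow : ∀ r, s < r → r < e → S s r := by
    intro r h1 h2
    have h3 := slow_of_not_mem (S := S) (B := B) (t := r - 1) (by
      have : r - 1 + 1 = r := by omega
      rw [this]; exact hr r h1 h2)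
    have h4 : r - 1 + 1 = r := by omega
    rwa [h4, hcur (r - 1) (by omega) (by omega)] at h3
  by_cases hS : S s e
  · refine Or.inr ⟨?_, fun r h1 h2 => ?_⟩
    · rcases he with he | he
      · left
        have h1 : cur S B e = e := he
        obtain ⟨n, rfl⟩ : ∃ n, e = n + 1 := ⟨e - 1, by omega⟩
        rw [cur] at h1
        by_contra hcon
        rw [hcur n (by omega) (by omega), if_neg (by tauto)] at h1
        omega
      · exact Or.inr he
    · rcases h2.eq_or_lt with rfl | h3
      · exact hS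
      · exact hslow r h1 h3
  · exact Or.inl ⟨hS, hslow⟩

/-- every life of the next level is slow. -/
theorem life_slow (hstep : ∀ t, S t (t + 1)) {T s e : ℕ} (h : Iv (nwOf S B) T s e) : S s e := by
  obtain ⟨hs, hse, heT, he, hr⟩ := h
  by_cases h1 : S (cur S B s) (s + 1)
  · -- `s` starts a block
    have hs' : s ∈ nbOf S B := hs.resolve_right (not_not_intro h1)
    have hcur := cur_eq_of_block hs' (e := e) fun r h2 h3 h4 => hr r h2 h3 (Or.inl h4)
    rcases Nat.lt_or_ge (s + 1) e with h2 | h2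
    · have h3 : ¬ ¬ S (cur S B (e - 1)) (e - 1 + 1) := fun h4 => hr (e - 1) (by omega) (by omega)
        (Or.inr h4)
      rw [hcur (e - 1) (by omega) (by omega)] at h3
      have h4 : e - 1 + 1 = e := by omega
      rw [h4] at h3
      exact not_not.1 h3
    · have : e = s + 1 := by omega
      rw [this]; exact hstep s
  · -- single step
    have h2 : s + 1 ∈ nwOf S B := Or.inl (mem_nbOf_of_not_slow h1)
    have : e = s + 1 := by
      by_contra hcon
      exact hr (s + 1) (by omega) (by omega) h2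
    rw [this]; exact hstep s

/-- at most two lives of the next level in a block: they start at `s` or at the last step of a
complete block. -/
theorem nwOf_block {T s e t : ℕ} (h : Iv (nbOf S B) T s e) (h1 : s ≤ t) (h2 : t < e)
    (ht : t ∈ nwOf S B) : t = s ∨ (t + 1 = e ∧ ¬ S s e) := by
  obtain ⟨hs, hse, heT, he, hr⟩ := h
  have hcur := cur_eq_of_block hs hr t h1 h2
  rcases ht with ht | ht
  · left; rw [← hcur]; exact ht.symm
  · right
    have h3 := mem_nbOf_of_not_slow ht
    have h4 : t + 1 = e := by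
      by_contra hcon
      exact hr (t + 1) (by omega) (by omega) h3
    rw [hcur, h4] at ht
    exact ⟨h4, ht⟩

/-! ### intervals -/

open Classical in
/-- the end of the interval starting at (or containing) `s`. -/
noncomputable def en (B : Set ℕ) (T s : ℕ) : ℕ :=
  if h : ∃ e, s < e ∧ e ∈ B then min T (Nat.find h) else T

open Classical in
/-- the start of the interval containing `t`. -/
noncomputable def st (B : Set ℕ) (t : ℕ) : ℕ := Nat.findGreatest (· ∈ B) t

lemma st_mem (h0 : 0 ∈ B) (t : ℕ) : st B t ∈ B := by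
  classical
  exact Nat.findGreatest_spec (P := (· ∈ B)) (Nat.zero_le t) h0

lemma st_le (t : ℕ) : st B t ≤ t := by
  classical
  exact Nat.findGreatest_le _

lemma not_mem_of_st {t r : ℕ} (h1 : st B t < r) (h2 : r ≤ t) : r ∉ B := by
  classical
  exact Nat.findGreatest_is_greatest (P := (· ∈ B)) h1 h2

lemma en_le (B : Set ℕ) (T s : ℕ) : en B T s ≤ T := by
  classical
  unfold en
  split_ifs
  · exact min_le_left _ _
  · exact le_rfl

lemma lt_en {T s : ℕ} (h : s < T) : s < en B T s := by
  classical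
  unfold en
  split_ifs with h1
  · exact lt_min h (Nat.find_spec h1).1
  · exact h

lemma not_mem_of_en {T s r : ℕ} (h1 : s < r) (h2 : r < en B T s) : r ∉ B := by
  classical
  intro h3
  unfold en at h2
  rw [dif_pos ⟨r, h1, h3⟩] at h2
  have := Nat.find_min' (⟨r, h1, h3⟩ : ∃ e, s < e ∧ e ∈ B) ⟨h1, h3⟩
  omega

lemma en_mem (B : Set ℕ) (T s : ℕ) : en B T s ∈ B ∨ en B T s = T := by
  classical
  unfold en
  split_ifs with h1
  · rcases min_choice T (Nat.find h1) with h | h
    · exact Or.inr h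
    · left; rw [h]; exact (Nat.find_spec h1).2
  · exact Or.inr rfl

lemma iv_en {T s : ℕ} (hs : s ∈ B) (h : s < T) : Iv B T s (en B T s) :=
  ⟨hs, lt_en h, en_le B T s, en_mem B T s, fun _ h1 h2 => not_mem_of_en h1 h2⟩

/-- the interval containing `t`. -/
lemma iv_st (h0 : 0 ∈ B) {T t : ℕ} (h : t < T) :
    Iv B T (st B t) (en B T (st B t)) ∧ st B t ≤ t ∧ t < en B T (st B t) := by
  have h1 := iv_en (st_mem h0 t) ((st_le t).trans_lt h)
  refine ⟨h1, st_le t, ?_⟩
  by_contra hcon
  push Not at hcon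
  rcases h1.2.2.2.1 with h2 | h2
  · exact not_mem_of_st h1.2.1 hcon h2
  · omega

lemma Iv.unique {T s e s' e' t : ℕ} (h : Iv B T s e) (h' : Iv B T s' e') (h1 : s ≤ t)
    (h2 : t < e) (h3 : s' ≤ t) (h4 : t < e') : s = s' ∧ e = e' := by
  obtain ⟨a1, a2, a3, a4, a5⟩ := h
  obtain ⟨b1, b2, b3, b4, b5⟩ := h'
  have hs : s = s' := by
    rcases lt_trichotomy s s' with h | h | h
    · exact absurd b1 (a5 s' h (by omega))
    · exact h
    · exact absurd a1 (b5 s h (by omega))
  subst hs
  refine ⟨rfl, ?_⟩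
  rcases lt_trichotomy e e' with h | h | h
  · rcases a4 with h5 | h5
    · exact absurd h5 (b5 e (by omega) h)
    · omega
  · exact h
  · rcases b4 with h5 | h5
    · exact absurd h5 (a5 e' (by omega) h)
    · omega

lemma Iv.st_eq {T s e t : ℕ} (h0 : 0 ∈ B) (h : Iv B T s e) (h1 : s ≤ t) (h2 : t < e) :
    st B t = s ∧ en B T s = e := by
  have h3 := iv_st (B := B) h0 (lt_of_lt_of_le h2 h.2.2.1)
  obtain ⟨h4, h5⟩ := h.unique h3.1 h1 h2 h3.2.1 h3.2.2
  exact ⟨h4.symm, by rw [h5, ← h4]⟩

/-! ### conjugation -/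

variable {E : Type*} [NormedAddCommGroup E] [InnerProductSpace ℝ E]

lemma PRF.conj {F V V' : Submodule ℝ E} {Q : E ≃ₗᵢ[ℝ] E} {α : ℝ} (h : PRF F V Q α)
    (G : E ≃ₗᵢ[ℝ] E) (hG : ∀ x, G x ∈ F ↔ x ∈ F) (hV : ∀ x, G x ∈ V ↔ x ∈ V') :
    PRF F V' ((G.trans Q).trans G.symm) α := by
  induction h with
  | nil =>
    have : (G.trans (LinearIsometryEquiv.refl ℝ E)).trans G.symm = LinearIsometryEquiv.refl ℝ E := by
      ext x; simp
    rw [this]; exact PRF.nil
  | @cons θ b h hθ hb hbF φ h0 h1 Q α t ih =>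
    have hON : ON (G.symm θ) (G.symm b) := h.map G.symm
    have h2 : (G.trans (Q.trans (rotE h φ))).trans G.symm
        = ((G.trans Q).trans G.symm).trans (rotE hON φ) := by
      ext x
      simp only [LinearIsometryEquiv.trans_apply, rotE_apply]
      have := rotL_map G.symm θ b φ (Q (G x))
      exact this.symm
    rw [h2]
    refine PRF.cons hON ?_ ?_ ?_ h0 h1 ih
    · rw [← hV, G.apply_symm_apply]; exact hθ
    · rw [Submodule.mem_orthogonal]
      intro x hx
      rw [← G.inner_map_map, G.apply_symm_apply]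
      exact (Submodule.mem_orthogonal V b).1 hb (G x) ((hV x).2 hx)
    · rw [← hG, G.apply_symm_apply]; exact hbF

/-- a reflection taking the unit vector `p` to the unit vector `q`, both in `F`. -/
lemma exists_swap {F : Submodule ℝ E} {p q : E} (hp : ‖p‖ = 1) (hq : ‖q‖ = 1) (hpF : p ∈ F)
    (hqF : q ∈ F) : ∃ G : E ≃ₗᵢ[ℝ] E, G p = q ∧ (∀ x, G x ∈ F ↔ x ∈ F) ∧ ∀ x ∈ Fᗮ, G x = x := by
  have hpq : p - q ∈ F := F.sub_mem hpF hqF
  have hap : ∀ x, ∃ c : ℝ, ((ℝ ∙ (p - q))ᗮ).reflection x = x + c • (p - q) := by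
    intro x
    refine ⟨-2 * (⟪p - q, x⟫ / (‖p - q‖ : ℝ) ^ 2), ?_⟩
    rw [Submodule.reflection_orthogonal_apply, Submodule.reflection_singleton_apply]
    simp only [RCLike.ofReal_real_eq_id, id]
    module
  refine ⟨((ℝ ∙ (p - q))ᗮ).reflection, ?_, ?_, ?_⟩
  · exact Submodule.reflection_sub (by rw [hp, hq])
  · intro x
    obtain ⟨c, hc⟩ := hap x
    rw [hc]
    exact F.add_mem_iff_left (F.smul_mem _ hpq)
  · intro x hx
    rw [Submodule.reflection_eq_self_iff, Submodule.mem_orthogonal_singleton_iff_inner_right]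
    exact (Submodule.mem_orthogonal F x).1 hx _ hpq

end Vale.Agent.P262.H118
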