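import Vale.Agent.P262.H118.Win

/-!
# P262, milestone 2: the time axis with classes, as arrays indexed by the class path (block FRM, K2)

A path is the reversed list of the classes chosen so far: `[]` = root, `c :: p` = child of `p` through
the class `c`.  Every path has, at every time, a label space `W p t`, an isometry `S p t`, lives
(starting times `nw p`), windows of every class (`B p c`).  The lives of `c :: p` are the pieces of the
class-`c` windows of `p`.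
-/

namespace Vale.Agent.P262.H118

open RealInnerProductSpace Module Vale.Agent.P262.H274

/-! ### refinement of partitions of the time axis -/

/-- refinement of the partition `B` by the sets `C s`, `s` = start of an interval. -/
def rf (B : Set ℕ) (T : ℕ) (C : ℕ → Set ℕ) : Set ℕ := B ∪ {t | t < T ∧ t ∈ C (st B t)}

lemma subset_rf (B : Set ℕ) (T : ℕ) (C : ℕ → Set ℕ) : B ⊆ rf B T C := Set.subset_union_left

lemma st_eq_self {B : Set ℕ} {t : ℕ} (h : t ∈ B) : st B t = t := by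
  rcases (st_le (B := B) t).lt_or_eq with h1 | h1
  · exact absurd h (not_mem_of_st h1 le_rfl)
  · exact h1

lemma mem_rf {B : Set ℕ} (_h0 : 0 ∈ B) {T : ℕ} {C : ℕ → Set ℕ}
    (hC : ∀ s, s ∈ B → s < T → s ∈ C s) {t : ℕ} (ht : t < T) :
    t ∈ rf B T C ↔ t ∈ C (st B t) := by
  constructor
  · rintro (h | h)
    · rw [st_eq_self h]; exact hC t h ht
    · exact h.2
  · exact fun h => Or.inr ⟨ht, h⟩

/-- intervals of the refinement. -/
lemma iv_rf {B : Set ℕ} (h0 : 0 ∈ B) {T : ℕ} {C : ℕ → Set ℕ}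
    (hC : ∀ s, s ∈ B → s < T → s ∈ C s) {s' e' : ℕ} (h : Iv (rf B T C) T s' e') :
    ∃ s e, Iv B T s e ∧ s = st B s' ∧ e = en B T s ∧ s ≤ s' ∧ e' ≤ e ∧ Iv (C s) e s' e' := by
  obtain ⟨h1, h2, h3, h4, h5⟩ := h
  have hs'T : s' < T := by omega
  have hiv := iv_st h0 hs'T
  refine ⟨st B s', en B T (st B s'), hiv.1, rfl, rfl, hiv.2.1, ?_, ?_⟩
  · by_contra hcon
    push Not at hcon
    rcases hiv.1.2.2.2.1 with h6 | h6
    · exact h5 _ hiv.2.2 hcon (subset_rf B T C h6)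
    · omega
  · have he' : e' ≤ en B T (st B s') := by
      by_contra hcon
      push Not at hcon
      rcases hiv.1.2.2.2.1 with h6 | h6
      · exact h5 _ hiv.2.2 hcon (subset_rf B T C h6)
      · omega
    have hst : ∀ r, s' ≤ r → r < en B T (st B s') → st B r = st B s' := fun r hr1 hr2 =>
      (hiv.1.st_eq h0 (by omega) hr2).1
    refine ⟨(mem_rf h0 hC hs'T).1 h1, h2, he', ?_, ?_⟩
    · rcases he'.eq_or_lt with h6 | h6
      · exact Or.inr h6
      · left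
        have h7 : e' < T := lt_of_lt_of_le h6 (en_le _ _ _)
        rcases h4 with h8 | h8
        · have := (mem_rf h0 hC h7).1 h8
          rwa [hst e' h2.le h6] at this
        · omega
    · intro r hr1 hr2 hr3
      refine h5 r hr1 hr2 ((mem_rf h0 hC (by omega)).2 ?_)
      rw [hst r hr1.le (by omega)]; exact hr3

/-- starting times and dimensions of a partition with a price. -/
lemma HasCost.cut {P : ℕ → ℕ → ℕ → Prop} {ρ : ℝ} {a b : ℕ} {c : ℝ} (h : HasCost P ρ a b c) :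
    ∃ (C : Set ℕ) (k : ℕ → ℕ), (a < b → a ∈ C) ∧ (∀ t ∈ C, a ≤ t ∧ t < b) ∧
      (∀ s e, Iv C b s e → P (k s) s e) ∧
      ∑ t ∈ Finset.Ico a b, C.indicator (fun t => ρ ^ k t) t = c := by
  classical
  induction h with
  | nil a =>
    exact ⟨∅, fun _ => 0, fun h => absurd h (lt_irrefl _), fun t ht => absurd ht (by simp),
      fun s e h => absurd h.1 (by simp), by simp⟩
  | cons a b b' k0 c hab hP ht ih =>
    obtain ⟨C, k, h1, h2, h3, h4⟩ := ih
    have hbb' := ht.le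
    have haC : a ∉ C := fun h => by have := (h2 a h).1; omega
    refine ⟨insert a C, Function.update k a k0, fun _ => Set.mem_insert _ _, ?_, ?_, ?_⟩
    · rintro t (rfl | ht')
      · exact ⟨le_rfl, by omega⟩
      · have := h2 t ht'
        exact ⟨by omega, this.2⟩
    · rintro s e ⟨g1, g2, g3, g4, g5⟩
      by_cases hsa : s = a
      · subst hsa
        rw [Function.update_self]
        have he : e = b := by
          rcases lt_trichotomy e b with h | h | h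
          · exfalso
            rcases g4 with (g4 | g4) | g4
            · omega
            · have := h2 e g4; omega
            · omega
          · exact h
          · exfalso
            exact g5 b hab h (Set.mem_insert_of_mem _ (h1 (by omega)))
        rw [he]; exact hP
      · rw [Function.update_of_ne hsa]
        have hsC : s ∈ C := g1.resolve_left hsa
        have hsb := (h2 s hsC).1
        refine h3 s e ⟨hsC, g2, g3, ?_, fun r hr1 hr2 hr3 =>
          g5 r hr1 hr2 (Set.mem_insert_of_mem _ hr3)⟩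
        rcases g4 with (g4 | g4) | g4
        · omega
        · exact Or.inl g4
        · exact Or.inr g4
    · rw [← Finset.sum_Ico_consecutive _ hab.le hbb']
      congr 1
      · rw [Finset.sum_eq_single_of_mem a (Finset.mem_Ico.2 ⟨le_rfl, hab⟩)]
        · rw [Set.indicator_of_mem (Set.mem_insert _ _), Function.update_self]
        · intro t ht' hta
          rw [Finset.mem_Ico] at ht'
          rw [Set.indicator_of_notMem]
          rintro (h | h)
          · exact hta h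
          · have := (h2 t h).1; omega
      · rw [← h4]
        refine Finset.sum_congr rfl fun t ht' => ?_
        rw [Finset.mem_Ico] at ht'
        have hta : t ≠ a := by omega
        by_cases htC : t ∈ C
        · rw [Set.indicator_of_mem htC, Set.indicator_of_mem (Set.mem_insert_of_mem _ htC),
            Function.update_of_ne hta]
        · rw [Set.indicator_of_notMem htC, Set.indicator_of_notMem]
          rintro (h | h)
          · exact hta h
          · exact htC h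

variable {E : Type*} [NormedAddCommGroup E] [InnerProductSpace ℝ E]

lemma sup_inf_orthogonal' {W V : Submodule ℝ E} (h : V ≤ Wᗮ) : (W ⊔ V) ⊓ Wᗮ = V := by
  rw [sup_comm, sup_inf_assoc_of_le _ h, Submodule.inf_orthogonal_eq_bot, sup_bot_eq]

variable [FiniteDimensional ℝ E]

lemma finrank_sup_sub {W V : Submodule ℝ E} (h : V ≤ Wᗮ) :
    finrank ℝ (W ⊔ V : Submodule ℝ E) - finrank ℝ W = finrank ℝ V := by
  have h1 := Submodule.finrank_sup_add_finrank_inf_eq W V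
  have h2 : W ⊓ V = ⊥ := by
    rw [eq_bot_iff, ← Submodule.inf_orthogonal_eq_bot W]
    exact inf_le_inf le_rfl h
  rw [h2, finrank_bot] at h1
  omega

/-- **Frame of a piece**, in the fixed space. -/
theorem piece_frame {v : ℕ → E} {N δ : ℝ} (hδ : 0 < δ) (hδ1 : δ ≤ 1)
    {S : ℕ → (E ≃ₗᵢ[ℝ] E)} {W : Submodule ℝ E} {k s e : ℕ} (hse : s < e)
    (hv : ∀ t, s ≤ t → t < e → ‖v t‖ = δ) (hp : ∀ t, s ≤ t → t < e → wrd v S t ∈ Wᗮ)
    (h : Piece (wd W (wrd v S)) N k s e) :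
    ∃ (V : Submodule ℝ E) (R : ℕ → (E ≃ₗᵢ[ℝ] E)) (α : ℕ → ℝ), V ≤ Wᗮ ∧ finrank ℝ V = k ∧
      (∀ t, ∀ x ∈ W, R t x = x) ∧
      (∀ t, s ≤ t → t < e → (R t).symm (wrd v S t) ∈ (W ⊔ V)ᗮ) ∧
      (∀ t, s ≤ t → t + 1 < e → ∃ Q, PRF Wᗮ V Q (α t) ∧ R (t + 1) = Q.trans (R t)) ∧
      (∀ t, 0 ≤ α t) ∧ ∑ t ∈ Finset.Ico s e, α t ≤ Real.pi * 3 ^ k * N / δ := by
  obtain ⟨hk1, hk2, hS⟩ := h
  set w : ℕ → E := fun t => ((wd W (wrd v S) t : Wᗮ) : E) with hw
  have hwmem : ∀ t, w t ∈ Wᗮ := fun t => (wd W (wrd v S) t).2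
  have hweq : ∀ t, s ≤ t → t < e → w t = wrd v S t := fun t h1 h2 => coe_wd (hp t h1 h2)
  obtain ⟨V, R, α, hV1, hP, hα⟩ := frame_path_in (F := Wᗮ) hse hδ hδ1 hwmem
    (fun t h1 h2 => by
      rw [hweq t h1 h2]
      unfold wrd
      rw [LinearIsometryEquiv.norm_map, hv t h1 h2]) hk2 (slowIn_of_slowEx hS)
  refine ⟨V, R, α, hP.le, hV1, fun t x hx => hP.fix t x (Submodule.le_orthogonal_orthogonal _ hx),
    fun t h1 h2 => ?_, hP.step, hP.nonneg, hα⟩
  rw [← Submodule.inf_orthogonal, Submodule.mem_inf, ← hweq t h1 h2]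
  exact ⟨hP.mem t (hwmem t), hP.perp t h1 h2⟩

/-! ### nodes -/

/-- a node: isometries, label spaces, starting times of lives. -/
structure Nd (E : Type*) [NormedAddCommGroup E] [InnerProductSpace ℝ E] where
  S : ℕ → (E ≃ₗᵢ[ℝ] E)
  W : ℕ → Submodule ℝ E
  nw : Set ℕ

/-- validity of a node. -/
structure Nd.Ok (v : ℕ → E) (T : ℕ) (p : Nd E) : Prop where
  zero : 0 ∈ p.nw
  const : ∀ t, t + 1 < T → t + 1 ∉ p.nw → p.W (t + 1) = p.W t
  perp : ∀ t, t < T → wrd v p.S t ∈ (p.W t)ᗮ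

omit [FiniteDimensional ℝ E] in
lemma const_on {W : ℕ → Submodule ℝ E} {T : ℕ} {nw B : Set ℕ}
    (hc : ∀ t, t + 1 < T → t + 1 ∉ nw → W (t + 1) = W t) (hB : nw ⊆ B) {s e : ℕ}
    (h : Iv B T s e) {t : ℕ} (h1 : s ≤ t) (h2 : t < e) : W t = W s := by
  induction t, h1 using Nat.le_induction with
  | base => rfl
  | succ t h1 ih =>
    rw [hc t (by have := h.2.2.1; omega) fun h3 => h.2.2.2.2 (t + 1) (by omega) h2 (hB h3)]
    exact ih (by omega)

/-- windows of all the classes of a node. -/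
structure IsWin (v : ℕ → E) (T : ℕ) (N : ℕ → ℝ) (p : Nd E) (B : ℕ → Set ℕ) : Prop where
  sub : ∀ c, p.nw ⊆ B c
  mono : ∀ c, B c ⊆ B (c + 1)
  win : ∀ c s e, Iv (B c) T s e → Mg (Slow (wd (p.W s) (wrd v p.S)) (N c) 1) s e ∨
    (Iv p.nw T s e ∧ Slow (wd (p.W s) (wrd v p.S)) (N c) 1 s e)

/-- **windows of a node.** -/
theorem exists_win {v : ℕ → E} {T : ℕ} {N : ℕ → ℝ} (hN : ∀ c, N (c + 1) ≤ N c) {p : Nd E}
    (hp : p.Ok v T) : ∃ B, IsWin v T N p B := by
  classical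
  have h0 := hp.zero
  have hcut : ∀ a, ∃ B : ℕ → Set ℕ, a ∈ p.nw → a < T → (∀ c, a ∈ B c) ∧
      (∀ c, B c ⊆ B (c + 1)) ∧ (∀ c, ∀ t ∈ B c, a ≤ t ∧ t < en p.nw T a) ∧
      ∀ c s e, Iv (B c) (en p.nw T a) s e → Mg (Slow (wd (p.W a) (wrd v p.S)) (N c) 1) s e ∨
        (s = a ∧ e = en p.nw T a ∧ Slow (wd (p.W a) (wrd v p.S)) (N c) 1 a (en p.nw T a)) := by
    intro a
    by_cases h : a < T
    · obtain ⟨B, h1, h2, h3, h4⟩ := windows
        (S := fun c s e => Slow (wd (p.W a) (wrd v p.S)) (N c) 1 s e)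
        (fun c s e h => Slow.mono_N h (hN c)) (lt_en h (B := p.nw))
      exact ⟨B, fun _ _ => ⟨h1, h2, h3, h4⟩⟩
    · exact ⟨fun _ => ∅, fun _ h' => absurd h' h⟩
  choose B hB using hcut
  refine ⟨fun c => rf p.nw T fun a => B a c, fun c => subset_rf _ _ _, fun c => ?_, ?_⟩
  · rintro t (ht | ht)
    · exact Or.inl ht
    · refine Or.inr ⟨ht.1, ?_⟩
      exact (hB _ (st_mem h0 t) ((st_le t).trans_lt ht.1)).2.1 c ht.2
  · intro c s' e' h
    obtain ⟨a, b, h1, h2, h3, h4, h5, h6⟩ := iv_rf h0 (C := fun a => B a c)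
      (fun s hs hsT => (hB s hs hsT).1 c) h
    have haT : a < T := lt_of_lt_of_le h1.2.1 h1.2.2.1
    have hW : p.W s' = p.W a := const_on hp.const subset_rfl h1 h4 (by have := h.2.1; omega)
    rw [h3] at h6
    rcases (hB a h1.1 haT).2.2.2 c s' e' h6 with h7 | ⟨h7, h8, h9⟩
    · rw [hW]; exact Or.inl h7
    · right
      rw [← h3] at h8 h9
      rw [h7, h8]
      exact ⟨h1, h9⟩

/-- a child: the pieces of the windows `B` (class constant `N`). -/
structure IsChild (v : ℕ → E) (T : ℕ) (N δ ρ : ℝ) (p : Nd E) (B : Set ℕ)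
    (P : ℕ → (E ≃ₗᵢ[ℝ] E)) (al : ℕ → ℝ) (q : Nd E) : Prop where
  S : ∀ t, q.S t = (P t).trans (p.S t)
  fix : ∀ t, ∀ x ∈ p.W t, P t x = x
  le : ∀ t, p.W t ≤ q.W t
  sub : B ⊆ q.nw
  nonneg : ∀ t, 0 ≤ al t
  piece : ∀ s e, 2 ≤ finrank ℝ (p.W s)ᗮ → Iv q.nw T s e →
    Piece (wd (p.W s) (wrd v p.S)) N (finrank ℝ (q.W s) - finrank ℝ (p.W s)) s e
  price : ∀ s e, 2 ≤ finrank ℝ (p.W s)ᗮ → Iv B T s e →
    ∑ a ∈ Finset.Ico s e, q.nw.indicator
      (fun a => ρ ^ (finrank ℝ (q.W a) - finrank ℝ (p.W a))) a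
      ≤ Cost (Slow (wd (p.W s) (wrd v p.S)) N) ρ s e
  leaf : ∀ t, finrank ℝ (p.W t)ᗮ ≤ 1 → q.W t = p.W t ∧ P t = LinearIsometryEquiv.refl ℝ E
  step : ∀ t, t + 1 < T → t + 1 ∉ q.nw →
    ∃ Q, PRF (p.W t)ᗮ (q.W t ⊓ (p.W t)ᗮ) Q (al t) ∧ P (t + 1) = Q.trans (P t)
  angle : ∀ s e, Iv q.nw T s e → ∑ t ∈ Finset.Ico s e, al t ≤
    Real.pi * 3 ^ (finrank ℝ (q.W s) - finrank ℝ (p.W s)) * N / δ

omit [FiniteDimensional ℝ E] in
lemma norm_wrd {v : ℕ → E} {S : ℕ → (E ≃ₗᵢ[ℝ] E)} (t : ℕ) : ‖wrd v S t‖ = ‖v t‖ := by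
  unfold wrd
  rw [LinearIsometryEquiv.norm_map]

/-- **the child of a node through a class.** -/
theorem exists_child {v : ℕ → E} {T : ℕ} {N δ ρ : ℝ} (hδ : 0 < δ) (hδ1 : δ ≤ 1)
    (hv : ∀ t, t < T → ‖v t‖ = δ) (hρ0 : 0 < ρ) (hρ1 : ρ < 1 / 3) (hN : 0 ≤ N) (hNδ : N < δ)
    {p : Nd E} (hp : p.Ok v T) {B : Set ℕ} (hB : p.nw ⊆ B)
    (hwin : ∀ s e, Iv B T s e → Mg (Slow (wd (p.W s) (wrd v p.S)) N 1) s e ∨
      Slow (wd (p.W s) (wrd v p.S)) N 1 s e) :
    ∃ (P : ℕ → (E ≃ₗᵢ[ℝ] E)) (al : ℕ → ℝ) (q : Nd E), IsChild v T N δ ρ p B P al q ∧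
      q.Ok v T := by
  classical
  have h0 : 0 ∈ B := hB hp.zero
  have hWc : ∀ {s e t : ℕ}, Iv B T s e → s ≤ t → t < e → p.W t = p.W s :=
    fun h h1 h2 => const_on hp.const hB h h1 h2
  have hnorm : ∀ {s e t : ℕ}, Iv B T s e → s ≤ t → t < e →
      N < ‖wd (p.W s) (wrd v p.S) t‖ := by
    intro s e t h h1 h2
    have ht : t < T := lt_of_lt_of_le h2 h.2.2.1
    have h3 := hp.perp t ht
    rw [hWc h h1 h2] at h3
    rw [norm_wd h3, norm_wrd, hv t ht]
    exact hNδ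
  -- cut of the windows
  have hcut : ∀ s, ∃ (C : Set ℕ) (k : ℕ → ℕ), s ∈ B → s < T → s ∈ C ∧
      (∀ t ∈ C, s ≤ t ∧ t < en B T s) ∧ (2 ≤ finrank ℝ (p.W s)ᗮ →
        (∀ s' e', Iv C (en B T s) s' e' → Piece (wd (p.W s) (wrd v p.S)) N (k s') s' e') ∧
        ∑ a ∈ Finset.Ico s (en B T s), C.indicator (fun a => ρ ^ k a) a
          ≤ Cost (Slow (wd (p.W s) (wrd v p.S)) N) ρ s (en B T s)) := by
    intro s
    by_cases hs : s ∈ B ∧ s < T
    swap
    · exact ⟨∅, fun _ => 0, fun h1 h2 => absurd ⟨h1, h2⟩ hs⟩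
    have hiv := iv_en hs.1 hs.2
    by_cases h2 : 2 ≤ finrank ℝ (p.W s)ᗮ
    swap
    · refine ⟨{s}, fun _ => 0, fun _ _ => ⟨rfl, ?_, fun h => absurd h h2⟩⟩
      rintro t rfl
      exact ⟨le_rfl, hiv.2.1⟩
    have hcost : Cost (Slow (wd (p.W s) (wrd v p.S)) N) ρ s (en B T s) < 1 := by
      rcases hwin _ _ hiv with h3 | h3
      · have := cost_merged _ hN h2 hρ0 (by linarith) (fun t h4 h5 => hnorm hiv h4 h5) h3
        linarith
      · have := cost_le_pow (S := Slow (wd (p.W s) (wrd v p.S)) N) hρ0.le hiv.2.1 h3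
        rw [pow_one] at this
        linarith
    obtain ⟨c, hc, hC⟩ := pieces_of_cost _ hN hρ0 (by linarith) hiv.2.1
      (fun t h4 h5 => hnorm hiv h4 h5) hcost
    obtain ⟨C, k, g1, g2, g3, g4⟩ := HasCost.cut hC
    exact ⟨C, k, fun _ _ => ⟨g1 hiv.2.1, g2, fun _ => ⟨g3, g4.le.trans hc⟩⟩⟩
  choose C k hC using hcut
  have hCs : ∀ s, s ∈ B → s < T → s ∈ C s := fun s h1 h2 => (hC s h1 h2).1
  set nw' := rf B T C with hnw'
  have h0' : 0 ∈ nw' := subset_rf _ _ _ h0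
  -- frames
  have hfr : ∀ s', ∃ (V : Submodule ℝ E) (R : ℕ → (E ≃ₗᵢ[ℝ] E)) (α : ℕ → ℝ),
      s' ∈ nw' → s' < T → 2 ≤ finrank ℝ (p.W s')ᗮ → V ≤ (p.W s')ᗮ ∧
      finrank ℝ V = k (st B s') s' ∧
      Piece (wd (p.W s') (wrd v p.S)) N (k (st B s') s') s' (en nw' T s') ∧
      (∀ t, ∀ x ∈ p.W s', R t x = x) ∧
      (∀ t, s' ≤ t → t < en nw' T s' → (R t).symm (wrd v p.S t) ∈ (p.W s' ⊔ V)ᗮ) ∧
      (∀ t, s' ≤ t → t + 1 < en nw' T s' →
        ∃ Q, PRF (p.W s')ᗮ V Q (α t) ∧ R (t + 1) = Q.trans (R t)) ∧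
      (∀ t, 0 ≤ α t) ∧
      ∑ t ∈ Finset.Ico s' (en nw' T s'), α t ≤ Real.pi * 3 ^ (k (st B s') s') * N / δ := by
    intro s'
    by_cases hs : s' ∈ nw' ∧ s' < T ∧ 2 ≤ finrank ℝ (p.W s')ᗮ
    swap
    · exact ⟨⊥, fun _ => LinearIsometryEquiv.refl ℝ E, fun _ => 0,
        fun h1 h2 h3 => absurd ⟨h1, h2, h3⟩ hs⟩
    obtain ⟨hs1, hs2, hs3⟩ := hs
    have hiv := iv_en hs1 hs2
    obtain ⟨s, e, h1, h2, h3, h4, h5, h6⟩ := iv_rf h0 hCs hiv
    have hsT : s < T := lt_of_lt_of_le h1.2.1 h1.2.2.1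
    have hlt := hiv.2.1
    have hW : p.W s' = p.W s := hWc h1 h4 (by omega)
    rw [h3] at h6
    have hpc := ((hC s h1.1 hsT).2.2 (by rw [← hW]; exact hs3)).1 _ _ h6
    rw [← hW, h2] at hpc
    obtain ⟨V, R, α, g1, g2, g3, g4, g5, g6, g7⟩ := piece_frame hδ hδ1 hlt
      (fun t h7 h8 => hv t (lt_of_lt_of_le h8 (en_le _ _ _)))
      (fun t h7 h8 => by
        have h9 := hp.perp t (lt_of_lt_of_le h8 (en_le _ _ _))
        rwa [hWc h1 (by omega) (by omega), ← hW] at h9) hpc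
    exact ⟨V, R, α, fun _ _ _ => ⟨g1, g2, hpc, g3, g4, g5, g6, g7⟩⟩
  choose V R α H using hfr
  -- definitions
  let σ : ℕ → ℕ := st nw'
  let c : ℕ → Prop := fun t => t < T ∧ 2 ≤ finrank ℝ (p.W t)ᗮ
  let P : ℕ → (E ≃ₗᵢ[ℝ] E) := fun t => if c t then R (σ t) t else LinearIsometryEquiv.refl ℝ E
  let W' : ℕ → Submodule ℝ E := fun t => if c t then p.W t ⊔ V (σ t) else p.W t
  let al : ℕ → ℝ := fun t => if c t then α (σ t) t else 0
  -- facts at a time `t < T`
  have hσ : ∀ t, t < T → σ t ∈ nw' ∧ σ t < T ∧ σ t ≤ t ∧ t < en nw' T (σ t) ∧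
      p.W (σ t) = p.W t := by
    intro t ht
    have h1 := iv_st h0' ht
    refine ⟨h1.1.1, (st_le t).trans_lt ht, h1.2.1, h1.2.2, ?_⟩
    exact (const_on hp.const (hB.trans (subset_rf _ _ _)) h1.1 h1.2.1 h1.2.2).symm
  have hH : ∀ t, c t → V (σ t) ≤ (p.W t)ᗮ ∧ (∀ t', ∀ x ∈ p.W t, R (σ t) t' x = x) ∧
      (R (σ t) t).symm (wrd v p.S t) ∈ (p.W t ⊔ V (σ t))ᗮ ∧ (∀ t', 0 ≤ α (σ t) t') := by
    intro t ht
    obtain ⟨h1, h2, h3, h4, h5⟩ := hσ t ht.1
    obtain ⟨g1, g2, g3, g4, g5, g6, g7, g8⟩ := H (σ t) h1 h2 (by rw [h5]; exact ht.2)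
    rw [h5] at g1 g4 g5
    exact ⟨g1, g4, g5 t h3 h4, g7⟩
  have hσs : ∀ t, t + 1 < T → t + 1 ∉ nw' → σ (t + 1) = σ t := by
    intro t ht hn
    have h1 := iv_st h0' (by omega : t < T)
    have h2 : t + 1 < en nw' T (st nw' t) := by
      by_contra hcon
      have h3 : en nw' T (st nw' t) = t + 1 := by omega
      rcases h1.1.2.2.2.1 with h4 | h4
      · rw [h3] at h4; exact hn h4
      · omega
    exact (h1.1.st_eq h0' (by omega) h2).1
  have hWs : ∀ t, t + 1 < T → t + 1 ∉ nw' → p.W (t + 1) = p.W t := fun t h1 h2 =>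
    hp.const t h1 fun h3 => h2 (subset_rf _ _ _ (hB h3))
  have hcs : ∀ t, t + 1 < T → t + 1 ∉ nw' → (c (t + 1) ↔ c t) := by
    intro t h1 h2
    simp only [c]
    rw [hWs t h1 h2]
    constructor
    · rintro ⟨_, h3⟩; exact ⟨by omega, h3⟩
    · rintro ⟨_, h3⟩; exact ⟨h1, h3⟩
  -- piece at an interval of `nw'`
  have hpiece : ∀ s e, 2 ≤ finrank ℝ (p.W s)ᗮ → Iv nw' T s e →
      σ s = s ∧ en nw' T s = e ∧ W' s = p.W s ⊔ V s ∧
      finrank ℝ (W' s) - finrank ℝ (p.W s) = k (st B s) s := by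
    intro s e h2 h
    have hsT : s < T := lt_of_lt_of_le h.2.1 h.2.2.1
    have h1 := h.st_eq h0' le_rfl h.2.1
    have hσs : σ s = s := h1.1
    have hW's : W' s = p.W s ⊔ V s := by
      simp only [W', c]
      rw [if_pos ⟨hsT, h2⟩, hσs]
    obtain ⟨g1, g2, -⟩ := H s h.1 hsT h2
    refine ⟨hσs, h1.2, hW's, ?_⟩
    rw [hW's, finrank_sup_sub g1, g2]
  refine ⟨P, al, ⟨fun t => (P t).trans (p.S t), W', nw'⟩, ⟨fun t => rfl, ?_, ?_, subset_rf _ _ _,
    ?_, ?_, ?_, ?_, ?_, ?_⟩, ⟨h0', ?_, ?_⟩⟩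
  · -- fix
    intro t x hx
    simp only [P]
    by_cases ht : c t
    · rw [if_pos ht]; exact (hH t ht).2.1 t x hx
    · rw [if_neg ht]; rfl
  · -- le
    intro t
    simp only [W']
    by_cases ht : c t
    · rw [if_pos ht]; exact le_sup_left
    · rw [if_neg ht]
  · -- nonneg
    intro t
    simp only [al]
    by_cases ht : c t
    · rw [if_pos ht]; exact (hH t ht).2.2.2 t
    · rw [if_neg ht]
  · -- piece
    intro s e h2 h
    have hsT : s < T := lt_of_lt_of_le h.2.1 h.2.2.1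
    obtain ⟨h3, h4, h5, h6⟩ := hpiece s e h2 h
    have h7 := (H s h.1 hsT h2).2.2.1
    rw [h4, ← h6] at h7
    exact h7
  · -- price
    intro s e h2 h
    have hsT : s < T := lt_of_lt_of_le h.2.1 h.2.2.1
    have h1 := h.st_eq h0 le_rfl h.2.1
    have h3 := ((hC s h.1 hsT).2.2 h2).2
    rw [h1.2] at h3
    refine le_trans (le_of_eq (Finset.sum_congr rfl fun a ha => ?_)) h3
    rw [Finset.mem_Ico] at ha
    have haT : a < T := lt_of_lt_of_le ha.2 h.2.2.1
    have hst : st B a = s := (h.st_eq h0 ha.1 ha.2).1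
    have hWa : p.W a = p.W s := hWc h ha.1 ha.2
    by_cases hmem : a ∈ nw'
    · have h4 := (mem_rf h0 hCs haT).1 hmem
      rw [hst] at h4
      rw [Set.indicator_of_mem h4]
      change nw'.indicator _ a = _
      rw [Set.indicator_of_mem hmem]
      have h5 := (hpiece a _ (by rw [hWa]; exact h2) (iv_en hmem haT)).2.2.2
      change ρ ^ (finrank ℝ (W' a) - finrank ℝ (p.W a)) = _
      rw [h5, hst]
    · change nw'.indicator _ a = _
      rw [Set.indicator_of_notMem hmem, Set.indicator_of_notMem]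
      intro h4
      exact hmem ((mem_rf h0 hCs haT).2 (by rw [hst]; exact h4))
  · -- leaf
    intro t ht
    have hc : ¬ c t := fun h => by have := h.2; omega
    simp only [W', P]
    rw [if_neg hc, if_neg hc]
    exact ⟨rfl, rfl⟩
  · -- step
    intro t ht hn
    by_cases hct : c t
    · obtain ⟨h1, h2, h3, h4, h5⟩ := hσ t (by omega)
      obtain ⟨g1, g2, g3, g4, g5, g6, g7, g8⟩ := H (σ t) h1 h2 (by rw [h5]; exact hct.2)
      have h6 : t + 1 < en nw' T (σ t) := by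
        have h7 := (hσ (t + 1) ht).2.2.2.1
        rwa [hσs t ht hn] at h7
      obtain ⟨Q, hQ, hQR⟩ := g6 t h3 h6
      refine ⟨Q, ?_, ?_⟩
      · simp only [W', al]
        rw [if_pos hct, if_pos hct, sup_inf_orthogonal' (hH t hct).1, ← h5]
        exact hQ
      · simp only [P]
        rw [if_pos ((hcs t ht hn).2 hct), if_pos hct, hσs t ht hn, hQR]
    · refine ⟨LinearIsometryEquiv.refl ℝ E, ?_, ?_⟩
      · simp only [al]
        rw [if_neg hct]; exact PRF.nil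
      · simp only [P]
        rw [if_neg fun h => hct ((hcs t ht hn).1 h), if_neg hct]
        ext x; rfl
  · -- angle
    intro s e h
    have hsT : s < T := lt_of_lt_of_le h.2.1 h.2.2.1
    by_cases h2 : 2 ≤ finrank ℝ (p.W s)ᗮ
    · obtain ⟨h3, h4, h5, h6⟩ := hpiece s e h2 h
      obtain ⟨g1, g2, g3, g4, g5, g6, g7, g8⟩ := H s h.1 hsT h2
      rw [h4, ← h6] at g8
      refine le_trans (le_of_eq (Finset.sum_congr rfl fun t ht => ?_)) g8
      rw [Finset.mem_Ico] at ht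
      have htT : t < T := lt_of_lt_of_le ht.2 h.2.2.1
      have hst : σ t = s := (h.st_eq h0' ht.1 ht.2).1
      have hc : c t := ⟨htT, by
        rw [const_on hp.const (hB.trans (subset_rf _ _ _)) h ht.1 ht.2]; exact h2⟩
      simp only [al]
      rw [if_pos hc, hst]
    · have h3 : ∑ t ∈ Finset.Ico s e, al t = 0 := by
        refine Finset.sum_eq_zero fun t ht => ?_
        rw [Finset.mem_Ico] at ht
        have hc : ¬ c t := by
          rintro ⟨_, h4⟩
          rw [const_on hp.const (hB.trans (subset_rf _ _ _)) h ht.1 ht.2] at h4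
          exact h2 h4
        simp only [al]
        rw [if_neg hc]
      rw [h3]
      have := Real.pi_pos
      positivity
  · -- const
    intro t ht hn
    change W' (t + 1) = W' t
    simp only [W']
    by_cases hct : c t
    · rw [if_pos ((hcs t ht hn).2 hct), if_pos hct, hWs t ht hn, hσs t ht hn]
    · rw [if_neg fun h => hct ((hcs t ht hn).1 h), if_neg hct, hWs t ht hn]
  · -- perp
    intro t ht
    change wrd v (fun t => (P t).trans (p.S t)) t ∈ (W' t)ᗮ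
    have e : wrd v (fun t => (P t).trans (p.S t)) t = (P t).symm (wrd v p.S t) := rfl
    rw [e]
    by_cases hct : c t
    · simp only [W', P]
      rw [if_pos hct, if_pos hct]
      exact (hH t hct).2.2.1
    · simp only [W', P]
      rw [if_neg hct, if_neg hct]
      exact hp.perp t ht

/-! ### the arrays -/

/-- **The time axis of milestone 2.**  Path `p : List ℕ` = reversed list of classes. -/
structure K2 (v : ℕ → E) (T : ℕ) (N : ℕ → ℝ) (δ ρ : ℝ) where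
  W : List ℕ → ℕ → Submodule ℝ E
  S : List ℕ → ℕ → (E ≃ₗᵢ[ℝ] E)
  P : List ℕ → ℕ → (E ≃ₗᵢ[ℝ] E)
  nw : List ℕ → Set ℕ
  B : List ℕ → ℕ → Set ℕ
  al : List ℕ → ℕ → ℝ
  W_nil : ∀ t, W [] t = ⊥
  S_nil : ∀ t, S [] t = LinearIsometryEquiv.refl ℝ E
  nw_nil : nw [] = {0}
  ok : ∀ p, (⟨S p, W p, nw p⟩ : Nd E).Ok v T
  win : ∀ p, IsWin v T N ⟨S p, W p, nw p⟩ (B p)
  child : ∀ c p, IsChild v T (N c) δ ρ ⟨S p, W p, nw p⟩ (B p c) (P (c :: p)) (al (c :: p))
    ⟨S (c :: p), W (c :: p), nw (c :: p)⟩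

/-- **Existence.** -/
theorem exists_K2 {v : ℕ → E} {T : ℕ} {N : ℕ → ℝ} {δ ρ : ℝ} (hδ : 0 < δ) (hδ1 : δ ≤ 1)
    (hv : ∀ t, t < T → ‖v t‖ = δ) (hρ0 : 0 < ρ) (hρ1 : ρ < 1 / 3) (hN : ∀ c, 0 ≤ N c)
    (hNδ : ∀ c, N c < δ) (hNa : ∀ c, N (c + 1) ≤ N c) : Nonempty (K2 v T N δ ρ) := by
  classical
  -- choices
  have hW : ∀ p : Nd E, ∃ B : ℕ → Set ℕ, p.Ok v T → IsWin v T N p B := by
    intro p
    by_cases hp : p.Ok v T
    · obtain ⟨B, hB⟩ := exists_win hNa hp
      exact ⟨B, fun _ => hB⟩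
    · exact ⟨fun _ => ∅, fun h => absurd h hp⟩
  choose Bw hBw using hW
  have hC : ∀ (c : ℕ) (p : Nd E), ∃ (P : ℕ → (E ≃ₗᵢ[ℝ] E)) (al : ℕ → ℝ) (q : Nd E), p.Ok v T →
      IsChild v T (N c) δ ρ p (Bw p c) P al q ∧ q.Ok v T := by
    intro c p
    by_cases hp : p.Ok v T
    · obtain ⟨P, al, q, h1, h2⟩ := exists_child hδ hδ1 hv hρ0 hρ1 (hN c) (hNδ c) hp
        ((hBw p hp).sub c) (fun s e h => by
          rcases (hBw p hp).win c s e h with h3 | h3
          · exact Or.inl h3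
          · exact Or.inr h3.2)
      exact ⟨P, al, q, fun _ => ⟨h1, h2⟩⟩
    · exact ⟨fun _ => LinearIsometryEquiv.refl ℝ E, fun _ => 0, p, fun h => absurd h hp⟩
  choose Pc alc qc hqc using hC
  let r0 : Nd E := ⟨fun _ => LinearIsometryEquiv.refl ℝ E, fun _ => ⊥, {0}⟩
  have hr0 : r0.Ok v T := ⟨rfl, fun _ _ _ => rfl, fun t _ => by
    change _ ∈ (⊥ : Submodule ℝ E)ᗮ
    rw [Submodule.bot_orthogonal_eq_top]; trivial⟩
  let nd : List ℕ → Nd E := fun p => List.rec r0 (fun c _ ih => qc c ih) p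
  have hnd : ∀ c p, nd (c :: p) = qc c (nd p) := fun _ _ => rfl
  have hok : ∀ p, (nd p).Ok v T := by
    intro p
    induction p with
    | nil => exact hr0
    | cons c p ih => exact (hqc c (nd p) ih).2
  exact ⟨{
    W := fun p => (nd p).W
    S := fun p => (nd p).S
    P := fun p => match p with
      | [] => fun _ => LinearIsometryEquiv.refl ℝ E
      | c :: p => Pc c (nd p)
    nw := fun p => (nd p).nw
    B := fun p => Bw (nd p)
    al := fun p => match p with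
      | [] => fun _ => 0
      | c :: p => alc c (nd p)
    W_nil := fun _ => rfl
    S_nil := fun _ => rfl
    nw_nil := rfl
    ok := hok
    win := fun p => hBw (nd p) (hok p)
    child := fun c p => (hqc c (nd p) (hok p)).1 }⟩

end Vale.Agent.P262.H118
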