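import Vale.Agent.P262.H118.K2

/-!
# P262, milestone 2: basic facts about the time axis `K2`
-/

namespace Vale.Agent.P262.H118

open RealInnerProductSpace Module Vale.Agent.P262.H274

variable {E : Type*} [NormedAddCommGroup E] [InnerProductSpace ℝ E] [FiniteDimensional ℝ E]
  {v : ℕ → E} {T : ℕ} {N : ℕ → ℝ} {δ ρ : ℝ}

namespace K2

variable (K : K2 v T N δ ρ)

lemma zero_mem_nw (p : List ℕ) : 0 ∈ K.nw p := (K.ok p).zero

lemma nw_sub_B (p : List ℕ) (c : ℕ) : K.nw p ⊆ K.B p c := (K.win p).sub c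

lemma zero_mem_B (p : List ℕ) (c : ℕ) : 0 ∈ K.B p c := K.nw_sub_B p c (K.zero_mem_nw p)

lemma B_mono (p : List ℕ) : Monotone (K.B p) := monotone_nat_of_le_succ (K.win p).mono

lemma B_sub_nw (p : List ℕ) (c : ℕ) : K.B p c ⊆ K.nw (c :: p) := (K.child c p).sub

lemma nw_sub_nw (p : List ℕ) (c : ℕ) : K.nw p ⊆ K.nw (c :: p) :=
  (K.nw_sub_B p c).trans (K.B_sub_nw p c)

/-- lives of descendants. -/
lemma nw_sub_append (p r : List ℕ) : K.nw p ⊆ K.nw (r ++ p) := by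
  induction r with
  | nil => exact subset_rfl
  | cons c r ih => exact ih.trans (K.nw_sub_nw (r ++ p) c)

lemma nw_mono {p q : List ℕ} (h : p <:+ q) : K.nw p ⊆ K.nw q := by
  obtain ⟨r, rfl⟩ := h
  exact K.nw_sub_append p r

lemma S_cons (c : ℕ) (p : List ℕ) (t : ℕ) : K.S (c :: p) t = (K.P (c :: p) t).trans (K.S p t) :=
  (K.child c p).S t

lemma P_fix (c : ℕ) (p : List ℕ) (t : ℕ) {x : E} (hx : x ∈ K.W p t) : K.P (c :: p) t x = x :=
  (K.child c p).fix t x hx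

lemma W_le (c : ℕ) (p : List ℕ) (t : ℕ) : K.W p t ≤ K.W (c :: p) t := (K.child c p).le t

lemma W_mono {p q : List ℕ} (h : p <:+ q) (t : ℕ) : K.W p t ≤ K.W q t := by
  obtain ⟨r, rfl⟩ := h
  induction r with
  | nil => exact le_rfl
  | cons c r ih => exact ih.trans (K.W_le c (r ++ p) t)

lemma perp (p : List ℕ) {t : ℕ} (ht : t < T) : wrd v (K.S p) t ∈ (K.W p t)ᗮ := (K.ok p).perp t ht

lemma W_succ (p : List ℕ) {t : ℕ} (ht : t + 1 < T) (h : t + 1 ∉ K.nw p) :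
    K.W p (t + 1) = K.W p t := (K.ok p).const t ht h

/-- label spaces are constant on the intervals of any partition finer than the lives. -/
lemma W_const {p : List ℕ} {B : Set ℕ} (hB : K.nw p ⊆ B) {s e : ℕ} (h : Iv B T s e) {t : ℕ}
    (h1 : s ≤ t) (h2 : t < e) : K.W p t = K.W p s := const_on (K.ok p).const hB h h1 h2

lemma W_const_life {p : List ℕ} {s e : ℕ} (h : Iv (K.nw p) T s e) {t : ℕ} (h1 : s ≤ t)
    (h2 : t < e) : K.W p t = K.W p s := K.W_const subset_rfl h h1 h2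

/-- slowness of the word of a path, seen in the fibre at time `s`. -/
def Sw (p : List ℕ) (s : ℕ) (N : ℝ) : ℕ → ℕ → ℕ → Prop := Slow (wd (K.W p s) (wrd v (K.S p))) N

/-- a window is complete (merged block, not slow) or it is the whole life, and slow. -/
theorem window {p : List ℕ} {c s e : ℕ} (h : Iv (K.B p c) T s e) :
    Mg (K.Sw p s (N c) 1) s e ∨ (Iv (K.nw p) T s e ∧ K.Sw p s (N c) 1 s e) := (K.win p).win c s e h

theorem piece {p : List ℕ} {c s e : ℕ} (h2 : 2 ≤ finrank ℝ (K.W p s)ᗮ)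
    (h : Iv (K.nw (c :: p)) T s e) :
    Piece (wd (K.W p s) (wrd v (K.S p))) (N c)
      (finrank ℝ (K.W (c :: p) s) - finrank ℝ (K.W p s)) s e := (K.child c p).piece s e h2 h

theorem price {p : List ℕ} {c s e : ℕ} (h2 : 2 ≤ finrank ℝ (K.W p s)ᗮ) (h : Iv (K.B p c) T s e) :
    ∑ a ∈ Finset.Ico s e, (K.nw (c :: p)).indicator
      (fun a => ρ ^ (finrank ℝ (K.W (c :: p) a) - finrank ℝ (K.W p a))) a
      ≤ Cost (K.Sw p s (N c)) ρ s e := (K.child c p).price s e h2 h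

theorem leaf {p : List ℕ} {t : ℕ} (h : finrank ℝ (K.W p t)ᗮ ≤ 1) (c : ℕ) :
    K.W (c :: p) t = K.W p t ∧ K.P (c :: p) t = LinearIsometryEquiv.refl ℝ E :=
  (K.child c p).leaf t h

theorem step {p : List ℕ} {c t : ℕ} (ht : t + 1 < T) (h : t + 1 ∉ K.nw (c :: p)) :
    ∃ Q, PRF (K.W p t)ᗮ (K.W (c :: p) t ⊓ (K.W p t)ᗮ) Q (K.al (c :: p) t) ∧
      K.P (c :: p) (t + 1) = Q.trans (K.P (c :: p) t) := (K.child c p).step t ht h

theorem angle {p : List ℕ} {c s e : ℕ} (h : Iv (K.nw (c :: p)) T s e) :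
    ∑ t ∈ Finset.Ico s e, K.al (c :: p) t ≤
      Real.pi * 3 ^ (finrank ℝ (K.W (c :: p) s) - finrank ℝ (K.W p s)) * N c / δ :=
  (K.child c p).angle s e h

lemma al_nonneg (c : ℕ) (p : List ℕ) (t : ℕ) : 0 ≤ K.al (c :: p) t := (K.child c p).nonneg t

/-! ### dimensions -/

lemma dim_perp (p : List ℕ) (t : ℕ) :
    finrank ℝ (K.W p t) + finrank ℝ (K.W p t)ᗮ = finrank ℝ E :=
  (K.W p t).finrank_add_finrank_orthogonal

/-- fibres are never trivial. -/
lemma one_le_perp (hδ : 0 < δ) (hv : ∀ t, t < T → ‖v t‖ = δ) (p : List ℕ) {t : ℕ} (ht : t < T) :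
    1 ≤ finrank ℝ (K.W p t)ᗮ := by
  have h1 := K.perp p ht
  have h2 : wrd v (K.S p) t ≠ 0 := by
    intro h
    have := norm_wrd (v := v) (S := K.S p) t
    rw [h, norm_zero, hv t ht] at this
    exact hδ.ne this
  by_contra hcon
  have h3 : finrank ℝ (K.W p t)ᗮ = 0 := by omega
  rw [Submodule.finrank_eq_zero] at h3
  rw [h3, Submodule.mem_bot] at h1
  exact h2 h1

/-- the own dimension of a child: between `1` and `dim (fibre) - 1`. -/
theorem dim_child {p : List ℕ} {c t : ℕ} (ht : t < T) (h2 : 2 ≤ finrank ℝ (K.W p t)ᗮ) :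
    finrank ℝ (K.W p t) + 1 ≤ finrank ℝ (K.W (c :: p) t) ∧
      finrank ℝ (K.W (c :: p) t) - finrank ℝ (K.W p t) < finrank ℝ (K.W p t)ᗮ := by
  have h3 := iv_st (K.zero_mem_nw (c :: p)) ht
  have e1 := K.W_const (K.nw_sub_nw p c) h3.1 h3.2.1 h3.2.2
  have e2 := K.W_const_life h3.1 h3.2.1 h3.2.2
  rw [e1] at h2
  obtain ⟨g1, g2, -⟩ := K.piece h2 h3.1
  rw [← e1, ← e2] at g1 g2
  exact ⟨by omega, g2⟩

/-- depth of a path which is not a leaf. -/
theorem length_le {p : List ℕ} {t : ℕ} (ht : t < T) (h2 : 2 ≤ finrank ℝ (K.W p t)ᗮ) :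
    p.length ≤ finrank ℝ (K.W p t) := by
  induction p with
  | nil => exact Nat.zero_le _
  | cons c p ih =>
    have h3 : 2 ≤ finrank ℝ (K.W p t)ᗮ := by
      by_contra hcon
      have := (K.leaf (p := p) (t := t) (by omega) c).1
      rw [this] at h2
      exact hcon h2
    have h4 := ih h3
    have h5 := (K.dim_child (c := c) ht h3).1
    rw [List.length_cons]
    omega

/-- long paths are leaves. -/
theorem leaf_of_length {p : List ℕ} {t : ℕ} (ht : t < T) (h : finrank ℝ E ≤ p.length + 1) :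
    finrank ℝ (K.W p t)ᗮ ≤ 1 := by
  by_contra hcon
  have h1 := K.length_le (p := p) ht (by omega)
  have h2 := K.dim_perp p t
  omega

/-! ### prices of the windows -/

theorem cost_window (hv : ∀ t, t < T → ‖v t‖ = δ) (hρ0 : 0 < ρ) (hρ1 : ρ < 1 / 2)
    {p : List ℕ} {c s e : ℕ} (hN : 0 ≤ N c) (hNδ : N c < δ) (h2 : 2 ≤ finrank ℝ (K.W p s)ᗮ)
    (h : Iv (K.B p c) T s e) :
    (Mg (K.Sw p s (N c) 1) s e ∧ Cost (K.Sw p s (N c)) ρ s e ≤ 3 * ρ) ∨
      (Iv (K.nw p) T s e ∧ K.Sw p s (N c) 1 s e ∧ Cost (K.Sw p s (N c)) ρ s e ≤ ρ) := by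
  have hnorm : ∀ t, s ≤ t → t < e → N c < ‖wd (K.W p s) (wrd v (K.S p)) t‖ := by
    intro t h3 h4
    have ht : t < T := lt_of_lt_of_le h4 h.2.2.1
    have h5 := K.perp p ht
    rw [K.W_const (K.nw_sub_B p c) h h3 h4] at h5
    rw [norm_wd h5, norm_wrd, hv t ht]
    exact hNδ
  rcases K.window h with h3 | ⟨h3, h4⟩
  · exact Or.inl ⟨h3, cost_merged _ hN h2 hρ0 hρ1 hnorm h3⟩
  · refine Or.inr ⟨h3, h4, ?_⟩
    have := cost_le_pow (S := K.Sw p s (N c)) hρ0.le h.2.1 h4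
    rwa [pow_one] at this

/-- at a leaf the windows are single steps. -/
theorem leaf_window (hv : ∀ t, t < T → ‖v t‖ = δ) {p : List ℕ} {c s e : ℕ} (hNδ : N c < δ)
    (h1 : finrank ℝ (K.W p s)ᗮ ≤ 1) (h : Iv (K.B p c) T s e) : e = s + 1 := by
  have hns : ∀ a b, s ≤ a → a < b → b ≤ e → ¬ K.Sw p s (N c) 1 a b := by
    rintro a b g1 g2 g3 ⟨j, hj, hS⟩
    have ha : a < T := by have := h.2.2.1; omega
    refine not_slowEx_finrank g2 ?_ (h1.trans hj) hS
    have h5 := K.perp p ha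
    rw [K.W_const (K.nw_sub_B p c) h g1 (by omega)] at h5
    rw [norm_wd h5, norm_wrd, hv a ha]
    exact hNδ
  have hse := h.2.1
  rcases K.window h with ⟨-, m, h2, h3, h4, h5⟩ | ⟨-, h3⟩
  · have hm : m = s + 1 := by
      by_contra hcon
      exact hns s (m - 1) le_rfl (by omega) (by omega) (h4.2 (by omega))
    by_contra hcon
    exact hns m e (by omega) (by omega) le_rfl (h5 (by omega))
  · exact absurd h3 (hns s e le_rfl hse le_rfl)

end K2

end Vale.Agent.P262.H118
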