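import Vale.Agent.P262.M2.Cls

/-!
# P262, milestone 2, THR: transport of sets between the coordinates of the nodes, layers

`tr q r m` maps the coordinates of the node `r` to the coordinates of its ancestor `q` (state `m`).
It fixes the label space of `q` pointwise.  A set `A` given in the coordinates of `q` becomes
`tr q r m ⁻¹' A` in the coordinates of `r`; its masses `mu q A r` are a martingale along the paths.
-/

set_option linter.all false

open MeasureTheory ProbabilityTheory Set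
open scoped ENNReal RealInnerProductSpace
open Vale.Agent.P262.H118 (Iv st en ON rotE tau wd wrd Mg Piece K2 El2 paths Cl cl_paths mem_paths
  iv_st Fix2 Mono2 Up)
open Vale.Agent.P262.H395 (fib mix Inv inv_fib measurable_fib fib_mono Fixes fib_fixes fib_tower)
open Vale.Agent.P262.H44 (InvS)

namespace Vale.Agent.P262.H118

variable {E : Type*} [NormedAddCommGroup E] [InnerProductSpace ℝ E] [FiniteDimensional ℝ E]
  [MeasurableSpace E] [BorelSpace E]

omit [MeasurableSpace E] [BorelSpace E] in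
/-- translations along label directions -/
lemma mix_add_left {W : Submodule ℝ E} {w : E} (hw : w ∈ W) (x z : E) :
    mix W (x + w) z = mix W x z + w := by
  unfold mix
  rw [map_add, Submodule.starProjection_eq_self_iff.mpr hw]
  abel

/-- translating the label by `w ∈ W` -/
lemma fib_add_label {W : Submodule ℝ E} {w : E} (hw : w ∈ W) (f : E → ℝ≥0∞) (x : E) :
    fib W f (x + w) = fib W (fun y => f (y + w)) x := by
  unfold fib
  refine lintegral_congr fun z => ?_
  rw [mix_add_left hw]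

end Vale.Agent.P262.H118

namespace Vale.Agent.P262.M2.Sys

open Vale.Agent.P262.H118 (fib_add_label)

variable {E : Type*} [NormedAddCommGroup E] [InnerProductSpace ℝ E] [FiniteDimensional ℝ E]
  [MeasurableSpace E] [BorelSpace E] (S : Sys E)

/-! ### the transport -/

/-- coordinates of `r` → coordinates of `q`, at the state `m` -/
noncomputable def tr (q r : List ℕ) (m : ℕ) : E ≃ₗᵢ[ℝ] E := (S.mv.U r m).trans (S.mv.U q m).symm

lemma tr_apply (q r : List ℕ) (m : ℕ) (x : E) :
    S.tr q r m x = (S.mv.U q m).symm (S.mv.U r m x) := rfl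

lemma U_tr (q r : List ℕ) (m : ℕ) (x : E) : S.mv.U q m (S.tr q r m x) = S.mv.U r m x := by
  rw [tr_apply, LinearIsometryEquiv.apply_symm_apply]

lemma tr_self (q : List ℕ) (m : ℕ) (x : E) : S.tr q q m x = x := by
  rw [tr_apply, LinearIsometryEquiv.symm_apply_apply]

lemma tr_tr (q s r : List ℕ) (m : ℕ) (x : E) : S.tr q s m (S.tr s r m x) = S.tr q r m x := by
  rw [tr_apply, U_tr, ← tr_apply]

lemma tr_cons (q : List ℕ) (c : ℕ) (r : List ℕ) (m : ℕ) (x : E) :
    S.tr q (c :: r) m x = S.tr q r m (S.mv.Q m (c :: r) x) := by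
  rw [tr_apply, tr_apply, El2.U_cons, LinearIsometryEquiv.trans_apply]

/-- the transport to an ancestor fixes its label space pointwise -/
theorem tr_fixes {q r : List ℕ} (h : q <:+ r) (m : ℕ) : Fixes (S.tr q r m) (S.W q m) := by
  obtain ⟨C, hC, hU⟩ := S.mv.exists_change m h
  intro w hw
  rw [tr_apply, hU, LinearIsometryEquiv.trans_apply, LinearIsometryEquiv.symm_apply_apply]
  exact hC w hw

lemma tr_add {q r : List ℕ} (h : q <:+ r) (m : ℕ) {w : E} (hw : w ∈ S.W q m) (x : E) :
    S.tr q r m (x + w) = S.tr q r m x + w := by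
  rw [map_add, S.tr_fixes h m w hw]

/-- the body -/
lemma mem_X_tr (q r : List ℕ) (m : ℕ) (x : E) : x ∈ S.X r m ↔ S.tr q r m x ∈ S.X q m := by
  unfold X
  rw [El2.mem_Bd, El2.mem_Bd, U_tr]

/-- the state after a rotation at `jj m`: the same transport -/
theorem U_succ_tr {m : ℕ} (h : S.mv.IsRot m) {q r : List ℕ} (hq : S.mv.jj m <:+ q)
    (hqr : q <:+ r) (x : E) :
    (S.mv.U q (m + 1)).symm (S.mv.U r (m + 1) x) = S.tr q r m x := by
  obtain ⟨C, hC, hU, hU'⟩ := S.mv.exists_change2 (m := m) hqr fun s hs1 hs2 hs3 => by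
    refine ((S.mv.rot _ m h.1 h.2).1.of_ne fun h0 => hs3 ?_).symm
    subst h0
    exact hs2.eq_of_length (le_antisymm hs2.length_le hq.length_le) |>.symm
  rw [tr_apply, hU, hU', LinearIsometryEquiv.trans_apply, LinearIsometryEquiv.trans_apply,
    LinearIsometryEquiv.symm_apply_apply, LinearIsometryEquiv.symm_apply_apply]

lemma Kb_succ_rot {m : ℕ} (h : S.mv.IsRot m) : S.mv.Kb S.Kt (m + 1) = S.mv.Kb S.Kt m := by
  rw [S.mv.Kb_after S.Kt (t := S.mv.tm m) (by have := h.1; omega) h.2,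
    S.mv.Kb_after S.Kt (t := S.mv.tm m) h.1 (by have := h.2; omega)]

/-- the body after a rotation at `jj m` -/
theorem mem_X_succ_tr {m : ℕ} (h : S.mv.IsRot m) {q r : List ℕ} (hq : S.mv.jj m <:+ q)
    (hqr : q <:+ r) (x : E) : x ∈ S.X r (m + 1) ↔ S.tr q r m x ∈ S.X q (m + 1) := by
  unfold X
  rw [El2.mem_Bd, El2.mem_Bd, ← S.U_succ_tr h hq hqr, LinearIsometryEquiv.apply_symm_apply]

/-! ### masses of transported sets -/

/-- mass at the labels of `r` of a set given in the coordinates of `q` -/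
noncomputable def mu (q : List ℕ) (A : Set E) (r : List ℕ) (m : ℕ) (x : E) : ℝ≥0∞ :=
  fib (S.W r m) ((S.tr q r m ⁻¹' A).indicator 1) x

section mu

variable {S} {q r : List ℕ} {m : ℕ} {A B : Set E}

lemma measurableSet_tr (hA : MeasurableSet A) : MeasurableSet (S.tr q r m ⁻¹' A) :=
  (S.tr q r m).continuous.measurable hA

lemma mu_meas (hA : MeasurableSet A) : Measurable (S.mu q A r m) :=
  measurable_fib (measurable_one.indicator (measurableSet_tr hA))

lemma mu_inv : Inv (S.W r m) (S.mu q A r m) := inv_fib _ _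

lemma mu_le_one (x : E) : S.mu q A r m x ≤ 1 :=
  H395.fib_le_one (fun y => indicator_le_one' _ y) x

lemma mu_mono (h : A ⊆ B) (x : E) : S.mu q A r m x ≤ S.mu q B r m x :=
  fib_mono (fun y => ind_le_ind (preimage_mono h) y) x

lemma mu_self (x : E) : S.mu q A q m x = fib (S.W q m) (A.indicator 1) x := by
  unfold mu
  congr 2
  ext y
  rw [mem_preimage, tr_self]

lemma mu_union (hA : MeasurableSet A) (hAB : Disjoint A B) (x : E) :
    S.mu q (A ∪ B) r m x = S.mu q A r m x + S.mu q B r m x := by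
  unfold mu
  rw [← H395.fib_add (measurable_one.indicator (measurableSet_tr hA))]
  congr 1
  funext y
  rw [preimage_union, indicator_union_of_disjoint (hAB.preimage _)]

lemma mu_union_le (hA : MeasurableSet A) (x : E) :
    S.mu q (A ∪ B) r m x ≤ S.mu q A r m x + S.mu q B r m x := by
  unfold mu
  rw [← H395.fib_add (measurable_one.indicator (measurableSet_tr hA))]
  refine fib_mono (fun y => ?_) x
  by_cases h : y ∈ S.tr q r m ⁻¹' A
  · rw [indicator_of_mem h]; exact (indicator_le_one' _ y).trans le_self_add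
  · refine le_trans ?_ le_add_self
    by_cases h' : y ∈ S.tr q r m ⁻¹' B
    · rw [indicator_of_mem h']; exact indicator_le_one' _ y
    · rw [indicator_of_notMem]
      · exact zero_le
      · rintro (h1 | h1)
        exacts [h h1, h' h1]

/-- **the masses are a martingale along the paths** -/
theorem mu_tower (hqr : q <:+ r) (hA : MeasurableSet A) (c : ℕ) (x : E) :
    fib (S.W r m) (S.mu q A (c :: r) m) x = S.mu q A r m x := by
  unfold mu
  rw [fib_tower (S.W_le c r m) (measurable_one.indicator (measurableSet_tr hA))]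
  have hf : Fixes (S.mv.Q m (c :: r)) (S.W r m) := fun w hw => S.mv.fix m c r w hw
  rw [← fib_fixes hf (measurable_one.indicator (measurableSet_tr (q := q) (r := r) hA)) x]
  rfl

/-- **shift along a label direction of the base node** -/
theorem mu_shift (hqr : q <:+ r) {w : E} (hw : w ∈ S.W q m) (h : ∀ y ∈ A, y + w ∈ B) (x : E) :
    S.mu q A r m x ≤ S.mu q B r m (x + w) := by
  unfold mu
  rw [fib_add_label (S.W_mono hqr m hw)]
  refine fib_mono (fun y => ?_) x
  by_cases hy : y ∈ S.tr q r m ⁻¹' A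
  · have : y + w ∈ S.tr q r m ⁻¹' B := by
      rw [mem_preimage, S.tr_add hqr m hw]
      exact h _ hy
    rw [indicator_of_mem this]
    exact indicator_le_one' _ y
  · rw [indicator_of_notMem hy]; exact zero_le

/-- the masses of the body, of its complement and of their changes at a rotation -/
lemma mu_X_compl (x : E) : S.mu q (S.X q m)ᶜ r m x = S.De r m x := by
  unfold mu De
  congr 2
  ext y
  rw [mem_preimage, mem_compl_iff, mem_compl_iff, S.mem_X_tr q r m y]

lemma mu_Dc (h : S.mv.IsRot m) (hq : S.mv.jj m <:+ q) (hqr : q <:+ r) (x : E) :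
    S.mu q (S.X q m ∩ S.X q (m + 1))ᶜ r m x = S.Dc r m x := by
  rw [S.Dc_active (Or.inr h)]
  unfold mu
  congr 2
  ext y
  rw [mem_preimage, mem_compl_iff, mem_compl_iff, mem_inter_iff, mem_inter_iff,
    S.mem_X_tr q r m y, S.mem_X_succ_tr h hq hqr y]

lemma mu_Dl (h : S.mv.IsRot m) (hq : S.mv.jj m <:+ q) (hqr : q <:+ r) (x : E) :
    S.mu q (symmDiff (S.X q m) (S.X q (m + 1))) r m x = S.Dl r m x := by
  rw [S.Dl_active (Or.inr h)]
  unfold mu
  congr 2
  ext y
  rw [mem_preimage, Set.mem_symmDiff, Set.mem_symmDiff,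
    S.mem_X_tr q r m y, S.mem_X_succ_tr h hq hqr y]

end mu

/-! ### the parent of the rotating node -/

/-- at the parent of the rotating node the common deficit of the two states is at most twice the
deficit -/
theorem fib_parent_le {m : ℕ} (h : S.mv.IsRot m) {p : List ℕ} {c : ℕ} (hp : S.mv.jj m = c :: p)
    (x : E) : fib (S.W p m) ((S.X (c :: p) m ∩ S.X (c :: p) (m + 1))ᶜ.indicator 1) x
      ≤ 2 * S.De p m x := by
  have h1 : fib (S.W p m) ((S.X (c :: p) m)ᶜ.indicator 1) x = S.De p m x :=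
    S.mv.fib_Bd_compl (fun t => S.measurableSet_Kt t) m (List.suffix_cons c p) x
  have h2 : fib (S.W p m) ((S.X (c :: p) (m + 1))ᶜ.indicator 1) x = S.De p m x := by
    have e := S.mv.fib_Bd_compl (fun t => S.measurableSet_Kt t) (m + 1) (List.suffix_cons c p) x
    have hW : S.K.W p (S.mv.tm (m + 1)) = S.W p m := S.W_succ_active (Or.inr h) p
    rw [hW] at e
    have hX : S.X p (m + 1) = S.X p m := by
      refine S.X_rot_not h fun h0 => ?_
      have := h0.length_le
      rw [hp] at this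
      simp at this
    unfold De
    rw [← hX]
    exact e
  calc _ ≤ fib (S.W p m) (fun y => (S.X (c :: p) m)ᶜ.indicator 1 y
        + (S.X (c :: p) (m + 1))ᶜ.indicator 1 y) x := by
        refine fib_mono (fun y => ?_) x
        by_cases h3 : y ∈ S.X (c :: p) m
        · by_cases h4 : y ∈ S.X (c :: p) (m + 1)
          · rw [indicator_of_notMem (by simp [h3, h4])]; exact zero_le
          · rw [indicator_of_mem (show y ∈ (S.X (c :: p) (m + 1))ᶜ from h4)]
            exact (indicator_le_one' _ y).trans le_add_self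
        · rw [indicator_of_mem (show y ∈ (S.X (c :: p) m)ᶜ from h3)]
          exact (indicator_le_one' _ y).trans le_self_add
    _ = 2 * S.De p m x := by
        rw [H395.fib_add (measurable_one.indicator (S.measurableSet_X _ m).compl), h1, h2, two_mul]

end Vale.Agent.P262.M2.Sys

/-! ### layers -/

namespace Vale.Agent.P262.H118

variable {E : Type*} [NormedAddCommGroup E] [InnerProductSpace ℝ E] [FiniteDimensional ℝ E]
  [MeasurableSpace E] [BorelSpace E]

/-- points of the layer from which the ray in direction `e` does not meet `K` -/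
def ly0 (K L : Set E) (e : E) : Set E := {y | y ∈ L ∧ ∀ t : ℝ, 0 ≤ t → y + t • e ∉ K}

/-- points of the layer in `K \ K1` which leave `K` in one step -/
def lyd (K K1 L : Set E) (e : E) (h : ℝ) : Set E := {y | y ∈ L ∧ y ∈ K ∧ y ∉ K1 ∧ y + h • e ∉ K}

def ly1 (K K1 L : Set E) (e : E) (h : ℝ) : Set E := ly0 K L e ∪ lyd K K1 L e h

omit [FiniteDimensional ℝ E] in
lemma measurableSet_ly0 {K L : Set E} (hK : IsCompact K) (hL : MeasurableSet L) (e : E) :
    MeasurableSet (ly0 K L e) := by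
  have h1 : ly0 K L e = L ∩ (⋃ n : ℕ, (fun p : E × ℝ => p.1 - p.2 • e) ''
      (K ×ˢ Icc (0 : ℝ) n))ᶜ := by
    ext y
    simp only [ly0, mem_setOf_eq, mem_inter_iff, mem_compl_iff, mem_iUnion, mem_image, mem_prod,
      mem_Icc, Prod.exists, not_exists, not_and]
    refine and_congr_right fun _ => ⟨fun h n a t ht hy => ?_, fun h t ht hy => ?_⟩
    · subst hy
      have := h t ht.2.1
      rw [sub_add_cancel] at this
      exact this ht.1
    · obtain ⟨n, hn⟩ := exists_nat_ge t
      exact h n (y + t • e) t ⟨hy, ht, hn⟩ (by rw [add_sub_cancel_right])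
  rw [h1]
  refine hL.inter (MeasurableSet.compl (MeasurableSet.iUnion fun n => ?_))
  refine ((hK.prod isCompact_Icc).image ?_).measurableSet
  fun_prop

omit [FiniteDimensional ℝ E] in
lemma measurableSet_lyd {K K1 L : Set E} (hK : MeasurableSet K) (hK1 : MeasurableSet K1)
    (hL : MeasurableSet L) (e : E) (h : ℝ) : MeasurableSet (lyd K K1 L e h) := by
  have h1 : lyd K K1 L e h = L ∩ (K ∩ (K1ᶜ ∩ (fun y => y + h • e) ⁻¹' Kᶜ)) := by
    ext y
    simp only [lyd, mem_setOf_eq, mem_inter_iff, mem_compl_iff, mem_preimage]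
  rw [h1]
  exact hL.inter (hK.inter (hK1.compl.inter ((measurable_id.add_const _) hK.compl)))

omit [FiniteDimensional ℝ E] in
lemma measurableSet_ly1 {K K1 L : Set E} (hK : IsCompact K) (hK1 : MeasurableSet K1)
    (hL : MeasurableSet L) (e : E) (h : ℝ) : MeasurableSet (ly1 K K1 L e h) :=
  (measurableSet_ly0 hK hL e).union (measurableSet_lyd hK.measurableSet hK1 hL e h)

omit [FiniteDimensional ℝ E] [MeasurableSpace E] [BorelSpace E]

lemma ly0_subset_ly1 {K K1 L : Set E} {e : E} {h : ℝ} : ly0 K L e ⊆ ly1 K K1 L e h :=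
  subset_union_left

lemma disjoint_ly {K K1 L : Set E} {e : E} {h : ℝ} : Disjoint (ly0 K L e) (lyd K K1 L e h) := by
  rw [Set.disjoint_left]
  intro y h1 h2
  have := h1.2 0 le_rfl
  rw [zero_smul, add_zero] at this
  exact this h2.2.1

/-- forward invariance -/
lemma ly0_add {K L : Set E} {e : E} (hL : ∀ y ∈ L, ∀ t : ℝ, y + t • e ∈ L) {y : E}
    (hy : y ∈ ly0 K L e) {a : ℝ} (ha : 0 ≤ a) : y + a • e ∈ ly0 K L e := by
  refine ⟨hL y hy.1 a, fun t ht => ?_⟩
  rw [add_assoc, ← add_smul]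
  exact hy.2 (a + t) (by positivity)

/-- one step -/
lemma ly1_add {K K1 L : Set E} (hK : Convex ℝ K) {e : E} {h : ℝ} (hh : 0 ≤ h)
    (hL : ∀ y ∈ L, ∀ t : ℝ, y + t • e ∈ L) {y : E} (hy : y ∈ ly1 K K1 L e h) :
    y + h • e ∈ ly0 K L e := by
  rcases hy with hy | ⟨h1, h2, -, h4⟩
  · exact ly0_add hL hy hh
  · refine ⟨hL y h1 h, fun t ht hcon => h4 ?_⟩
    rw [add_assoc, ← add_smul] at hcon
    rcases hh.eq_or_lt with rfl | hpos
    · rw [zero_smul, add_zero]; exact h2
    · have hs : 0 < h + t := by positivity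
      have := hK h2 hcon (a := 1 - h / (h + t)) (b := h / (h + t))
        (by rw [sub_nonneg, div_le_one hs]; linarith) (by positivity) (by ring)
      convert this using 1
      rw [smul_add, smul_smul, ← add_assoc, ← add_smul, sub_add_cancel, one_smul,
        div_mul_cancel₀ _ hs.ne']

lemma ly1_subset {K K1 L : Set E} {e : E} {h : ℝ} : ly1 K K1 L e h ⊆ (K ∩ K1)ᶜ := by
  rintro y (hy | hy) hcon
  · have := hy.2 0 le_rfl
    rw [zero_smul, add_zero] at this
    exact this hcon.1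
  · exact hy.2.2.1 hcon.2

end Vale.Agent.P262.H118

namespace Vale.Agent.P262.M2.Sys

open Vale.Agent.P262.H118 (ly0 lyd ly1 ly0_subset_ly1 disjoint_ly ly0_add ly1_add ly1_subset
  measurableSet_ly0 measurableSet_lyd measurableSet_ly1)

variable {E : Type*} [NormedAddCommGroup E] [InnerProductSpace ℝ E] [FiniteDimensional ℝ E]
  [MeasurableSpace E] [BorelSpace E] {S : Sys E} {q r : List ℕ} {m : ℕ} {K K1 L : Set E} {e : E}
  {h : ℝ}

/-- the transported layer is invariant along `e` -/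
lemma tr_layer (hqr : q <:+ r) (he : e ∈ S.W q m) (hL : ∀ y ∈ L, ∀ t : ℝ, y + t • e ∈ L) :
    ∀ y ∈ S.tr q r m ⁻¹' L, ∀ t : ℝ, y + t • e ∈ S.tr q r m ⁻¹' L := by
  intro y hy t
  rw [mem_preimage, S.tr_add hqr m ((S.W q m).smul_mem t he)]
  exact hL _ hy t

lemma tr_ly0 (hqr : q <:+ r) (he : e ∈ S.W q m) :
    S.tr q r m ⁻¹' ly0 (S.X q m) L e = ly0 (S.X r m) (S.tr q r m ⁻¹' L) e := by
  ext y
  simp only [ly0, mem_preimage, mem_setOf_eq]
  refine and_congr_right fun _ => forall_congr' fun t => imp_congr_right fun _ => ?_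
  rw [S.mem_X_tr q r m, S.tr_add hqr m ((S.W q m).smul_mem t he)]

lemma tr_ly0' (hm : S.mv.IsRot m) (hq : S.mv.jj m <:+ q) (hqr : q <:+ r) (he : e ∈ S.W q m) :
    S.tr q r m ⁻¹' ly0 (S.X q (m + 1)) L e = ly0 (S.X r (m + 1)) (S.tr q r m ⁻¹' L) e := by
  ext y
  simp only [ly0, mem_preimage, mem_setOf_eq]
  refine and_congr_right fun _ => forall_congr' fun t => imp_congr_right fun _ => ?_
  rw [S.mem_X_succ_tr hm hq hqr, S.tr_add hqr m ((S.W q m).smul_mem t he)]

lemma tr_lyd (hm : S.mv.IsRot m) (hq : S.mv.jj m <:+ q) (hqr : q <:+ r) (he : e ∈ S.W q m) :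
    S.tr q r m ⁻¹' lyd (S.X q m) (S.X q (m + 1)) L e h
      = lyd (S.X r m) (S.X r (m + 1)) (S.tr q r m ⁻¹' L) e h := by
  ext y
  simp only [lyd, mem_preimage, mem_setOf_eq]
  rw [S.mem_X_tr q r m y, S.mem_X_succ_tr hm hq hqr y, S.mem_X_tr q r m (y + h • e),
    S.tr_add hqr m ((S.W q m).smul_mem h he)]

lemma tr_lyd' (hm : S.mv.IsRot m) (hq : S.mv.jj m <:+ q) (hqr : q <:+ r) (he : e ∈ S.W q m) :
    S.tr q r m ⁻¹' lyd (S.X q (m + 1)) (S.X q m) L e h
      = lyd (S.X r (m + 1)) (S.X r m) (S.tr q r m ⁻¹' L) e h := by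
  ext y
  simp only [lyd, mem_preimage, mem_setOf_eq]
  rw [S.mem_X_tr q r m y, S.mem_X_succ_tr hm hq hqr y, S.mem_X_succ_tr hm hq hqr (y + h • e),
    S.tr_add hqr m ((S.W q m).smul_mem h he)]

/-- (a) -/
lemma mu_ly0_le (x : E) : S.mu q (ly0 K L e) r m x ≤ S.mu q (ly1 K K1 L e h) r m x :=
  mu_mono ly0_subset_ly1 x

/-- (b) -/
lemma mu_ly1_shift (hqr : q <:+ r) (he : e ∈ S.W q m) (hK : Convex ℝ K) (hh : 0 ≤ h)
    (hL : ∀ y ∈ L, ∀ t : ℝ, y + t • e ∈ L) (x : E) :
    S.mu q (ly1 K K1 L e h) r m x ≤ S.mu q (ly0 K L e) r m (x + h • e) :=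
  mu_shift hqr ((S.W q m).smul_mem h he) (fun y hy => ly1_add hK hh hL hy) x

/-- (c) -/
lemma mu_ly0_mono (hqr : q <:+ r) (he : e ∈ S.W q m)
    (hL : ∀ y ∈ L, ∀ t : ℝ, y + t • e ∈ L) {a : ℝ} (ha : 0 ≤ a) (x : E) :
    S.mu q (ly0 K L e) r m x ≤ S.mu q (ly0 K L e) r m (x + a • e) :=
  mu_shift hqr ((S.W q m).smul_mem a he) (fun y hy => ly0_add hL hy ha) x

lemma mu_ly1_step (hqr : q <:+ r) (he : e ∈ S.W q m) (hK : Convex ℝ K) (hh : 0 ≤ h)
    (hL : ∀ y ∈ L, ∀ t : ℝ, y + t • e ∈ L) (x : E) :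
    S.mu q (ly1 K K1 L e h) r m x ≤ S.mu q (ly1 K K1 L e h) r m (x + h • e) :=
  (mu_ly1_shift hqr he hK hh hL x).trans (mu_ly0_le _)

/-- (e) -/
lemma mu_ly1_le_Dc (hm : S.mv.IsRot m) (hq : S.mv.jj m <:+ q) (hqr : q <:+ r) (x : E) :
    S.mu q (ly1 (S.X q m) (S.X q (m + 1)) L e h) r m x ≤ S.Dc r m x := by
  rw [← mu_Dc hm hq hqr]
  exact mu_mono ly1_subset x

lemma mu_ly1_le_Dc' (hm : S.mv.IsRot m) (hq : S.mv.jj m <:+ q) (hqr : q <:+ r) (x : E) :
    S.mu q (ly1 (S.X q (m + 1)) (S.X q m) L e h) r m x ≤ S.Dc r m x := by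
  rw [← mu_Dc hm hq hqr, inter_comm]
  exact mu_mono ly1_subset x

/-- (f) -/
lemma mu_ly1_eq (hK : IsCompact K) (hL : MeasurableSet L) (x : E) :
    S.mu q (ly1 K K1 L e h) r m x
      = S.mu q (ly0 K L e) r m x + S.mu q (lyd K K1 L e h) r m x :=
  mu_union (measurableSet_ly0 hK hL e) disjoint_ly x

/-- the mass of the layer: bound and invariance along `e` -/
lemma mu_ly1_le_layer (x : E) : S.mu q (ly1 K K1 L e h) r m x ≤ S.mu q L r m x := by
  refine mu_mono ?_ x
  rintro y (hy | hy)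
  exacts [hy.1, hy.1]

lemma mu_layer_add (hqr : q <:+ r) (he : e ∈ S.W q m)
    (hL : ∀ y ∈ L, ∀ t : ℝ, y + t • e ∈ L) (a : ℝ) (x : E) :
    S.mu q L r m (x + a • e) = S.mu q L r m x := by
  refine le_antisymm ?_ (mu_shift hqr ((S.W q m).smul_mem a he) (fun y hy => hL y hy a) x)
  have := mu_shift (r := r) hqr ((S.W q m).smul_mem (-a) he) (fun y hy => hL y hy (-a))
    (x + a • e)
  rwa [add_assoc, ← add_smul, add_neg_cancel, zero_smul, add_zero] at this

end Vale.Agent.P262.M2.Sys
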