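import Vale.Agent.P262.H118.Frame

/-!
# P262, scheme S1: frames (block FRM), part 3: the frame path of a slow piece
-/

namespace Vale.Agent.P262.H118

open RealInnerProductSpace Module Vale.Agent.P262.H274

variable {E : Type*} [NormedAddCommGroup E] [InnerProductSpace ℝ E] [FiniteDimensional ℝ E]

/-- `R : ℕ → (E ≃ₗᵢ E)` is a frame path over `[a, b)` for the words `v` with frame `V` and angles
`α`: the body `R_t⁻¹ K` is seen with the fixed labels `V`; `R_t⁻¹ v_t ⟂ V`; from `t` to `t + 1`
the body is turned by plane rotations `(θ, b)`, `θ ∈ V`, `b ⟂ V` of total angle `α t`. -/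
structure FPath (v : ℕ → E) (V : Submodule ℝ E) (a b : ℕ) (R : ℕ → (E ≃ₗᵢ[ℝ] E)) (α : ℕ → ℝ) :
    Prop where
  start : R a = LinearIsometryEquiv.refl ℝ E
  perp : ∀ t, a ≤ t → t < b → (R t).symm (v t) ∈ Vᗮ
  step : ∀ t, a ≤ t → t + 1 < b → ∃ Q, PR V Q (α t) ∧ R (t + 1) = Q.trans (R t)

lemma FPath.norm {v : ℕ → E} {V : Submodule ℝ E} {a b : ℕ} {R : ℕ → (E ≃ₗᵢ[ℝ] E)} {α : ℕ → ℝ}
    (_ : FPath v V a b R α) (t : ℕ) : ‖(R t).symm (v t)‖ = ‖v t‖ := (R t).symm.norm_map _

/-- **Frame path of a slow piece.** -/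
theorem frame_path {v : ℕ → E} {N δ : ℝ} {k a b : ℕ} (hab : a < b) (hδ : 0 < δ) (hδ1 : δ ≤ 1)
    (hv : ∀ t, a ≤ t → t < b → ‖v t‖ = δ) (hk : k < finrank ℝ E) (h : SlowEx v N k a b) :
    ∃ (V : Submodule ℝ E) (R : ℕ → (E ≃ₗᵢ[ℝ] E)) (α : ℕ → ℝ), finrank ℝ V = k ∧
      FPath v V a b R α ∧ (∀ t, 0 ≤ α t) ∧
      ∑ t ∈ Finset.Ico a b, α t ≤ Real.pi * 3 ^ k * N / δ := by
  classical
  obtain ⟨V, hV, hs⟩ := h
  have hpi := Real.pi_pos
  -- aligned frames
  have hlt : ∀ t, V t < ⊤ := fun t => by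
    refine lt_top_iff_ne_top.2 fun h0 => ?_
    have := hV t
    rw [h0, finrank_top] at this
    omega
  choose β W hβ hWv hβv using fun t => align' (hlt t) (v := v t) trivial
  -- rotations between consecutive slow frames
  have hrot : ∀ t, ∃ γ, RotChain ⊤ (V t) (V (t + 1)) γ ∧
      γ ≤ Real.pi / 4 * (3 ^ k - 1) * ‖(V (t + 1)).starProjection - (V t).starProjection‖ :=
    fun t => rot_chain_norm le_top le_top (hV t) (hV (t + 1)) le_rfl
  choose γ hγ hγle using hrot
  -- chain between aligned frames, constant after `b - 1`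
  let W' : ℕ → Submodule ℝ E := fun t => W (min t (b - 1))
  let α : ℕ → ℝ := fun t => if t + 1 < b then β t + γ t + β (t + 1) else 0
  have hβ0 : ∀ t, 0 ≤ β t := fun t => (hβ t).nonneg
  have hγ0 : ∀ t, 0 ≤ γ t := fun t => (hγ t).nonneg
  have hα0 : ∀ t, 0 ≤ α t := by
    intro t
    simp only [α]
    split_ifs
    · have := hβ0 t; have := hγ0 t; have := hβ0 (t + 1); positivity
    · exact le_rfl
  have hchain : ∀ t, RotChain ⊤ (W' (a + t)) (W' (a + t + 1)) (α (a + t)) := by
    intro t
    simp only [W', α]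
    split_ifs with hlt'
    · rw [min_eq_left (by omega), min_eq_left (by omega)]
      exact (((hβ (a + t)).symm le_top).trans (hγ (a + t))).trans (hβ (a + t + 1))
    · rw [min_eq_right (by omega), min_eq_right (by omega)]
      exact RotChain.nil _
  obtain ⟨R, hR0, hRW, hRs⟩ := frame_path_aux W' α a hchain (W' a) rfl
  refine ⟨W' a, fun t => R (t - a), α, ?_, ⟨?_, ?_, ?_⟩, hα0, ?_⟩
  · simp only [W']
    rw [(hβ _).finrank, hV]
  · simp only [Nat.sub_self]; exact hR0
  · intro t hat htb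
    have h1 : W' (a + (t - a)) = W t := by
      simp only [W']
      congr 1
      omega
    rw [Submodule.mem_orthogonal]
    intro x hx
    have h2 : (R (t - a)) x ∈ W t := by
      rw [← h1, hRW]
      exact ⟨x, hx, rfl⟩
    have h3 : ⟪R (t - a) x, v t⟫ = 0 := (Submodule.mem_orthogonal (W t) _).1 (hWv t) _ h2
    rw [← (R (t - a)).inner_map_map, (R (t - a)).apply_symm_apply]
    exact h3
  · intro t hat htb
    obtain ⟨Q, hQ, hQR⟩ := hRs (t - a)
    have h1 : a + (t - a) = t := by omega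
    rw [h1] at hQ
    refine ⟨Q, hQ, ?_⟩
    have h2 : t + 1 - a = t - a + 1 := by omega
    change R (t + 1 - a) = Q.trans (R (t - a))
    rw [h2]; exact hQR
  · -- total angle
    have hβle : ∀ t, a ≤ t → t < b → β t ≤ Real.pi / (2 * δ) * ‖(V t).starProjection (v t)‖ := by
      intro t h1 h2
      have h3 := hβv t
      rw [hv t h1 h2] at h3
      rw [div_mul_eq_mul_div, le_div_iff₀ (by positivity)]
      linarith
    have hsum : ∑ t ∈ Finset.Ico a b, α t
        ≤ ∑ t ∈ Finset.Ico a b, (2 * β t) + ∑ t ∈ Finset.Ico a b, γ t := by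
      have h1 : ∑ t ∈ Finset.Ico a b, α t
          ≤ ∑ t ∈ Finset.Ico a (b - 1), (β t + γ t + β (t + 1)) := by
        have : ∑ t ∈ Finset.Ico a b, α t = ∑ t ∈ Finset.Ico a (b - 1), α t := by
          have hb : b = (b - 1) + 1 := by omega
          conv_lhs => rw [hb]
          rw [Finset.sum_Ico_succ_top (by omega)]
          simp only [α]
          rw [if_neg (by omega), add_zero]
        rw [this]
        refine Finset.sum_le_sum fun t ht => ?_
        rw [Finset.mem_Ico] at ht
        simp only [α]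
        rw [if_pos (by omega)]
      refine h1.trans ?_
      rw [Finset.sum_add_distrib, Finset.sum_add_distrib]
      have h2 : ∑ t ∈ Finset.Ico a (b - 1), β t ≤ ∑ t ∈ Finset.Ico a b, β t :=
        Finset.sum_le_sum_of_subset_of_nonneg (Finset.Ico_subset_Ico_right (by omega))
          fun t _ _ => hβ0 t
      have h3 : ∑ t ∈ Finset.Ico a (b - 1), β (t + 1) ≤ ∑ t ∈ Finset.Ico a b, β t := by
        rw [Finset.sum_Ico_add' β a (b - 1) 1]
        exact Finset.sum_le_sum_of_subset_of_nonneg (Finset.Ico_subset_Ico (by omega) (by omega))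
          fun t _ _ => hβ0 t
      have h4 : ∑ t ∈ Finset.Ico a (b - 1), γ t ≤ ∑ t ∈ Finset.Ico a b, γ t :=
        Finset.sum_le_sum_of_subset_of_nonneg (Finset.Ico_subset_Ico_right (by omega))
          fun t _ _ => hγ0 t
      rw [← Finset.mul_sum]
      linarith
    refine hsum.trans ?_
    rw [← Finset.sum_add_distrib]
    have h3k : (1 : ℝ) ≤ 3 ^ k := one_le_pow₀ (by norm_num)
    calc ∑ t ∈ Finset.Ico a b, (2 * β t + γ t)
        ≤ ∑ t ∈ Finset.Ico a b, Real.pi * 3 ^ k / δ * (‖(V t).starProjection (v t)‖ +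
          ‖(V (t + 1)).starProjection - (V t).starProjection‖) := by
          refine Finset.sum_le_sum fun t ht => ?_
          rw [Finset.mem_Ico] at ht
          rw [mul_add]
          refine add_le_add ?_ ?_
          · have h5 := hβle t ht.1 ht.2
            have h6 : 2 * (Real.pi / (2 * δ) * ‖(V t).starProjection (v t)‖)
                = Real.pi * 1 / δ * ‖(V t).starProjection (v t)‖ := by field_simp
            calc 2 * β t ≤ 2 * (Real.pi / (2 * δ) * ‖(V t).starProjection (v t)‖) := by linarith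
              _ = Real.pi * 1 / δ * ‖(V t).starProjection (v t)‖ := h6
              _ ≤ Real.pi * 3 ^ k / δ * ‖(V t).starProjection (v t)‖ := by gcongr
          · refine (hγle t).trans ?_
            refine mul_le_mul_of_nonneg_right ?_ (norm_nonneg _)
            rw [le_div_iff₀ hδ]
            have h7 : Real.pi / 4 * (3 ^ k - 1) * δ ≤ Real.pi / 4 * (3 ^ k - 1) * 1 :=
              mul_le_mul_of_nonneg_left hδ1 (mul_nonneg (by positivity) (by linarith))
            nlinarith
      _ = Real.pi * 3 ^ k / δ * ∑ t ∈ Finset.Ico a b, (‖(V t).starProjection (v t)‖ +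
          ‖(V (t + 1)).starProjection - (V t).starProjection‖) := by rw [Finset.mul_sum]
      _ ≤ Real.pi * 3 ^ k / δ * N := by gcongr
      _ = Real.pi * 3 ^ k * N / δ := by ring

end Vale.Agent.P262.H118
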