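import Mathlib

/-!
# P262, scheme S1: plane rotations and rotation chains (block FRM)

`rotE p q φ` : the rotation by the angle `φ` in the plane spanned by the orthonormal pair `p, q`
(`p ↦ cos φ p + sin φ q`).  `RotStep F V φ V'` : `V'` is the image of `V` under a rotation by an
angle `φ ∈ [0, π/2]` in a plane `(θ, b)` with `θ ∈ V` and `b ∈ F`, `b ⟂ V`.
`RotChain F V V' α` : a finite chain of such steps with total angle `α`.
-/

namespace Vale.Agent.P262.H118

open RealInnerProductSpace Module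

variable {E : Type*} [NormedAddCommGroup E] [InnerProductSpace ℝ E]

/-- rotation by `φ` in the plane `(p, q)` (a linear map; an isometry if `p, q` are orthonormal). -/
noncomputable def rotL (p q : E) (φ : ℝ) : E →ₗ[ℝ] E where
  toFun x := x + ((Real.cos φ - 1) * ⟪p, x⟫ - Real.sin φ * ⟪q, x⟫) • p
    + (Real.sin φ * ⟪p, x⟫ + (Real.cos φ - 1) * ⟪q, x⟫) • q
  map_add' x y := by
    simp only [inner_add_right]
    module
  map_smul' c x := by
    simp only [inner_smul_right, RingHom.id_apply]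
    module

lemma rotL_apply (p q : E) (φ : ℝ) (x : E) :
    rotL p q φ x = x + ((Real.cos φ - 1) * ⟪p, x⟫ - Real.sin φ * ⟪q, x⟫) • p
    + (Real.sin φ * ⟪p, x⟫ + (Real.cos φ - 1) * ⟪q, x⟫) • q := rfl

/-- an orthonormal pair -/
structure ON (p q : E) : Prop where
  hp : ‖p‖ = 1
  hq : ‖q‖ = 1
  hpq : ⟪p, q⟫ = 0

namespace ON

variable {p q : E} (h : ON p q)
include h

lemma pp : ⟪p, p⟫ = (1:ℝ) := by rw [real_inner_self_eq_norm_sq, h.hp]; norm_num
lemma qq : ⟪q, q⟫ = (1:ℝ) := by rw [real_inner_self_eq_norm_sq, h.hq]; norm_num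
lemma qp : ⟪q, p⟫ = (0:ℝ) := by rw [real_inner_comm]; exact h.hpq

lemma inner_p (φ : ℝ) (x : E) :
    ⟪p, rotL p q φ x⟫ = Real.cos φ * ⟪p, x⟫ - Real.sin φ * ⟪q, x⟫ := by
  rw [rotL_apply, inner_add_right, inner_add_right, inner_smul_right, inner_smul_right, h.pp,
    h.hpq]
  ring

lemma inner_q (φ : ℝ) (x : E) :
    ⟪q, rotL p q φ x⟫ = Real.sin φ * ⟪p, x⟫ + Real.cos φ * ⟪q, x⟫ := by
  rw [rotL_apply, inner_add_right, inner_add_right, inner_smul_right, inner_smul_right, h.qq,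
    h.qp]
  ring

lemma apply_p (φ : ℝ) : rotL p q φ p = Real.cos φ • p + Real.sin φ • q := by
  rw [rotL_apply, h.pp, h.qp]
  module

lemma apply_q (φ : ℝ) : rotL p q φ q = -(Real.sin φ) • p + Real.cos φ • q := by
  rw [rotL_apply, h.hpq, h.qq]
  module

lemma rot_rot (φ ψ : ℝ) (x : E) : rotL p q φ (rotL p q ψ x) = rotL p q (φ + ψ) x := by
  rw [rotL_apply p q φ, h.inner_p, h.inner_q, rotL_apply p q ψ, rotL_apply p q (φ + ψ),
    Real.cos_add, Real.sin_add]
  module

omit h in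
lemma rot_zero (x : E) : rotL p q 0 x = x := by
  rw [rotL_apply]; simp

lemma inner_rot (φ : ℝ) (x y : E) : ⟪rotL p q φ x, rotL p q φ y⟫ = ⟪x, y⟫ := by
  rw [rotL_apply p q φ x, inner_add_left, inner_add_left, inner_smul_left, inner_smul_left,
    h.inner_p, h.inner_q, rotL_apply p q φ y, inner_add_right, inner_add_right,
    inner_smul_right, inner_smul_right, real_inner_comm p x, real_inner_comm q x]
  simp only [conj_trivial]
  linear_combination (⟪p, x⟫ * ⟪p, y⟫ + ⟪q, x⟫ * ⟪q, y⟫) * (Real.sin_sq_add_cos_sq φ)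

end ON

/-- the rotation as a linear isometry equivalence. -/
noncomputable def rotE {p q : E} (h : ON p q) (φ : ℝ) : E ≃ₗᵢ[ℝ] E where
  toLinearEquiv :=
    { rotL p q φ with
      invFun := rotL p q (-φ)
      left_inv := fun x => by
        change rotL p q (-φ) (rotL p q φ x) = x
        rw [h.rot_rot, neg_add_cancel, ON.rot_zero]
      right_inv := fun x => by
        change rotL p q φ (rotL p q (-φ) x) = x
        rw [h.rot_rot, add_neg_cancel, ON.rot_zero] }
  norm_map' x := by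
    change ‖rotL p q φ x‖ = ‖x‖
    rw [@norm_eq_sqrt_real_inner E _ _ (rotL p q φ x), h.inner_rot, ← norm_eq_sqrt_real_inner]

@[simp] lemma rotE_apply {p q : E} (h : ON p q) (φ : ℝ) (x : E) : rotE h φ x = rotL p q φ x := rfl

lemma rotE_symm_apply {p q : E} (h : ON p q) (φ : ℝ) (x : E) :
    (rotE h φ).symm x = rotL p q (-φ) x := rfl

/-- the rotation fixes everything orthogonal to the plane. -/
lemma rotL_of_perp {p q x : E} (φ : ℝ) (h1 : ⟪p, x⟫ = 0) (h2 : ⟪q, x⟫ = 0) :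
    rotL p q φ x = x := by
  rw [rotL_apply, h1, h2]; simp

/-- `V'` is the image of `V` under a rotation by `φ ∈ [0, π/2]` in a plane `(θ, b)`, `θ ∈ V`,
`b ∈ F`, `b ⟂ V`. -/
def RotStep (F V : Submodule ℝ E) (φ : ℝ) (V' : Submodule ℝ E) : Prop :=
  ∃ θ b : E, ON θ b ∧ θ ∈ V ∧ b ∈ F ∧ b ∈ Vᗮ ∧ 0 ≤ φ ∧ φ ≤ Real.pi / 2 ∧ V' = V.map (rotL θ b φ)

/-- a finite chain of rotation steps with total angle `α`. -/
inductive RotChain (F : Submodule ℝ E) : Submodule ℝ E → Submodule ℝ E → ℝ → Prop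
  | nil (V : Submodule ℝ E) : RotChain F V V 0
  | cons {V V₁ V' : Submodule ℝ E} {φ α : ℝ} (h : RotStep F V φ V₁) (t : RotChain F V₁ V' α) :
      RotChain F V V' (φ + α)

lemma RotChain.nonneg {F V V' : Submodule ℝ E} {α : ℝ} (h : RotChain F V V' α) : 0 ≤ α := by
  induction h with
  | nil => exact le_rfl
  | cons h _ ih =>
    obtain ⟨_, _, _, _, _, _, h0, _⟩ := h
    exact add_nonneg h0 ih

lemma RotChain.trans {F V V' V'' : Submodule ℝ E} {α β : ℝ} (h : RotChain F V V' α)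
    (h' : RotChain F V' V'' β) : RotChain F V V'' (α + β) := by
  induction h with
  | nil => simpa using h'
  | cons h _ ih =>
    rw [add_assoc]
    exact RotChain.cons h (ih h')

lemma RotStep.le {F V V' : Submodule ℝ E} {φ : ℝ} (hV : V ≤ F) (h : RotStep F V φ V') :
    V' ≤ F := by
  obtain ⟨θ, b, -, hθ, hb, -, -, -, rfl⟩ := h
  rw [Submodule.map_le_iff_le_comap]
  intro x hx
  rw [Submodule.mem_comap, rotL_apply]
  exact F.add_mem (F.add_mem (hV hx) (F.smul_mem _ (hV hθ))) (F.smul_mem _ hb)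

lemma RotChain.le {F V V' : Submodule ℝ E} {α : ℝ} (h : RotChain F V V' α) (hV : V ≤ F) :
    V' ≤ F := by
  induction h with
  | nil => exact hV
  | cons h _ ih => exact ih (h.le hV)

lemma RotStep.finrank {F V V' : Submodule ℝ E} {φ : ℝ} (h : RotStep F V φ V') :
    finrank ℝ V' = finrank ℝ V := by
  obtain ⟨θ, b, hON, -, -, -, -, -, rfl⟩ := h
  exact (rotE hON φ).toLinearEquiv.finrank_map_eq V

lemma RotChain.finrank {F V V' : Submodule ℝ E} {α : ℝ} (h : RotChain F V V' α) :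
    finrank ℝ V' = finrank ℝ V := by
  induction h with
  | nil => rfl
  | cons h _ ih => rw [ih, h.finrank]

/-- image of `U ⊔ W` under the rotation taking `θ ∈ W` to `θ' = cos φ θ + sin φ b`. -/
lemma map_rot {U W : Submodule ℝ E} {θ b θ' : E} {φ : ℝ} (hON : ON θ b) (hθ : θ ∈ W)
    (hθU : θ ∈ Uᗮ) (hbU : b ∈ Uᗮ) (hbW : b ∈ Wᗮ)
    (hθ' : θ' = Real.cos φ • θ + Real.sin φ • b) :
    (U ⊔ W).map (rotL θ b φ) = (U ⊔ ℝ ∙ θ') ⊔ ((ℝ ∙ θ)ᗮ ⊓ W) := by
  have hW : (ℝ ∙ θ) ⊔ ((ℝ ∙ θ)ᗮ ⊓ W) = W :=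
    Submodule.sup_orthogonal_inf_of_hasOrthogonalProjection
      ((Submodule.span_singleton_le_iff_mem _ _).2 hθ)
  conv_lhs => rw [← hW]
  rw [Submodule.map_sup, Submodule.map_sup, ← sup_assoc]
  congr 1
  · congr 1
    · refine le_antisymm ?_ ?_
      · rintro _ ⟨x, hx, rfl⟩
        rw [rotL_of_perp φ ((Submodule.mem_orthogonal' U θ).1 hθU x hx)
          ((Submodule.mem_orthogonal' U b).1 hbU x hx)]
        exact hx
      · intro x hx
        exact ⟨x, hx, rotL_of_perp φ ((Submodule.mem_orthogonal' U θ).1 hθU x hx)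
          ((Submodule.mem_orthogonal' U b).1 hbU x hx)⟩
    · rw [Submodule.map_span, Set.image_singleton, hON.apply_p, hθ']
  · have key : ∀ x ∈ (ℝ ∙ θ)ᗮ ⊓ W, rotL θ b φ x = x := fun x hx =>
      rotL_of_perp φ ((Submodule.mem_orthogonal_singleton_iff_inner_right).1 hx.1)
        ((Submodule.mem_orthogonal' W b).1 hbW x hx.2)
    refine le_antisymm ?_ ?_
    · rintro _ ⟨x, hx, rfl⟩
      rw [key x hx]; exact hx
    · intro x hx
      exact ⟨x, hx, key x hx⟩

end Vale.Agent.P262.H118
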