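import Vale.Agent.P262.H118.Lay
import Vale.Agent.P262.H703.Sp

/-!
# P262, milestone 2, THR: coherent directions of a rotation

For a rotation at `q = jj m` there are one `θ` and vectors `b r` for all descendants `r` of `q`
such that in the coordinates of `r` the body is rotated in the plane `(θ, b r)`, and the transports
map `b r` to `b s`.  Hence the component of `b r` in the label space of an ancestor `s` (below `q`)
does not depend on `r`.
-/

set_option linter.all false

open MeasureTheory ProbabilityTheory Set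
open scoped ENNReal RealInnerProductSpace
open Vale.Agent.P262.H118 (Iv st en ON rotE rotL rotL_apply rotE_apply rotL_map tau wd wrd Mg Piece
  K2 El2 paths ly0 lyd ly1)
open Vale.Agent.P262.H395 (fib mix Inv inv_fib measurable_fib fib_mono Fixes fib_fixes fib_tower)

namespace Vale.Agent.P262.M2.Sys

variable {E : Type*} [NormedAddCommGroup E] [InnerProductSpace ℝ E] [FiniteDimensional ℝ E]
  [MeasurableSpace E] [BorelSpace E]

/-- the plane of a rotation at `q`, coherent in all coordinates below `q` -/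
structure RotB (S : Sys E) (m : ℕ) (q : List ℕ) (θ : E) (b : List ℕ → E) : Prop where
  mem : θ ∈ S.W q m
  perp : θ ∈ (S.W q.tail m)ᗮ
  on : ∀ r, q <:+ r → ON θ (b r)
  bperp : ∀ r, q <:+ r → b r ∈ (S.W q m)ᗮ
  tr_b : ∀ s r, q <:+ s → s <:+ r → S.tr s r m (b r) = b s
  X_succ : ∀ r, q <:+ r → S.X r (m + 1) = rotL θ (b r) (S.mv.ph m) ⁻¹' S.X r m

variable {S : Sys E}

/-- **coherent directions** -/
theorem rot_coh {m : ℕ} (h : S.mv.IsRot m) : ∃ (θ : E) (b : List ℕ → E), S.RotB m (S.mv.jj m) θ b := by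
  set q := S.mv.jj m with hqdef
  obtain ⟨θ, h1, h2, h3⟩ := S.mv.U_rot h.1 h.2
  obtain ⟨b0, hON, hb0, hU⟩ := h3 q (List.suffix_refl _)
  have hfix : ∀ r, q <:+ r → S.tr q r m θ = θ := fun r hr => S.tr_fixes hr m θ h1
  have hfix' : ∀ r, q <:+ r → (S.tr q r m).symm θ = θ := fun r hr => by
    rw [LinearIsometryEquiv.symm_apply_eq, hfix r hr]
  refine ⟨θ, fun r => (S.tr q r m).symm b0, h1, h2, fun r hr => ?_, fun r hr => ?_,
    fun s r hs hr => ?_, fun r hr => ?_⟩
  · have := hON.map (S.tr q r m).symm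
    rwa [hfix' r hr] at this
  · rw [Submodule.mem_orthogonal]
    intro x hx
    rw [← (S.tr q r m).inner_map_map, LinearIsometryEquiv.apply_symm_apply,
      S.tr_fixes hr m x hx]
    exact (Submodule.mem_orthogonal _ _).1 hb0 x hx
  · show S.tr s r m ((S.tr q r m).symm b0) = (S.tr q s m).symm b0
    rw [LinearIsometryEquiv.eq_symm_apply, S.tr_tr, LinearIsometryEquiv.apply_symm_apply]
  · ext x
    rw [S.mem_X_succ_tr h (List.suffix_refl _) hr x, mem_preimage,
      S.mem_X_tr q r m (rotL θ ((S.tr q r m).symm b0) (S.mv.ph m) x)]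
    have e1 : S.tr q r m (rotL θ ((S.tr q r m).symm b0) (S.mv.ph m) x)
        = rotL θ b0 (S.mv.ph m) (S.tr q r m x) := by
      have := rotL_map (S.tr q r m) θ ((S.tr q r m).symm b0) (S.mv.ph m) x
      rw [LinearIsometryEquiv.apply_symm_apply, hfix r hr] at this
      exact this.symm
    rw [e1]
    unfold X
    rw [El2.mem_Bd, El2.mem_Bd, hU, LinearIsometryEquiv.trans_apply, rotE_apply,
      S.Kb_succ_rot h]

/-- inner products with labels are not changed by the transport -/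
lemma inner_tr {s r : List ℕ} (h : s <:+ r) {m : ℕ} {w : E} (hw : w ∈ S.W s m) (x : E) :
    ⟪w, S.tr s r m x⟫ = ⟪w, x⟫ := by
  conv_lhs => rw [← S.tr_fixes h m w hw]
  rw [LinearIsometryEquiv.inner_map_map]

namespace RotB

variable {m : ℕ} {q : List ℕ} {θ : E} {b : List ℕ → E}

lemma inner_b (H : S.RotB m q θ b) {s r : List ℕ} (hs : q <:+ s) (hr : s <:+ r) (x : E) :
    ⟪b s, S.tr s r m x⟫ = ⟪b r, x⟫ := by
  rw [← H.tr_b s r hs hr, LinearIsometryEquiv.inner_map_map]

lemma inner_θ (H : S.RotB m q θ b) {s r : List ℕ} (hs : q <:+ s) (hr : s <:+ r) (x : E) :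
    ⟪θ, S.tr s r m x⟫ = ⟪θ, x⟫ := inner_tr hr (S.W_mono hs m H.mem) x

/-- the label part of `b r` at an ancestor `s` is that of `b s` -/
lemma proj_b (H : S.RotB m q θ b) {s r : List ℕ} (hs : q <:+ s) (hr : s <:+ r) :
    (S.W s m).starProjection (b r) = (S.W s m).starProjection (b s) := by
  rw [← H.tr_b s r hs hr, (S.tr_fixes hr m).proj]

lemma norm_b (H : S.RotB m q θ b) {r : List ℕ} (hr : q <:+ r) : ‖b r‖ = 1 := (H.on r hr).hq

lemma inner_θ_b (H : S.RotB m q θ b) {r : List ℕ} (hr : q <:+ r) : ⟪θ, b r⟫ = 0 := (H.on r hr).hpq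

end RotB

/-- own part of `b` at the node `s` -/
noncomputable def bo (S : Sys E) (m : ℕ) (b : List ℕ → E) (s : List ℕ) : E :=
  (S.W s m).starProjection (b s) - (S.W s.tail m).starProjection (b s)

/-- fibre part of `b` at the node `r` -/
noncomputable def bf (S : Sys E) (m : ℕ) (b : List ℕ → E) (r : List ℕ) : E :=
  b r - (S.W r m).starProjection (b r)

lemma W_tail_le (S : Sys E) (s : List ℕ) (m : ℕ) : S.W s.tail m ≤ S.W s m := by
  cases s with
  | nil => exact le_rfl
  | cons c s => exact S.W_le c s m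

section own

variable {m : ℕ} {b : List ℕ → E} {s r : List ℕ}

lemma bo_mem : S.bo m b s ∈ S.W s m :=
  Submodule.sub_mem _ (Submodule.starProjection_apply_mem _ _)
    (S.W_tail_le s m (Submodule.starProjection_apply_mem _ _))

lemma bo_perp : S.bo m b s ∈ (S.W s.tail m)ᗮ := by
  have e : S.bo m b s = (b s - (S.W s.tail m).starProjection (b s))
      - (b s - (S.W s m).starProjection (b s)) := by unfold bo; abel
  rw [e]
  exact Submodule.sub_mem _ (Submodule.sub_starProjection_mem_orthogonal _)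
    (Submodule.orthogonal_le (S.W_tail_le s m) (Submodule.sub_starProjection_mem_orthogonal _))

lemma norm_sub_proj_le (V : Submodule ℝ E) (x : E) : ‖x - V.starProjection x‖ ≤ ‖x‖ := by
  have h4 : x - V.starProjection x = Vᗮ.starProjection x := by
    rw [Submodule.starProjection_orthogonal']
    rfl
  rw [h4]
  exact Submodule.norm_starProjection_apply_le _ _

lemma norm_bo_le : ‖S.bo m b s‖ ≤ ‖b s‖ := by
  have e : S.bo m b s = (S.W s m).starProjection (b s - (S.W s.tail m).starProjection (b s)) := by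
    unfold bo
    rw [map_sub]
    congr 1
    exact (Submodule.starProjection_eq_self_iff.2
      (S.W_tail_le s m (Submodule.starProjection_apply_mem _ _))).symm
  rw [e]
  exact (Submodule.norm_starProjection_apply_le _ _).trans (norm_sub_proj_le _ _)

lemma bf_perp : S.bf m b r ∈ (S.W r m)ᗮ := Submodule.sub_starProjection_mem_orthogonal _

lemma norm_bf_le : ‖S.bf m b r‖ ≤ ‖b r‖ := norm_sub_proj_le _ _

end own

namespace RotB

variable {m : ℕ} {q : List ℕ} {θ : E} {b : List ℕ → E}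

/-- the own part does not depend on the descendant in whose coordinates it is computed -/
lemma bo_eq (H : S.RotB m q θ b) {s r : List ℕ} (hs : q <:+ s.tail) (hr : s <:+ r) :
    (S.W s m).starProjection (b r) - (S.W s.tail m).starProjection (b r) = S.bo m b s := by
  have h1 : s.tail <:+ s := List.tail_suffix s
  unfold bo
  rw [H.proj_b (hs.trans h1) hr, H.proj_b hs (h1.trans hr), ← H.proj_b hs h1]

lemma inner_θ_bo (H : S.RotB m q θ b) {s : List ℕ} (hs : q <:+ s.tail) : ⟪θ, S.bo m b s⟫ = 0 :=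
  Submodule.inner_right_of_mem_orthogonal (S.W_mono hs m H.mem) bo_perp

lemma proj_q (H : S.RotB m q θ b) {r : List ℕ} (hr : q <:+ r) :
    (S.W q m).starProjection (b r) = 0 :=
  (Submodule.starProjection_apply_eq_zero_iff _).2 (H.bperp r hr)

/-- **decomposition of `b r`** along the levels below `q` -/
theorem sum_bo (H : S.RotB m q θ b) {r : List ℕ} (hr : q <:+ r) :
    b r = ∑ i ∈ Finset.range (r.length - q.length),
      S.bo m b (r.drop (r.length - q.length - (i + 1))) + S.bf m b r := by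
  set n := r.length - q.length with hn
  have hqd : r.drop n = q := (List.suffix_iff_eq_drop.1 hr).symm
  have hlen := hr.length_le
  have h1 : ∀ i ∈ Finset.range n, S.bo m b (r.drop (n - (i + 1)))
      = (S.W (r.drop (n - (i + 1))) m).starProjection (b r)
        - (S.W (r.drop (n - i)) m).starProjection (b r) := by
    intro i hi
    have hi' := Finset.mem_range.1 hi
    have e1 : (r.drop (n - (i + 1))).tail = r.drop (n - i) := by
      rw [List.tail_drop]
      congr 1
      omega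
    have e2 : q <:+ (r.drop (n - (i + 1))).tail := by
      rw [e1]
      refine List.suffix_of_suffix_length_le hr (List.drop_suffix _ _) ?_
      rw [List.length_drop]
      omega
    rw [← H.bo_eq e2 (List.drop_suffix _ _), e1]
  rw [Finset.sum_congr rfl h1, Finset.sum_range_sub
    (fun i => (S.W (r.drop (n - i)) m).starProjection (b r)) n, Nat.sub_self, List.drop_zero,
    Nat.sub_zero, hqd, H.proj_q hr, sub_zero]
  unfold bf
  abel

end RotB

end Vale.Agent.P262.M2.Sys

/-! ### splitting of the displacement -/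

namespace Vale.Agent.P262.H118

variable {E : Type*} [NormedAddCommGroup E] [InnerProductSpace ℝ E]

/-- normalized vector -/
noncomputable def nv (w : E) : E := ‖w‖⁻¹ • w

lemma norm_smul_nv (w : E) : ‖w‖ • nv w = w := by
  unfold nv
  rw [smul_smul]
  by_cases h : w = 0
  · simp [h]
  · rw [mul_inv_cancel₀ (norm_ne_zero_iff.2 h), one_smul]

lemma norm_nv {w : E} (h : w ≠ 0) : ‖nv w‖ = 1 := by
  unfold nv
  rw [norm_smul, norm_inv, norm_norm, inv_mul_cancel₀ (norm_ne_zero_iff.2 h)]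

lemma nv_mem {V : Submodule ℝ E} {w : E} (h : w ∈ V) : nv w ∈ V := V.smul_mem _ h

/-- the two signs -/
noncomputable def sg : Finset ℝ := {1, -1}

lemma mem_sg {ε : ℝ} : ε ∈ sg ↔ ε = 1 ∨ ε = -1 := by
  unfold sg
  rw [Finset.mem_insert, Finset.mem_singleton]

lemma exists_sg {K : Set E} {x u : E} {a : ℝ} (h : x + a • u ∉ K ∨ x - a • u ∉ K) :
    ∃ ε ∈ sg, x + a • (ε • u) ∉ K := by
  rcases h with h | h
  · exact ⟨1, mem_sg.2 (Or.inl rfl), by rwa [one_smul]⟩
  · refine ⟨-1, mem_sg.2 (Or.inr rfl), ?_⟩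
    rwa [neg_smul, one_smul, smul_neg, ← sub_eq_add_neg]

/-- **exit directions of a plane rotation** (the fibre direction `f` has the shortest step) -/
theorem exit_abs {K : Set E} (hK : Convex ℝ K) {θ B : E} (h : ON θ B) {φ : ℝ} {x : E}
    (hφ : |φ| * ‖x‖ ≤ 2) (n : ℕ) (w : ℕ → E) (f : E) (hw : ∀ i, ‖w i‖ ≤ 1)
    (hB : B = ∑ i ∈ Finset.range n, w i + f) (hx : x ∈ K)
    (hx' : rotL θ B φ x ∉ K) :
    (∃ ε ∈ sg, x + (2 * (|φ| * (1 + |⟪B, x⟫|))) • (ε • θ) ∉ K) ∨
    (∃ i < n, w i ≠ 0 ∧ ∃ ε ∈ sg,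
      x + ((2:ℝ) ^ (i + 3) * (|φ| * (1 + |⟪θ, x⟫|))) • (ε • nv (w i)) ∉ K) ∨
    (∃ ε ∈ sg, x + (4 * (|φ| * (1 + |⟪θ, x⟫|))) • (ε • f) ∉ K) := by
  have key := H703.rot_split hK h hφ (n + 1) (fun i => if i = 0 then 1 else ‖w (i - 1)‖)
    (fun i => if i = 0 then f else nv (w (i - 1)))
    (by
      intro i _
      show |(if i = 0 then (1:ℝ) else ‖w (i - 1)‖)| ≤ 1
      split_ifs
      · rw [abs_one]
      · rw [abs_norm]; exact hw _)
    (by
      rw [Finset.sum_range_succ', hB]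
      simp only [Nat.add_sub_cancel, if_true, one_smul, Nat.succ_ne_zero, if_false, norm_smul_nv])
    hx hx'
  rcases key with key | ⟨i, hi, key⟩
  · exact Or.inl (exists_sg key)
  · right
    rcases Nat.eq_zero_or_pos i with rfl | hi0
    · right
      simp only [if_true, zero_add] at key
      norm_num at key
      exact exists_sg key
    · left
      obtain ⟨k, rfl⟩ : ∃ k, i = k + 1 := ⟨i - 1, by omega⟩
      simp only [Nat.succ_ne_zero, if_false, Nat.add_sub_cancel] at key
      have e : k + 1 + 2 = k + 3 := by omega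
      rw [e] at key
      refine ⟨k, by omega, fun h0 => ?_, exists_sg key⟩
      rw [h0] at key
      simp only [nv, norm_zero, inv_zero, smul_zero, add_zero, sub_zero, or_self] at key
      exact key hx

/-- dyadic layers of `|⟪b, ·⟫|` -/
def la (b : E) (a : ℕ) : Set E := {y | (2:ℝ) ^ a ≤ 1 + |⟪b, y⟫| ∧ 1 + |⟪b, y⟫| < 2 ^ (a + 1)}

lemma exists_la (b y : E) : ∃ a, y ∈ la b a := by
  have h : (1:ℝ) ≤ 1 + |⟪b, y⟫| := by have := abs_nonneg ⟪b, y⟫; linarith
  obtain ⟨n, h1, h2⟩ := exists_nat_pow_near h (by norm_num : (1:ℝ) < 2)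
  exact ⟨n, h1, h2⟩

lemma la_add {b e : E} (h : ⟪b, e⟫ = 0) {a : ℕ} : ∀ y ∈ la b a, ∀ t : ℝ, y + t • e ∈ la b a := by
  intro y hy t
  unfold la at *
  rw [mem_setOf_eq, inner_add_right, inner_smul_right, h, mul_zero, add_zero]
  exact hy

lemma measurableSet_la [MeasurableSpace E] [BorelSpace E] (b : E) (a : ℕ) :
    MeasurableSet (la b a) := by
  have h : Continuous fun y : E => 1 + |⟪b, y⟫| := by fun_prop
  exact (measurableSet_le measurable_const h.measurable).inter
    (measurableSet_lt h.measurable measurable_const)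

end Vale.Agent.P262.H118

namespace Vale.Agent.P262.M2.Sys

open Vale.Agent.P262.H118 (nv sg la exit_abs exists_la measurableSet_la norm_nv nv_mem la_add
  measurableSet_lyd mem_sg)

variable {E : Type*} [NormedAddCommGroup E] [InnerProductSpace ℝ E] [FiniteDimensional ℝ E]
  [MeasurableSpace E] [BorelSpace E] {S : Sys E} {m : ℕ} {q : List ℕ} {θ : E} {b : List ℕ → E}

lemma RotB.tr_la (H : S.RotB m q θ b) {s r : List ℕ} (hs : q <:+ s) (hr : s <:+ r) (a : ℕ) :
    S.tr s r m ⁻¹' la (b s) a = la (b r) a := by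
  ext y
  unfold la
  rw [mem_preimage, mem_setOf_eq, mem_setOf_eq, H.inner_b hs hr]

/-- the node of level `|q| + i + 1` on the way to `r` -/
def sf1 (q r : List ℕ) (i : ℕ) : List ℕ := r.drop (r.length - q.length - (i + 1))

lemma sf1_facts {r : List ℕ} (hr : q <:+ r) {i : ℕ} (hi : i < r.length - q.length) :
    q <:+ (sf1 q r i).tail ∧ q <:+ sf1 q r i ∧ sf1 q r i <:+ r ∧
      (sf1 q r i).length = q.length + i + 1 := by
  have hlen := hr.length_le
  have h1 : (sf1 q r i).length = q.length + i + 1 := by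
    unfold sf1
    rw [List.length_drop]
    omega
  have h2 : sf1 q r i <:+ r := List.drop_suffix _ _
  have h3 : q <:+ (sf1 q r i).tail := by
    refine List.suffix_of_suffix_length_le hr ((List.tail_suffix _).trans h2) ?_
    rw [List.length_tail, h1]
    omega
  exact ⟨h3, h3.trans (List.tail_suffix _), h2, h1⟩

/-- step in the own directions of `b` -/
noncomputable def stb (S : Sys E) (m i : ℕ) (θ x : E) : ℝ :=
  (2:ℝ) ^ (i + 3) * (S.mv.ph m * (1 + |⟪θ, x⟫|))

/-- step in the fibre direction -/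
noncomputable def stf (S : Sys E) (m : ℕ) (θ x : E) : ℝ := 4 * S.mv.ph m * (1 + |⟪θ, x⟫|)

lemma stb_nonneg (i : ℕ) (θ x : E) : 0 ≤ S.stb m i θ x := by
  have := S.mv.ph_nonneg m
  unfold stb
  positivity

/-- points which leave `K` by a rotation by `φ = ± ph m` in the plane `(θ, b r)` -/
theorem RotB.exit_pt (H : S.RotB m q θ b) {r : List ℕ} (hr : q <:+ r) {K K1 : Set E}
    (hK : Convex ℝ K) (hKR : K ⊆ Metric.closedBall 0 S.R) {φ : ℝ} (hφ : |φ| = S.mv.ph m)
    (hK1 : ∀ y ∈ K, y ∉ K1 → rotL θ (b r) φ y ∉ K) {y : E} (hy : y ∈ K) (hy1 : y ∉ K1) :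
    (∃ ε ∈ sg, ∃ a, y ∈ lyd K K1 (la (b r) a) (ε • θ) (4 * S.mv.ph m * 2 ^ a)) ∨
    (∃ i < r.length - q.length, S.bo m b (sf1 q r i) ≠ 0 ∧ ∃ ε ∈ sg,
      y ∈ lyd K K1 univ (ε • nv (S.bo m b (sf1 q r i))) (S.stb m i θ y)) ∨
    (∃ ε ∈ sg, y ∈ lyd K K1 univ (ε • S.bf m b r) (S.stf m θ y)) := by
  have hph := S.mv.ph_nonneg m
  have hyR : ‖y‖ ≤ S.R := by simpa using hKR hy
  have hsmall : |φ| * ‖y‖ ≤ 2 := by
    rw [hφ]
    have h1 := S.hph m
    have h2 := S.hR
    have h3 : (0:ℝ) ≤ (Module.finrank ℝ E : ℝ) := Nat.cast_nonneg _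
    have h4 : S.mv.ph m * S.R ≤ 5 * ((Module.finrank ℝ E : ℝ) + 2) * S.mv.ph m * (S.R + 4) ^ 2 := by
      have h5 : S.R ≤ 5 * ((Module.finrank ℝ E : ℝ) + 2) * (S.R + 4) ^ 2 := by nlinarith
      calc S.mv.ph m * S.R ≤ S.mv.ph m * (5 * ((Module.finrank ℝ E : ℝ) + 2) * (S.R + 4) ^ 2) := by
            gcongr
        _ = _ := by ring
    have h5 : S.mv.ph m * ‖y‖ ≤ S.mv.ph m * S.R := by gcongr
    linarith
  have key := exit_abs hK (H.on r hr) hsmall (r.length - q.length)
    (fun i => S.bo m b (sf1 q r i)) (S.bf m b r)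
    (fun i => norm_bo_le.trans (by
      by_cases hq : q <:+ sf1 q r i
      · exact (H.norm_b hq).le
      · unfold sf1 at hq
        exact absurd (List.suffix_of_suffix_length_le hr (List.drop_suffix _ _) (by
          rw [List.length_drop]; have := hr.length_le; omega)) hq))
    (H.sum_bo hr) hy (hK1 y hy hy1)
  rw [hφ] at key
  rcases key with ⟨ε, hε, h1⟩ | ⟨i, hi, h0, ε, hε, h1⟩ | ⟨ε, hε, h1⟩
  · left
    obtain ⟨a, ha⟩ := exists_la (b r) y
    refine ⟨ε, hε, a, ha, hy, hy1, ?_⟩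
    refine H703.exit_mono hK hy (by positivity) ?_ h1
    have := ha.2.le
    calc 2 * (S.mv.ph m * (1 + |⟪b r, y⟫|)) ≤ 2 * (S.mv.ph m * 2 ^ (a + 1)) := by gcongr
      _ = _ := by rw [pow_succ]; ring
  · right; left
    exact ⟨i, hi, h0, ε, hε, mem_univ _, hy, hy1, h1⟩
  · right; right
    refine ⟨ε, hε, mem_univ _, hy, hy1, ?_⟩
    unfold stf
    rwa [mul_assoc]

end Vale.Agent.P262.M2.Sys

/-! ### the split on the system -/

namespace Vale.Agent.P262.H118

variable {E : Type*} [NormedAddCommGroup E] [InnerProductSpace ℝ E] [FiniteDimensional ℝ E]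
  [MeasurableSpace E] [BorelSpace E]

omit [MeasurableSpace E] [BorelSpace E] in
lemma inner_mix_label {W : Submodule ℝ E} {w : E} (hw : w ∈ W) (x z : E) :
    ⟪w, mix W x z⟫ = ⟪w, x⟫ := by
  unfold mix
  rw [inner_add_right, Submodule.inner_right_of_mem_orthogonal hw
    (Submodule.sub_starProjection_mem_orthogonal z), add_zero]
  have h : ⟪w, x - W.starProjection x⟫ = (0:ℝ) := Submodule.inner_right_of_mem_orthogonal hw
    (Submodule.sub_starProjection_mem_orthogonal x)
  rw [inner_sub_right] at h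
  linarith

/-- comparison on the fibre only -/
lemma fib_mono_fibre {W : Submodule ℝ E} {f g : E → ℝ≥0∞} {x : E}
    (h : ∀ z, f (mix W x z) ≤ g (mix W x z)) : fib W f x ≤ fib W g x :=
  lintegral_mono h

lemma fib_sum_L {ι : Type*} (s : Finset ι) {W : Submodule ℝ E} {f : ι → E → ℝ≥0∞}
    (hf : ∀ i, Measurable (f i)) (x : E) :
    fib W (fun y => ∑ i ∈ s, f i y) x = ∑ i ∈ s, fib W (f i) x := by
  unfold fib
  exact lintegral_finset_sum _ fun i _ => (hf i).comp (H395.measurable_mix_right _ _)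

lemma fib_tsum_L {W : Submodule ℝ E} {f : ℕ → E → ℝ≥0∞}
    (hf : ∀ i, Measurable (f i)) (x : E) :
    fib W (fun y => ∑' i, f i y) x = ∑' i, fib W (f i) x := by
  unfold fib
  exact lintegral_tsum fun i => ((hf i).comp (H395.measurable_mix_right _ _)).aemeasurable

omit [FiniteDimensional ℝ E] [MeasurableSpace E] [BorelSpace E] in
lemma lyd_zero (K K1 L : Set E) (h : ℝ) : lyd K K1 L 0 h = ∅ := by
  ext y
  simp only [lyd, mem_setOf_eq, smul_zero, add_zero, mem_empty_iff_false, iff_false]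
  rintro ⟨-, h1, -, h2⟩
  exact h2 h1

end Vale.Agent.P262.H118

namespace Vale.Agent.P262.M2.Sys

open Vale.Agent.P262.H118 (nv sg la exit_abs exists_la measurableSet_la norm_nv nv_mem la_add
  measurableSet_lyd mem_sg inner_mix_label fib_mono_fibre fib_sum_L fib_tsum_L lyd_zero)

variable {E : Type*} [NormedAddCommGroup E] [InnerProductSpace ℝ E] [FiniteDimensional ℝ E]
  [MeasurableSpace E] [BorelSpace E] {S : Sys E} {m : ℕ} {q : List ℕ} {θ : E} {b : List ℕ → E}

/-- the two bodies of the move `m` (`true` = state `m`, `false` = state `m + 1`) -/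
noncomputable def bd (S : Sys E) (r : List ℕ) (m : ℕ) : Bool → Set E
  | true => S.X r m
  | false => S.X r (m + 1)

lemma convex_bd (r : List ℕ) (m : ℕ) (o : Bool) : Convex ℝ (S.bd r m o) := by
  cases o
  exacts [S.convex_X r (m + 1), S.convex_X r m]

lemma isCompact_bd (r : List ℕ) (m : ℕ) (o : Bool) : IsCompact (S.bd r m o) := by
  cases o
  exacts [S.isCompact_X r (m + 1), S.isCompact_X r m]

lemma measurableSet_bd (r : List ℕ) (m : ℕ) (o : Bool) : MeasurableSet (S.bd r m o) :=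
  (isCompact_bd r m o).measurableSet

lemma bd_subset_ball (r : List ℕ) (m : ℕ) (o : Bool) : S.bd r m o ⊆ Metric.closedBall 0 S.R := by
  cases o
  exacts [S.X_subset_ball r (m + 1), S.X_subset_ball r m]

/-- transport of both bodies -/
lemma mem_bd_tr (hm : S.mv.IsRot m) {s r : List ℕ} (hs : S.mv.jj m <:+ s) (hr : s <:+ r) (o : Bool)
    (x : E) : x ∈ S.bd r m o ↔ S.tr s r m x ∈ S.bd s m o := by
  cases o
  · exact S.mem_X_succ_tr hm hs hr x
  · exact S.mem_X_tr s r m x

lemma tr_lyd_bd (hm : S.mv.IsRot m) {s r : List ℕ} (hs : S.mv.jj m <:+ s) (hr : s <:+ r)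
    {L : Set E} {e : E} (he : e ∈ S.W s m) (h : ℝ) (o : Bool) :
    S.tr s r m ⁻¹' lyd (S.bd s m o) (S.bd s m (!o)) L e h
      = lyd (S.bd r m o) (S.bd r m (!o)) (S.tr s r m ⁻¹' L) e h := by
  cases o
  · exact tr_lyd' hm hs hr he
  · exact tr_lyd hm hs hr he

lemma RotB.bd_leave (H : S.RotB m q θ b) {r : List ℕ} (hr : q <:+ r) (o : Bool) :
    ∃ φ : ℝ, |φ| = S.mv.ph m ∧ ∀ y ∈ S.bd r m o, y ∉ S.bd r m (!o) →
      rotL θ (b r) φ y ∉ S.bd r m o := by
  have hph := S.mv.ph_nonneg m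
  cases o
  · refine ⟨-S.mv.ph m, by rw [abs_neg, abs_of_nonneg hph], fun y _ hy1 hcon => hy1 ?_⟩
    have h1 : rotL θ (b r) (-S.mv.ph m) y ∈ S.X r (m + 1) := hcon
    rw [H.X_succ r hr, mem_preimage, (H.on r hr).rot_rot, add_neg_cancel, H118.ON.rot_zero]
      at h1
    exact h1
  · refine ⟨S.mv.ph m, abs_of_nonneg hph, fun y _ hy1 hcon => hy1 ?_⟩
    show y ∈ S.X r (m + 1)
    rw [H.X_succ r hr]
    exact hcon

/-- **the split at a point** -/
theorem RotB.split_pt (H : S.RotB m q θ b) {r : List ℕ} (hr : q <:+ r) (o : Bool) {y : E}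
    (hy : y ∈ S.bd r m o) (hy1 : y ∉ S.bd r m (!o)) :
    (∃ ε ∈ sg, ∃ a, y ∈ lyd (S.bd r m o) (S.bd r m (!o)) (la (b r) a) (ε • θ)
      (4 * S.mv.ph m * 2 ^ a)) ∨
    (∃ i < r.length - q.length, S.bo m b (sf1 q r i) ≠ 0 ∧ ∃ ε ∈ sg,
      y ∈ lyd (S.bd r m o) (S.bd r m (!o)) univ (ε • nv (S.bo m b (sf1 q r i)))
        (S.stb m i θ y)) ∨
    (∃ ε ∈ sg, y ∈ lyd (S.bd r m o) (S.bd r m (!o)) univ (ε • S.bf m b r) (S.stf m θ y)) := by
  obtain ⟨φ, hφ, hl⟩ := H.bd_leave hr o
  exact H.exit_pt hr (convex_bd r m o) (bd_subset_ball r m o) hφ hl hy hy1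

/-- **the split at a label** -/
theorem RotB.split (H : S.RotB m q θ b) (hm : S.mv.IsRot m) (hq : S.mv.jj m = q) {r : List ℕ}
    (hr : q <:+ r) (x : E) :
    S.Dl r m x ≤ ∑ o : Bool, ∑ ε ∈ sg,
      ((∑' a : ℕ, S.mu q (lyd (S.bd q m o) (S.bd q m (!o)) (la (b q) a) (ε • θ)
          (4 * S.mv.ph m * 2 ^ a)) r m x)
        + (∑ i ∈ Finset.range (r.length - q.length),
            S.mu (sf1 q r i) (lyd (S.bd (sf1 q r i) m o) (S.bd (sf1 q r i) m (!o)) univ
              (ε • nv (S.bo m b (sf1 q r i))) (S.stb m i θ x)) r m x)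
        + fib (S.W r m) ((lyd (S.bd r m o) (S.bd r m (!o)) univ (ε • S.bf m b r)
            (S.stf m θ x)).indicator 1) x) := by
  have hθr : θ ∈ S.W r m := S.W_mono hr m H.mem
  -- the sets in the coordinates of `r`
  set n := r.length - q.length with hn
  let A : Bool → ℝ → ℕ → Set E := fun o ε a =>
    lyd (S.bd r m o) (S.bd r m (!o)) (la (b r) a) (ε • θ) (4 * S.mv.ph m * 2 ^ a)
  let B : Bool → ℝ → ℕ → Set E := fun o ε i =>
    lyd (S.bd r m o) (S.bd r m (!o)) univ (ε • nv (S.bo m b (sf1 q r i))) (S.stb m i θ x)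
  let C : Bool → ℝ → Set E := fun o ε =>
    lyd (S.bd r m o) (S.bd r m (!o)) univ (ε • S.bf m b r) (S.stf m θ x)
  have hA : ∀ o ε a, MeasurableSet (A o ε a) := fun o ε a =>
    measurableSet_lyd (measurableSet_bd _ _ _) (measurableSet_bd _ _ _) (measurableSet_la _ _) _ _
  have hB : ∀ o ε i, MeasurableSet (B o ε i) := fun o ε a =>
    measurableSet_lyd (measurableSet_bd _ _ _) (measurableSet_bd _ _ _) MeasurableSet.univ _ _
  have hC : ∀ o ε, MeasurableSet (C o ε) := fun o ε =>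
    measurableSet_lyd (measurableSet_bd _ _ _) (measurableSet_bd _ _ _) MeasurableSet.univ _ _
  have hAmu : ∀ o ε a, fib (S.W r m) ((A o ε a).indicator 1) x
      = S.mu q (lyd (S.bd q m o) (S.bd q m (!o)) (la (b q) a) (ε • θ)
          (4 * S.mv.ph m * 2 ^ a)) r m x := by
    intro o ε a
    unfold mu
    rw [tr_lyd_bd hm (hq ▸ List.suffix_refl _) hr (Submodule.smul_mem _ _ H.mem),
      H.tr_la (List.suffix_refl _) hr]
  have hBmu : ∀ o ε i, i < n → fib (S.W r m) ((B o ε i).indicator 1) x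
      = S.mu (sf1 q r i) (lyd (S.bd (sf1 q r i) m o) (S.bd (sf1 q r i) m (!o)) univ
              (ε • nv (S.bo m b (sf1 q r i))) (S.stb m i θ x)) r m x := by
    intro o ε i hi
    obtain ⟨-, h2, h3, -⟩ := sf1_facts hr hi
    unfold mu
    rw [tr_lyd_bd hm (hq ▸ h2) h3 (Submodule.smul_mem _ _ (nv_mem bo_mem)), preimage_univ]
  have key : S.Dl r m x ≤ fib (S.W r m) (fun y => ∑ o : Bool, ∑ ε ∈ sg,
      ((∑' a : ℕ, (A o ε a).indicator (1 : E → ℝ≥0∞) y)
        + (∑ i ∈ Finset.range n, (B o ε i).indicator (1 : E → ℝ≥0∞) y)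
        + (C o ε).indicator (1 : E → ℝ≥0∞) y)) x := by
    rw [S.Dl_active (Or.inr hm)]
    refine fib_mono_fibre fun z => ?_
    set y := mix (S.W r m) x z with hy
    have hstb : ∀ i, S.stb m i θ y = S.stb m i θ x := fun i => by
      unfold stb
      rw [hy, inner_mix_label hθr]
    have hstf : S.stf m θ y = S.stf m θ x := by
      unfold stf
      rw [hy, inner_mix_label hθr]
    by_cases hsd : y ∈ symmDiff (S.X r m) (S.X r (m + 1))
    · rw [indicator_of_mem hsd]
      have hex : ∃ o : Bool, y ∈ S.bd r m o ∧ y ∉ S.bd r m (!o) := by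
        rcases hsd with h | h
        exacts [⟨true, h.1, h.2⟩, ⟨false, h.1, h.2⟩]
      obtain ⟨o, ho, ho1⟩ := hex
      refine le_trans ?_ (Finset.single_le_sum (f := fun o : Bool => ∑ ε ∈ sg,
        ((∑' a : ℕ, (A o ε a).indicator (1 : E → ℝ≥0∞) y)
          + (∑ i ∈ Finset.range n, (B o ε i).indicator (1 : E → ℝ≥0∞) y)
          + (C o ε).indicator (1 : E → ℝ≥0∞) y)) (fun _ _ => zero_le) (Finset.mem_univ o))
      rcases H.split_pt hr o ho ho1 with ⟨ε, hε, a, h⟩ | ⟨i, hi, -, ε, hε, h⟩ | ⟨ε, hε, h⟩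
      · refine le_trans ?_ (Finset.single_le_sum (f := fun ε : ℝ =>
          ((∑' a : ℕ, (A o ε a).indicator (1 : E → ℝ≥0∞) y)
            + (∑ i ∈ Finset.range n, (B o ε i).indicator (1 : E → ℝ≥0∞) y)
            + (C o ε).indicator (1 : E → ℝ≥0∞) y)) (fun _ _ => zero_le) hε)
        refine le_trans ?_ (le_self_add.trans le_self_add)
        refine le_trans ?_ (ENNReal.le_tsum a)
        rw [indicator_of_mem (show y ∈ A o ε a from h)]
      · refine le_trans ?_ (Finset.single_le_sum (f := fun ε : ℝ =>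
          ((∑' a : ℕ, (A o ε a).indicator (1 : E → ℝ≥0∞) y)
            + (∑ i ∈ Finset.range n, (B o ε i).indicator (1 : E → ℝ≥0∞) y)
            + (C o ε).indicator (1 : E → ℝ≥0∞) y)) (fun _ _ => zero_le) hε)
        refine le_trans ?_ (le_add_self.trans le_self_add)
        refine le_trans ?_ (Finset.single_le_sum
          (f := fun i : ℕ => (B o ε i).indicator (1 : E → ℝ≥0∞) y)
          (fun _ _ => zero_le) (Finset.mem_range.2 hi))
        rw [hstb] at h
        rw [indicator_of_mem (show y ∈ B o ε i from h)]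
      · refine le_trans ?_ (Finset.single_le_sum (f := fun ε : ℝ =>
          ((∑' a : ℕ, (A o ε a).indicator (1 : E → ℝ≥0∞) y)
            + (∑ i ∈ Finset.range n, (B o ε i).indicator (1 : E → ℝ≥0∞) y)
            + (C o ε).indicator (1 : E → ℝ≥0∞) y)) (fun _ _ => zero_le) hε)
        refine le_trans ?_ le_add_self
        rw [hstf] at h
        rw [indicator_of_mem (show y ∈ C o ε from h)]
    · rw [indicator_of_notMem hsd]
      exact zero_le
  refine key.trans (le_of_eq ?_)
  have m1 : ∀ o ε, Measurable fun y => ∑' a : ℕ, (A o ε a).indicator (1 : E → ℝ≥0∞) y :=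
    fun o ε => Measurable.ennreal_tsum fun a => measurable_one.indicator (hA o ε a)
  have m2 : ∀ o ε, Measurable fun y => ∑ i ∈ Finset.range n,
      (B o ε i).indicator (1 : E → ℝ≥0∞) y :=
    fun o ε => Finset.measurable_sum _ fun i _ => measurable_one.indicator (hB o ε i)
  have m3 : ∀ o ε, Measurable ((C o ε).indicator (1 : E → ℝ≥0∞)) :=
    fun o ε => measurable_one.indicator (hC o ε)
  have m4 : ∀ o ε, Measurable fun y => ((∑' a : ℕ, (A o ε a).indicator (1 : E → ℝ≥0∞) y)
      + (∑ i ∈ Finset.range n, (B o ε i).indicator (1 : E → ℝ≥0∞) y)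
      + (C o ε).indicator (1 : E → ℝ≥0∞) y) :=
    fun o ε => ((m1 o ε).add (m2 o ε)).add (m3 o ε)
  rw [fib_sum_L Finset.univ (f := fun (o : Bool) y => ∑ ε ∈ sg,
    ((∑' a : ℕ, (A o ε a).indicator (1 : E → ℝ≥0∞) y)
      + (∑ i ∈ Finset.range n, (B o ε i).indicator (1 : E → ℝ≥0∞) y)
      + (C o ε).indicator (1 : E → ℝ≥0∞) y))
    (fun o => Finset.measurable_sum _ fun ε _ => m4 o ε) x]
  refine Finset.sum_congr rfl fun o _ => ?_
  rw [fib_sum_L sg (f := fun (ε : ℝ) y =>
    ((∑' a : ℕ, (A o ε a).indicator (1 : E → ℝ≥0∞) y)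
      + (∑ i ∈ Finset.range n, (B o ε i).indicator (1 : E → ℝ≥0∞) y)
      + (C o ε).indicator (1 : E → ℝ≥0∞) y)) (fun ε => m4 o ε) x]
  refine Finset.sum_congr rfl fun ε _ => ?_
  rw [H395.fib_add (f := fun y => (∑' a : ℕ, (A o ε a).indicator (1 : E → ℝ≥0∞) y)
      + (∑ i ∈ Finset.range n, (B o ε i).indicator (1 : E → ℝ≥0∞) y))
      ((m1 o ε).add (m2 o ε)),
    H395.fib_add (f := fun y => ∑' a : ℕ, (A o ε a).indicator (1 : E → ℝ≥0∞) y) (m1 o ε),
    fib_tsum_L (f := fun a => (A o ε a).indicator (1 : E → ℝ≥0∞))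
      (fun a => measurable_one.indicator (hA o ε a)),
    fib_sum_L (Finset.range n) (f := fun i => (B o ε i).indicator (1 : E → ℝ≥0∞))
      (fun i => measurable_one.indicator (hB o ε i))]
  congr 2
  · exact tsum_congr fun a => hAmu o ε a
  · exact Finset.sum_congr rfl fun i hi => hBmu o ε i (Finset.mem_range.1 hi)

end Vale.Agent.P262.M2.Sys
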