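import Vale.Agent.P262.H118.Cut

/-!
# P262, scheme S1: frames (block FRM), part 5: everything inside one fixed space `E`

A node is a subspace `F ≤ E` (the fibre, `F = Wᗮ`, `W` = label space); its words `w t` lie in `F`.
`SlowIn F` = `SlowEx` for the words seen in the type `F`.  Frames, frame paths are isometries of `E`
which fix `Fᗮ` pointwise.
-/

namespace Vale.Agent.P262.H118

open RealInnerProductSpace Module Vale.Agent.P262.H274

variable {E : Type*} [NormedAddCommGroup E] [InnerProductSpace ℝ E]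

/-- product of plane rotations, planes `(θ, b)`, `θ ∈ V`, `b ∈ F`, `b ⟂ V`. -/
inductive PRF (F V : Submodule ℝ E) : (E ≃ₗᵢ[ℝ] E) → ℝ → Prop
  | nil : PRF F V (LinearIsometryEquiv.refl ℝ E) 0
  | cons {θ b : E} (h : ON θ b) (hθ : θ ∈ V) (hb : b ∈ Vᗮ) (hbF : b ∈ F) {φ : ℝ} (h0 : 0 ≤ φ)
      (h1 : φ ≤ Real.pi / 2) {Q : E ≃ₗᵢ[ℝ] E} {α : ℝ} (t : PRF F V Q α) :
      PRF F V (Q.trans (rotE h φ)) (φ + α)

lemma PRF.nonneg {F V : Submodule ℝ E} {Q : E ≃ₗᵢ[ℝ] E} {α : ℝ} (h : PRF F V Q α) : 0 ≤ α := by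
  induction h with
  | nil => exact le_rfl
  | cons _ _ _ _ h0 _ _ ih => exact add_nonneg h0 ih

lemma PRF.trans {F V : Submodule ℝ E} {Q Q' : E ≃ₗᵢ[ℝ] E} {α β : ℝ} (h : PRF F V Q α)
    (h' : PRF F V Q' β) : PRF F V (Q'.trans Q) (α + β) := by
  induction h with
  | nil =>
    rw [zero_add]
    exact h'
  | cons h hθ hb hbF h0 h1 _ ih =>
    rw [add_assoc]
    exact PRF.cons h hθ hb hbF h0 h1 ih

lemma rotL_mem {F : Submodule ℝ E} {θ b : E} (hθ : θ ∈ F) (hb : b ∈ F) (φ : ℝ) {x : E} :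
    rotL θ b φ x ∈ F ↔ x ∈ F := by
  rw [rotL_apply, add_assoc]
  exact F.add_mem_iff_left (F.add_mem (F.smul_mem _ hθ) (F.smul_mem _ hb))

lemma PRF.mem_iff {F V : Submodule ℝ E} {Q : E ≃ₗᵢ[ℝ] E} {α : ℝ} (hV : V ≤ F)
    (h : PRF F V Q α) : ∀ x, Q x ∈ F ↔ x ∈ F := by
  induction h with
  | nil => exact fun x => Iff.rfl
  | cons h hθ hb hbF h0 h1 _ ih => exact fun x => (rotL_mem (hV hθ) hbF _).trans (ih x)

lemma PRF.fix {F V : Submodule ℝ E} {Q : E ≃ₗᵢ[ℝ] E} {α : ℝ} (hV : V ≤ F)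
    (h : PRF F V Q α) : ∀ x ∈ Fᗮ, Q x = x := by
  induction h with
  | nil => exact fun x _ => rfl
  | cons h hθ hb hbF h0 h1 _ ih =>
    intro x hx
    rw [LinearIsometryEquiv.trans_apply, ih x hx, rotE_apply]
    exact rotL_of_perp _ ((Submodule.mem_orthogonal F x).1 hx _ (hV hθ))
      ((Submodule.mem_orthogonal F x).1 hx _ hbF)

/-- pulled back rotation chains inside `F`. -/
lemma prf_of_rotChain {F V V₁ V₂ : Submodule ℝ E} {α : ℝ} (h : RotChain F V₁ V₂ α) :
    ∀ R : E ≃ₗᵢ[ℝ] E, (∀ x, R x ∈ F ↔ x ∈ F) → V₁ = V.map (R.toLinearEquiv : E →ₗ[ℝ] E) → V ≤ F →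
    ∃ Q, PRF F V Q α ∧ V₂ = V.map ((Q.trans R).toLinearEquiv : E →ₗ[ℝ] E) := by
  induction h with
  | nil V₁ => exact fun R _ hR _ => ⟨_, PRF.nil, hR⟩
  | @cons V₁ V₂ V₃ φ α h _ ih =>
    intro R hRF hR hVF
    obtain ⟨θ, b, hON, hθ, hbF, hb, h0, h1, h2⟩ := h
    have hθ' : R.symm θ ∈ V := by
      rw [hR] at hθ
      obtain ⟨x, hx, hxe⟩ := hθ
      have : R.symm θ = x := by
        rw [← hxe]; exact R.symm_apply_apply x
      rw [this]; exact hx
    have hbF' : R.symm b ∈ F := by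
      rw [← hRF, R.apply_symm_apply]; exact hbF
    have hb' : R.symm b ∈ Vᗮ := by
      rw [Submodule.mem_orthogonal]
      intro x hx
      have h3 : ⟪R x, b⟫ = 0 := (Submodule.mem_orthogonal V₁ b).1 hb (R x) (by
        rw [hR]; exact ⟨x, hx, rfl⟩)
      rw [← R.inner_map_map, R.apply_symm_apply]
      exact h3
    have hON' : ON (R.symm θ) (R.symm b) := hON.map R.symm
    have hstep : ∀ x, rotL θ b φ (R x) = R (rotL (R.symm θ) (R.symm b) φ x) := by
      intro x
      have := rotL_map R (R.symm θ) (R.symm b) φ x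
      rwa [R.apply_symm_apply, R.apply_symm_apply] at this
    obtain ⟨Q, hQ, hQV⟩ := ih ((rotE hON' φ).trans R)
      (fun x => (hRF _).trans (rotL_mem (hVF hθ') hbF' φ)) (by
      rw [h2, hR]
      ext y
      constructor
      · rintro ⟨_, ⟨x, hx, rfl⟩, rfl⟩
        exact ⟨x, hx, (hstep x).symm⟩
      · rintro ⟨x, hx, rfl⟩
        exact ⟨R x, ⟨x, hx, rfl⟩, hstep x⟩) hVF
    exact ⟨_, PRF.cons hON' hθ' hb' hbF' h0 h1 hQ, hQV⟩

lemma frame_path_aux' (F : Submodule ℝ E) (W : ℕ → Submodule ℝ E) (α : ℕ → ℝ) (a : ℕ)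
    (h : ∀ t, RotChain F (W (a + t)) (W (a + t + 1)) (α (a + t))) (V : Submodule ℝ E)
    (hVF : V ≤ F) (hV : W a = V) :
    ∃ R : ℕ → (E ≃ₗᵢ[ℝ] E), R 0 = LinearIsometryEquiv.refl ℝ E ∧
      (∀ t, W (a + t) = V.map ((R t).toLinearEquiv : E →ₗ[ℝ] E)) ∧
      (∀ t x, R t x ∈ F ↔ x ∈ F) ∧ (∀ t, ∀ x ∈ Fᗮ, R t x = x) ∧
      ∀ t, ∃ Q, PRF F V Q (α (a + t)) ∧ R (t + 1) = Q.trans (R t) := by
  classical
  let P : ℕ → (E ≃ₗᵢ[ℝ] E) → Prop := fun t R => W (a + t) = V.map (R.toLinearEquiv : E →ₗ[ℝ] E) ∧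
    (∀ x, R x ∈ F ↔ x ∈ F) ∧ ∀ x ∈ Fᗮ, R x = x
  have step : ∀ t R, P t R → ∃ R', P (t + 1) R' ∧ ∃ Q, PRF F V Q (α (a + t)) ∧
      R' = Q.trans R := by
    rintro t R ⟨hR, hRF, hRfix⟩
    obtain ⟨Q, hQ, hQ'⟩ := prf_of_rotChain (h t) R hRF hR hVF
    refine ⟨Q.trans R, ⟨hQ', fun x => (hRF _).trans (hQ.mem_iff hVF x), fun x hx => ?_⟩, Q, hQ,
      rfl⟩
    change R (Q x) = x
    rw [hQ.fix hVF x hx, hRfix x hx]
  let nxt : ℕ → (E ≃ₗᵢ[ℝ] E) → (E ≃ₗᵢ[ℝ] E) := fun t R =>
    if h : P t R then (step t R h).choose else R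
  let R : ℕ → (E ≃ₗᵢ[ℝ] E) := fun t => Nat.rec (LinearIsometryEquiv.refl ℝ E) nxt t
  have hRs : ∀ t, R (t + 1) = nxt t (R t) := fun t => rfl
  have hP : ∀ t, P t (R t) := by
    intro t
    induction t with
    | zero =>
      refine ⟨?_, fun x => Iff.rfl, fun x _ => rfl⟩
      change W (a + 0) = V.map _
      rw [add_zero, hV]
      change V = V.map (LinearMap.id : E →ₗ[ℝ] E)
      rw [Submodule.map_id]
    | succ t ih =>
      rw [hRs]
      simp only [nxt]
      rw [dif_pos ih]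
      exact (step t (R t) ih).choose_spec.1
  refine ⟨R, rfl, fun t => (hP t).1, fun t => (hP t).2.1, fun t => (hP t).2.2, fun t => ?_⟩
  obtain ⟨Q, hQ, hQ'⟩ := (step t (R t) (hP t)).choose_spec.2
  refine ⟨Q, hQ, ?_⟩
  rw [← hQ', hRs]
  simp only [nxt]
  rw [dif_pos (hP t)]

/-- frame path inside `F`. -/
structure FPathIn (F : Submodule ℝ E) (v : ℕ → E) (V : Submodule ℝ E) (a b : ℕ)
    (R : ℕ → (E ≃ₗᵢ[ℝ] E)) (α : ℕ → ℝ) : Prop where
  le : V ≤ F
  start : R a = LinearIsometryEquiv.refl ℝ E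
  memF : ∀ t x, R t x ∈ F ↔ x ∈ F
  fix : ∀ t, ∀ x ∈ Fᗮ, R t x = x
  perp : ∀ t, a ≤ t → t < b → (R t).symm (v t) ∈ Vᗮ
  step : ∀ t, a ≤ t → t + 1 < b → ∃ Q, PRF F V Q (α t) ∧ R (t + 1) = Q.trans (R t)
  nonneg : ∀ t, 0 ≤ α t

lemma FPathIn.mem {F : Submodule ℝ E} {v : ℕ → E} {V : Submodule ℝ E} {a b : ℕ}
    {R : ℕ → (E ≃ₗᵢ[ℝ] E)} {α : ℕ → ℝ} (h : FPathIn F v V a b R α) (t : ℕ) (hv : v t ∈ F) :
    (R t).symm (v t) ∈ F := by
  rw [← h.memF t, (R t).apply_symm_apply]; exact hv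

variable [FiniteDimensional ℝ E]

/-- exactly `k`-slow inside `F`. -/
def SlowIn (F : Submodule ℝ E) (v : ℕ → E) (N : ℝ) (k a b : ℕ) : Prop :=
  ∃ V : ℕ → Submodule ℝ E, (∀ t, V t ≤ F) ∧ (∀ t, finrank ℝ (V t) = k) ∧
    ∑ t ∈ Finset.Ico a b, (‖(V t).starProjection (v t)‖ +
      ‖(V (t + 1)).starProjection - (V t).starProjection‖) ≤ N

lemma starProjection_map_subtype {F : Submodule ℝ E} (V : Submodule ℝ F) (x : F) :
    (V.map F.subtype).starProjection (x : E) = ((V.starProjection x : F) : E) := by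
  have := LinearIsometry.map_starProjection (F.subtypeₗᵢ) V x
  exact this.symm

/-- words in the type `F` versus words in `E`. -/
theorem slowIn_of_slowEx {F : Submodule ℝ E} {w : ℕ → F} {N : ℝ} {k a b : ℕ}
    (h : SlowEx w N k a b) : SlowIn F (fun t => (w t : E)) N k a b := by
  obtain ⟨V, hV, hs⟩ := h
  refine ⟨fun t => (V t).map F.subtype, fun t => Submodule.map_subtype_le F (V t), fun t => ?_,
    le_trans (Finset.sum_le_sum fun t _ => ?_) hs⟩
  · rw [← hV t]
    exact Submodule.finrank_map_subtype_eq F (V t)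
  · refine add_le_add (le_of_eq ?_) ?_
    · rw [starProjection_map_subtype]; rfl
    · refine ContinuousLinearMap.opNorm_le_bound _ (norm_nonneg _) fun x => ?_
      have h1 : ∀ U : Submodule ℝ F, (U.map F.subtype).starProjection x =
          ((U.starProjection (F.orthogonalProjectionOnto x) : F) : E) := by
        intro U
        have h2 := Submodule.starProjection_comp_starProjection_of_le
          (Submodule.map_subtype_le F U)
        rw [← starProjection_map_subtype]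
        exact (congrArg (fun f => f x) h2).symm
      rw [_root_.sub_apply, h1, h1, ← Submodule.coe_sub, ← _root_.sub_apply]
      refine (ContinuousLinearMap.le_opNorm ((V (t + 1)).starProjection - (V t).starProjection)
        (F.orthogonalProjectionOnto x)).trans ?_
      gcongr
      exact F.norm_orthogonalProjectionOnto_apply_le x

/-- **Frame path of a slow piece inside `F`.** -/
theorem frame_path_in {F : Submodule ℝ E} {v : ℕ → E} {N δ : ℝ} {k a b : ℕ} (hab : a < b)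
    (hδ : 0 < δ) (hδ1 : δ ≤ 1) (hvF : ∀ t, v t ∈ F) (hv : ∀ t, a ≤ t → t < b → ‖v t‖ = δ)
    (hk : k < finrank ℝ F) (h : SlowIn F v N k a b) :
    ∃ (V : Submodule ℝ E) (R : ℕ → (E ≃ₗᵢ[ℝ] E)) (α : ℕ → ℝ), finrank ℝ V = k ∧
      FPathIn F v V a b R α ∧
      ∑ t ∈ Finset.Ico a b, α t ≤ Real.pi * 3 ^ k * N / δ := by
  classical
  obtain ⟨V, hVF, hV, hs⟩ := h
  have hpi := Real.pi_pos
  have hlt : ∀ t, V t < F := fun t => by
    refine lt_of_le_of_ne (hVF t) fun h0 => ?_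
    have := hV t
    rw [h0] at this
    omega
  choose β W hβ hWv hβv using fun t => align' (hlt t) (hvF t)
  have hWF : ∀ t, W t ≤ F := fun t => (hβ t).le (hVF t)
  have hrot : ∀ t, ∃ γ, RotChain F (V t) (V (t + 1)) γ ∧
      γ ≤ Real.pi / 4 * (3 ^ k - 1) * ‖(V (t + 1)).starProjection - (V t).starProjection‖ :=
    fun t => rot_chain_norm (hVF t) (hVF (t + 1)) (hV t) (hV (t + 1)) le_rfl
  choose γ hγ hγle using hrot
  let W' : ℕ → Submodule ℝ E := fun t => W (min t (b - 1))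
  let α : ℕ → ℝ := fun t => if t + 1 < b then β t + γ t + β (t + 1) else 0
  have hβ0 : ∀ t, 0 ≤ β t := fun t => (hβ t).nonneg
  have hγ0 : ∀ t, 0 ≤ γ t := fun t => (hγ t).nonneg
  have hα0 : ∀ t, 0 ≤ α t := by
    intro t
    simp only [α]
    split_ifs
    · have := hβ0 t; have := hγ0 t; have := hβ0 (t + 1); positivity
    · exact le_rfl
  have hchain : ∀ t, RotChain F (W' (a + t)) (W' (a + t + 1)) (α (a + t)) := by
    intro t
    simp only [W', α]
    split_ifs with hlt'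
    · rw [min_eq_left (by omega), min_eq_left (by omega)]
      exact (((hβ (a + t)).symm (hVF _)).trans (hγ (a + t))).trans (hβ (a + t + 1))
    · rw [min_eq_right (by omega), min_eq_right (by omega)]
      exact RotChain.nil _
  obtain ⟨R, hR0, hRW, hRF, hRfix, hRs⟩ := frame_path_aux' F W' α a hchain (W' a) (hWF _) rfl
  refine ⟨W' a, fun t => R (t - a), α, ?_, ⟨hWF _, ?_, fun t => hRF _, fun t => hRfix _, ?_, ?_,
    hα0⟩, ?_⟩
  · simp only [W']
    rw [(hβ _).finrank, hV]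
  · simp only [Nat.sub_self]; exact hR0
  · intro t hat htb
    have h1 : W' (a + (t - a)) = W t := by
      simp only [W']
      congr 1
      omega
    rw [Submodule.mem_orthogonal]
    intro x hx
    have h2 : (R (t - a)) x ∈ W t := by
      rw [← h1, hRW]
      exact ⟨x, hx, rfl⟩
    have h3 : ⟪R (t - a) x, v t⟫ = 0 := (Submodule.mem_orthogonal (W t) _).1 (hWv t) _ h2
    rw [← (R (t - a)).inner_map_map, (R (t - a)).apply_symm_apply]
    exact h3
  · intro t hat htb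
    obtain ⟨Q, hQ, hQR⟩ := hRs (t - a)
    have h1 : a + (t - a) = t := by omega
    rw [h1] at hQ
    refine ⟨Q, hQ, ?_⟩
    have h2 : t + 1 - a = t - a + 1 := by omega
    change R (t + 1 - a) = Q.trans (R (t - a))
    rw [h2]; exact hQR
  · have hβle : ∀ t, a ≤ t → t < b → β t ≤ Real.pi / (2 * δ) * ‖(V t).starProjection (v t)‖ := by
      intro t h1 h2
      have h3 := hβv t
      rw [hv t h1 h2] at h3
      rw [div_mul_eq_mul_div, le_div_iff₀ (by positivity)]
      linarith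
    have hsum : ∑ t ∈ Finset.Ico a b, α t
        ≤ ∑ t ∈ Finset.Ico a b, (2 * β t) + ∑ t ∈ Finset.Ico a b, γ t := by
      have h1 : ∑ t ∈ Finset.Ico a b, α t
          ≤ ∑ t ∈ Finset.Ico a (b - 1), (β t + γ t + β (t + 1)) := by
        have : ∑ t ∈ Finset.Ico a b, α t = ∑ t ∈ Finset.Ico a (b - 1), α t := by
          have hb : b = (b - 1) + 1 := by omega
          conv_lhs => rw [hb]
          rw [Finset.sum_Ico_succ_top (by omega)]
          simp only [α]
          rw [if_neg (by omega), add_zero]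
        rw [this]
        refine Finset.sum_le_sum fun t ht => ?_
        rw [Finset.mem_Ico] at ht
        simp only [α]
        rw [if_pos (by omega)]
      refine h1.trans ?_
      rw [Finset.sum_add_distrib, Finset.sum_add_distrib]
      have h2 : ∑ t ∈ Finset.Ico a (b - 1), β t ≤ ∑ t ∈ Finset.Ico a b, β t :=
        Finset.sum_le_sum_of_subset_of_nonneg (Finset.Ico_subset_Ico_right (by omega))
          fun t _ _ => hβ0 t
      have h3 : ∑ t ∈ Finset.Ico a (b - 1), β (t + 1) ≤ ∑ t ∈ Finset.Ico a b, β t := by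
        rw [Finset.sum_Ico_add' β a (b - 1) 1]
        exact Finset.sum_le_sum_of_subset_of_nonneg (Finset.Ico_subset_Ico (by omega) (by omega))
          fun t _ _ => hβ0 t
      have h4 : ∑ t ∈ Finset.Ico a (b - 1), γ t ≤ ∑ t ∈ Finset.Ico a b, γ t :=
        Finset.sum_le_sum_of_subset_of_nonneg (Finset.Ico_subset_Ico_right (by omega))
          fun t _ _ => hγ0 t
      rw [← Finset.mul_sum]
      linarith
    refine hsum.trans ?_
    rw [← Finset.sum_add_distrib]
    have h3k : (1 : ℝ) ≤ 3 ^ k := one_le_pow₀ (by norm_num)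
    calc ∑ t ∈ Finset.Ico a b, (2 * β t + γ t)
        ≤ ∑ t ∈ Finset.Ico a b, Real.pi * 3 ^ k / δ * (‖(V t).starProjection (v t)‖ +
          ‖(V (t + 1)).starProjection - (V t).starProjection‖) := by
          refine Finset.sum_le_sum fun t ht => ?_
          rw [Finset.mem_Ico] at ht
          rw [mul_add]
          refine add_le_add ?_ ?_
          · have h5 := hβle t ht.1 ht.2
            have h6 : 2 * (Real.pi / (2 * δ) * ‖(V t).starProjection (v t)‖)
                = Real.pi * 1 / δ * ‖(V t).starProjection (v t)‖ := by field_simp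
            calc 2 * β t ≤ 2 * (Real.pi / (2 * δ) * ‖(V t).starProjection (v t)‖) := by linarith
              _ = Real.pi * 1 / δ * ‖(V t).starProjection (v t)‖ := h6
              _ ≤ Real.pi * 3 ^ k / δ * ‖(V t).starProjection (v t)‖ := by gcongr
          · refine (hγle t).trans ?_
            refine mul_le_mul_of_nonneg_right ?_ (norm_nonneg _)
            rw [le_div_iff₀ hδ]
            have h7 : Real.pi / 4 * (3 ^ k - 1) * δ ≤ Real.pi / 4 * (3 ^ k - 1) * 1 :=
              mul_le_mul_of_nonneg_left hδ1 (mul_nonneg (by positivity) (by linarith))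
            nlinarith
      _ = Real.pi * 3 ^ k / δ * ∑ t ∈ Finset.Ico a b, (‖(V t).starProjection (v t)‖ +
          ‖(V (t + 1)).starProjection - (V t).starProjection‖) := by rw [Finset.mul_sum]
      _ ≤ Real.pi * 3 ^ k / δ * N := by gcongr
      _ = Real.pi * 3 ^ k * N / δ := by ring

end Vale.Agent.P262.H118
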