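import Vale.Agent.P262.M1.Blocks
import Vale.Agent.P262.H118.Bod
import Vale.Agent.P262.H359.Top

/-!
# P262, milestone 1: geometry of the bodies `X i m` of a system (helper716's `Sys`)
-/

open MeasureTheory ProbabilityTheory Set
open scoped ENNReal RealInnerProductSpace
open Vale.Agent.P262.H118 (L Iv st en ONB K1 rotE ON tau wrd L_mono)
open Vale.Agent.P262.H395 (fib mix Inv Fixes)

namespace Vale.Agent.P262.M1

variable {E : Type*} [NormedAddCommGroup E] [InnerProductSpace ℝ E] [FiniteDimensional ℝ E]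

/-! ### the bodies -/

omit [FiniteDimensional ℝ E] in
lemma body_subset (v : ℕ → E) (R : ℝ) (t : ℕ) : body v R t ⊆ Metric.closedBall 0 R := by
  cases t with
  | zero => exact subset_rfl
  | succ t => exact inter_subset_right

omit [FiniteDimensional ℝ E] in
lemma convex_body (v : ℕ → E) (R : ℝ) (t : ℕ) : Convex ℝ (body v R t) := by
  induction t with
  | zero => exact convex_closedBall 0 R
  | succ t ih => exact (H703.convex_star ih _).inter (convex_closedBall 0 R)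

lemma isCompact_body (v : ℕ → E) (R : ℝ) (t : ℕ) : IsCompact (body v R t) := by
  induction t with
  | zero => exact isCompact_closedBall 0 R
  | succ t ih => exact (isCompact_closedBall 0 R).inter_left (H359.isClosed_star ih _)

lemma isClosed_body (v : ℕ → E) (R : ℝ) (t : ℕ) : IsClosed (body v R t) :=
  (isCompact_body v R t).isClosed

omit [FiniteDimensional ℝ E] in
lemma neg_mem_body (v : ℕ → E) (R : ℝ) (t : ℕ) : ∀ x ∈ body v R t, -x ∈ body v R t := by
  have hB : ∀ x ∈ Metric.closedBall (0 : E) R, -x ∈ Metric.closedBall (0 : E) R := by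
    intro x hx
    simpa using hx
  induction t with
  | zero => exact hB
  | succ t ih => exact fun x hx => ⟨H359.neg_mem_star ih _ x hx.1, hB x hx.2⟩

variable [MeasurableSpace E] [BorelSpace E]

lemma measurableSet_body (v : ℕ → E) (R : ℝ) (t : ℕ) : MeasurableSet (body v R t) :=
  (isClosed_body v R t).measurableSet

namespace Sys

variable (S : Sys E)

/-! ### time -/

lemma tm_spec (m : ℕ) : S.el.n (S.tm m) ≤ m ∧ m < S.el.n (S.tm m + 1) :=
  H118.tau_spec S.el.n_zero S.el.n_lt m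

lemma tm_eq {m t : ℕ} (h1 : S.el.n t ≤ m) (h2 : m < S.el.n (t + 1)) : S.tm m = t :=
  H118.tau_eq S.el.n_zero S.el.n_lt h1 h2

lemma tm_n (t : ℕ) : S.tm (S.el.n t) = t := S.tm_eq le_rfl (S.el.n_lt t)

lemma n_strictMono : StrictMono S.el.n := strictMono_nat_of_lt_succ S.el.n_lt

lemma tm_mono : Monotone S.tm := by
  intro m m' h
  have h1 := S.tm_spec m
  have h2 := S.tm_spec m'
  have h3 : S.tm m < S.tm m' + 1 := S.n_strictMono.lt_iff_lt.1 (h1.1.trans_lt (h.trans_lt h2.2))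
  omega

lemma isStar_iff {m : ℕ} : S.IsStar m ↔ ∃ t, m = S.el.n t := by
  constructor
  · exact fun h => ⟨_, h⟩
  · rintro ⟨t, rfl⟩
    unfold IsStar
    rw [S.tm_n]

/-- every move is a star, a rotation or a reopening. -/
lemma cases_move (m : ℕ) : S.IsStar m ∨ S.IsRot m ∨ S.IsRe m := by
  have h := S.tm_spec m
  unfold IsStar IsRot IsRe
  omega

lemma IsRot.not_star {m : ℕ} (h : S.IsRot m) : ¬ S.IsStar m := by
  unfold IsRot IsStar at *
  omega

lemma IsRe.not_star {m : ℕ} (h : S.IsRe m) : ¬ S.IsStar m := by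
  have := S.el.n_succ (S.tm m)
  unfold IsRe IsStar at *
  omega

lemma IsRot.not_re {m : ℕ} (h : S.IsRot m) : ¬ S.IsRe m := by
  unfold IsRot IsRe at *
  omega

/-- time of the next state. -/
lemma tm_succ_star {m : ℕ} (h : S.IsStar m) : S.tm (m + 1) = S.tm m := by
  have h1 := S.tm_spec m
  have h2 := S.el.n_succ (S.tm m)
  unfold IsStar at h
  exact S.tm_eq (by omega) (by omega)

lemma tm_succ_rot {m : ℕ} (h : S.IsRot m) : S.tm (m + 1) = S.tm m := S.tm_eq (by
  have := h.1; omega) h.2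

lemma tm_succ_re {m : ℕ} (h : S.IsRe m) : S.tm (m + 1) = S.tm m + 1 := by
  rw [h, S.tm_n]

lemma tm_lt_of_lt {m : ℕ} (h : m < S.mT) : S.tm m < S.T := by
  have h1 := S.tm_spec m
  unfold mT at h
  exact S.n_strictMono.lt_iff_lt.1 (h1.1.trans_lt (by omega))

lemma tm_lt_of_le {m : ℕ} (h : m ≤ S.mT) : S.tm m < S.T := by
  have h1 := S.tm_spec m
  have h2 : 0 < S.el.n S.T := by
    have := S.n_strictMono S.hT
    omega
  unfold mT at h
  exact S.n_strictMono.lt_iff_lt.1 (h1.1.trans_lt (by omega))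

/-- a reopening before the end leads to a step before `T`. -/
lemma tm_re_lt {m : ℕ} (h : S.IsRe m) (hm : m < S.mT) : S.tm m + 1 < S.T := by
  unfold mT IsRe at *
  exact S.n_strictMono.lt_iff_lt.1 (by omega)

lemma tm_mT : S.tm S.mT = S.T - 1 := by
  have hT := S.hT
  have h1 : S.T - 1 + 1 = S.T := by omega
  have h2 := S.el.n_succ (S.T - 1)
  rw [h1] at h2
  refine S.tm_eq ?_ ?_
  · unfold mT; omega
  · rw [h1]; unfold mT; omega

/-! ### bodies -/

lemma Kb_eq (m : ℕ) : S.Kb m = S.el.Kb (body S.v S.R) m := by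
  unfold Kb cnt IsStar tm H118.Elem.Kb
  split_ifs <;> rfl

lemma X_eq (i m : ℕ) : S.X i m = S.el.Bd (body S.v S.R) i m := by
  unfold X H118.Elem.Bd
  rw [S.Kb_eq]

lemma isClosed_X (i m : ℕ) : IsClosed (S.X i m) := by
  rw [X_eq]; exact S.el.isClosed_Bd (isClosed_body S.v S.R) i m

lemma convex_X (i m : ℕ) : Convex ℝ (S.X i m) := by
  rw [X_eq]; exact S.el.convex_Bd (convex_body S.v S.R) i m

lemma neg_mem_X (i m : ℕ) : ∀ x ∈ S.X i m, -x ∈ S.X i m := by
  rw [X_eq]; exact S.el.neg_mem_Bd (neg_mem_body S.v S.R) i m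

lemma X_subset_ball (i m : ℕ) : S.X i m ⊆ Metric.closedBall 0 S.R := by
  rw [X_eq]; exact S.el.Bd_subset_ball (body_subset S.v S.R) i m

lemma isCompact_X (i m : ℕ) : IsCompact (S.X i m) :=
  (isCompact_closedBall 0 S.R).of_isClosed_subset (S.isClosed_X i m) (S.X_subset_ball i m)

lemma measurableSet_X (i m : ℕ) : MeasurableSet (S.X i m) := (S.isClosed_X i m).measurableSet

lemma X_zero (m : ℕ) : S.X 0 m = S.Kb m := rfl

lemma cnt_star {m : ℕ} (h : S.IsStar m) : S.cnt m = S.tm m := by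
  unfold cnt; rw [if_pos h]

lemma cnt_not_star {m : ℕ} (h : ¬ S.IsStar m) : S.cnt m = S.tm m + 1 := by
  unfold cnt; rw [if_neg h]

/-! ### star moves -/

lemma U_star {m : ℕ} (h : S.IsStar m) (i : ℕ) : S.el.U i (m + 1) = S.el.U i m := by
  unfold IsStar at h
  rw [h]
  exact S.el.U_star _ i

lemma U_at_star {m : ℕ} (h : S.IsStar m) (hm : m < S.mT) (i : ℕ) :
    S.el.U i m = S.K.S i (S.tm m) := by
  have := S.el.U_start (S.tm_lt_of_lt hm) i
  unfold IsStar at h
  rwa [← h] at this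

/-- the word of level `i` at the star move `m`. -/
noncomputable def word (i m : ℕ) : E := wrd S.v (S.K.S i) (S.tm m)

lemma word_eq {m : ℕ} (h : S.IsStar m) (hm : m < S.mT) (i : ℕ) :
    S.word i m = (S.el.U i m).symm (S.v (S.tm m)) := by
  rw [S.U_at_star h hm]; rfl

lemma norm_word {m : ℕ} (hm : m < S.mT) (i : ℕ) : ‖S.word i m‖ = S.δ := by
  unfold word wrd
  rw [LinearIsometryEquiv.norm_map, S.hv _ (S.tm_lt_of_lt hm)]

lemma word_mem {m : ℕ} (hm : m < S.mT) {i : ℕ} (hi : i < S.d) : S.word i m ∈ (L S.f i)ᗮ :=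
  S.K.perp i hi _ (S.tm_lt_of_lt hm)

theorem X_star {m : ℕ} (h : S.IsStar m) (hm : m < S.mT) (i : ℕ) :
    S.X i (m + 1) = H493.star (S.X i m) (S.word i m) ∩ Metric.closedBall 0 S.R := by
  have h1 := S.el.Bd_star (Kt := body S.v S.R) (R := S.R) (S.tm_lt_of_lt hm) rfl i
  rw [X_eq, X_eq]
  unfold IsStar at h
  rw [← h] at h1
  exact h1

/-! ### rotations -/

lemma rot_data {m : ℕ} (h : S.IsRot m) : S.tm m + 1 < S.T ∧ S.el.jj m + 1 < S.d ∧
    S.tm m + 1 ∉ S.K.nw (S.el.jj m + 1) := (S.el.rot (S.tm m) m h.1 h.2).2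

lemma rot_angle {m : ℕ} (h : S.IsRot m) : 0 ≤ S.el.ph m ∧ S.el.ph m ≤ Real.pi / 2 := by
  obtain ⟨b, hb, -, h0, h1, -⟩ := (S.el.rot (S.tm m) m h.1 h.2).1
  exact ⟨h0, h1⟩

lemma rot_survive {m : ℕ} (h : S.IsRot m) {i : ℕ} (hi : i ≤ S.el.jj m + 1) :
    S.tm m + 1 ∉ S.K.nw i := S.el.rot_survive h.1 h.2 hi

lemma U_rot_le {m : ℕ} (h : S.IsRot m) {i : ℕ} (hi : i ≤ S.el.jj m) :
    S.el.U i (m + 1) = S.el.U i m := S.el.U_rot_le h.1 h.2 hi

theorem X_rot_le {m : ℕ} (h : S.IsRot m) {i : ℕ} (hi : i ≤ S.el.jj m) :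
    S.X i (m + 1) = S.X i m := by
  rw [X_eq, X_eq]; exact S.el.Bd_rot_le h.1 h.2 hi

/-- rotations seen by the levels `i > j = jj m`: the body of level `i` is rotated in a plane
`(f j, b)`, `b ⟂ L f (j+1)`. -/
theorem X_rot_gt {m : ℕ} (h : S.IsRot m) {i : ℕ} (hi : S.el.jj m < i) :
    ∃ (b : E) (hb : ON (S.f (S.el.jj m)) b), b ∈ (L S.f (S.el.jj m + 1))ᗮ ∧
      S.el.U i (m + 1) = (rotE hb (S.el.ph m)).trans (S.el.U i m) ∧
      S.X i (m + 1) = (fun x => rotE hb (S.el.ph m) x) ⁻¹' (S.X i m) := by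
  obtain ⟨b, hb, hbL, hU⟩ := S.el.U_rot_gt h.1 h.2 hi
  refine ⟨b, hb, hbL, hU, ?_⟩
  rw [X_eq, X_eq]
  unfold H118.Elem.Bd
  rw [hU, S.el.Kb_after _ (by have := h.1; omega) h.2, S.el.Kb_after _ h.1 (by have := h.2; omega)]
  rfl

/-! ### reopenings -/

lemma U_re {m : ℕ} (h : S.IsRe m) (hm : m < S.mT) {i : ℕ} (hi : i < S.d)
    (hs : S.tm m + 1 ∉ S.K.nw i) : S.el.U i (m + 1) = S.el.U i m := by
  have h1 := S.el.U_reopen (S.tm_re_lt h hm) hi hs
  unfold IsRe at h
  rw [h, h1]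
  congr 1
  omega

theorem X_re {m : ℕ} (h : S.IsRe m) (hm : m < S.mT) {i : ℕ} (hi : i < S.d)
    (hs : S.tm m + 1 ∉ S.K.nw i) : S.X i (m + 1) = S.X i m := by
  have h1 := S.el.Bd_reopen (Kt := body S.v S.R) (S.tm_re_lt h hm) hi hs
  rw [X_eq, X_eq]
  unfold IsRe at h
  rw [h, h1]
  congr 1
  omega

/-- the body in original coordinates does not change at a rotation or a reopening. -/
lemma Kb_succ {m : ℕ} (h : ¬ S.IsStar m) : S.Kb (m + 1) = S.Kb m := by
  unfold Kb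
  congr 1
  rw [S.cnt_not_star h]
  rcases S.cases_move m with h1 | h1 | h1
  · exact absurd h1 h
  · have h2 : ¬ S.IsStar (m + 1) := by
      rw [S.isStar_iff]
      rintro ⟨t, ht⟩
      have h3 := S.tm_succ_rot h1
      rw [ht, S.tm_n] at h3
      subst h3
      unfold IsRot at h1
      omega
    rw [S.cnt_not_star h2, S.tm_succ_rot h1]
  · have h2 : S.IsStar (m + 1) := by
      rw [S.isStar_iff]; exact ⟨_, h1⟩
    rw [S.cnt_star h2, S.tm_succ_re h1]

/-! ### change of coordinates -/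

/-- one isometry relates the coordinates of level `i` and `l ≤ i` at two states whose vectors
agree at the levels `l ≤ k < i`. -/
theorem exists_change2 {m m' l i : ℕ} (hli : l ≤ i)
    (h : ∀ k, l ≤ k → k < i → S.el.Q m k = S.el.Q m' k) :
    ∃ C : E ≃ₗᵢ[ℝ] E, Fixes C (L S.f l) ∧ S.el.U i m = C.trans (S.el.U l m) ∧
      S.el.U i m' = C.trans (S.el.U l m') := by
  induction i, hli using Nat.le_induction with
  | base => exact ⟨LinearIsometryEquiv.refl ℝ E, Fixes.refl _, by ext x; rfl, by ext x; rfl⟩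
  | succ i hli ih =>
    obtain ⟨C, hC, hU, hU'⟩ := ih fun k h1 h2 => h k h1 (by omega)
    refine ⟨(S.el.Q m i).trans C, ?_, ?_, ?_⟩
    · exact Fixes.trans (fun w hw => S.el.fix m i w (L_mono S.f hli hw)) hC
    · rw [S.el.U_succ, hU]
      ext x; rfl
    · rw [S.el.U_succ, hU', ← h i hli (Nat.lt_succ_self i)]
      ext x; rfl

/-- the same for the bodies. -/
theorem X_change2 {m m' l i : ℕ} (hli : l ≤ i)
    (h : ∀ k, l ≤ k → k < i → S.el.Q m k = S.el.Q m' k) :
    ∃ C : E ≃ₗᵢ[ℝ] E, Fixes C (L S.f l) ∧ S.X i m = (fun x => C x) ⁻¹' (S.X l m) ∧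
      S.X i m' = (fun x => C x) ⁻¹' (S.X l m') := by
  obtain ⟨C, hC, hU, hU'⟩ := S.exists_change2 hli h
  refine ⟨C, hC, ?_, ?_⟩
  · unfold X; rw [hU]; rfl
  · unfold X; rw [hU']; rfl

theorem X_change (m : ℕ) {l i : ℕ} (hli : l ≤ i) :
    ∃ C : E ≃ₗᵢ[ℝ] E, Fixes C (L S.f l) ∧ S.X i m = (fun x => C x) ⁻¹' (S.X l m) := by
  obtain ⟨C, hC, h1, -⟩ := S.X_change2 (m := m) (m' := m) hli fun _ _ _ => rfl
  exact ⟨C, hC, h1⟩

lemma Q_star {m : ℕ} (h : S.IsStar m) : S.el.Q (m + 1) = S.el.Q m := by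
  unfold IsStar at h
  rw [h]
  exact S.el.star _

lemma Q_rot {m : ℕ} (h : S.IsRot m) {k : ℕ} (hk : k ≠ S.el.jj m) :
    S.el.Q (m + 1) k = S.el.Q m k := by
  obtain ⟨b, hb, -, -, -, h1⟩ := (S.el.rot (S.tm m) m h.1 h.2).1
  rw [h1, Function.update_of_ne hk]

/-- a move `m` seen from level `l` as an outer move: a star, or a rotation with `jj m < l`. -/
def Out (l m : ℕ) : Prop := S.IsStar m ∨ (S.IsRot m ∧ S.el.jj m < l)

lemma Out.Q {l m : ℕ} (h : S.Out l m) {k : ℕ} (hk : l ≤ k) : S.el.Q m k = S.el.Q (m + 1) k := by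
  rcases h with h | ⟨h, hj⟩
  · rw [S.Q_star h]
  · rw [S.Q_rot h (by omega)]

/-! ### fibre averages -/

/-- averages over a label of level `l` in the coordinates of level `i ≥ l`. -/
theorem fib_X (m : ℕ) {l i : ℕ} (hli : l ≤ i) (x : E) :
    fib (L S.f l) ((S.X i m).indicator 1) x = fib (L S.f l) ((S.X l m).indicator 1) x := by
  rw [X_eq, X_eq]; exact S.el.fib_Bd (measurableSet_body S.v S.R) m hli x

theorem De_eq (m : ℕ) {l i : ℕ} (hli : l ≤ i) (x : E) :
    S.De l m x = fib (L S.f l) ((S.X i m)ᶜ.indicator 1) x := by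
  unfold De
  rw [X_eq, X_eq, S.el.fib_Bd_compl (measurableSet_body S.v S.R) m hli x]

/-- outer moves: the intersection in deeper coordinates. -/
theorem Dc_eq {m l : ℕ} (h : S.Out l m) {i : ℕ} (hli : l ≤ i) (x : E) :
    S.Dc l m x = fib (L S.f l) ((S.X i m ∩ S.X i (m + 1))ᶜ.indicator 1) x := by
  obtain ⟨C, hC, h1, h2⟩ := S.X_change2 (m := m) (m' := m + 1) hli fun k hk _ => h.Q S hk
  unfold Dc
  rw [h1, h2, ← preimage_inter, ← preimage_compl]
  rw [← H395.fib_fixes hC (measurable_one.indicator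
    ((S.measurableSet_X l m).inter (S.measurableSet_X l (m + 1))).compl) x]
  rfl

theorem Dl_eq {m l : ℕ} (h : S.Out l m) {i : ℕ} (hli : l ≤ i) (x : E) :
    S.Dl l m x = fib (L S.f l) ((symmDiff (S.X i m) (S.X i (m + 1))).indicator 1) x := by
  obtain ⟨C, hC, h1, h2⟩ := S.X_change2 (m := m) (m' := m + 1) hli fun k hk _ => h.Q S hk
  have h3 : symmDiff (S.X i m) (S.X i (m + 1)) =
      (fun x => C x) ⁻¹' (symmDiff (S.X l m) (S.X l (m + 1))) := by
    rw [h1, h2, Set.symmDiff_def, Set.symmDiff_def]; rfl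
  unfold Dl
  rw [h3, ← H395.fib_fixes hC (measurable_one.indicator
    ((S.measurableSet_X l m).symmDiff (S.measurableSet_X l (m + 1)))) x]
  rfl

/-- inner moves do not change the body of a label. -/
theorem Dc_eq_De {m l : ℕ} (h : S.X l (m + 1) = S.X l m) (x : E) : S.Dc l m x = S.De l m x := by
  unfold Dc De
  rw [h, inter_self]

theorem Dl_eq_zero {m l : ℕ} (h : S.X l (m + 1) = S.X l m) (x : E) : S.Dl l m x = 0 := by
  unfold Dl
  rw [h, symmDiff_self]
  have : ((⊥ : Set E).indicator (1 : E → ℝ≥0∞)) = fun _ => 0 := by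
    ext y; simp
  rw [this]
  unfold fib
  simp

/-- weights depending on the labels of level `l` and payoffs in deeper coordinates. -/
theorem lintegral_X {g : E → ℝ≥0∞} {l i : ℕ} (hg : Inv (L S.f l) g) (hgm : Measurable g)
    (m : ℕ) (hli : l ≤ i) :
    ∫⁻ x, g x * (S.X i m).indicator 1 x ∂stdGaussian E
      = ∫⁻ x, g x * (S.X l m).indicator 1 x ∂stdGaussian E := by
  rw [X_eq, X_eq]; exact S.el.lintegral_Bd hg hgm (measurableSet_body S.v S.R) m hli

end Sys

end Vale.Agent.P262.M1
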