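import Vale.Agent.P262.H118.K1

/-!
# P262, milestone 2: hierarchical windows (block FRM)

`Mg S s e`: `[s, e)` is not `1`-slow and consists of a minimal not slow interval followed by a slow
(possibly empty) remainder.  `windows`: nested partitions `B 0 ⊆ B 1 ⊆ ...` of `[a, b)`; every
interval of `B c` is `Mg (S c)`, or it is the whole `[a, b)` and slow.
-/

namespace Vale.Agent.P262.H118

open RealInnerProductSpace Module Vale.Agent.P262.H274

/-- a merged block. -/
def Mg (S : ℕ → ℕ → Prop) (s e : ℕ) : Prop :=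
  ¬ S s e ∧ ∃ m, s < m ∧ m ≤ e ∧ MinNS S s m ∧ (m < e → S m e)

/-- cut of a not slow interval into merged blocks. -/
lemma exists_mergeCut {S : ℕ → ℕ → Prop} (e : ℕ) : ∀ (n s : ℕ), e - s = n → s < e → ¬ S s e →
    ∃ C : Set ℕ, s ∈ C ∧ (∀ t ∈ C, s ≤ t ∧ t < e) ∧ ∀ s' e', Iv C e s' e' → Mg S s' e' := by
  intro n
  induction n using Nat.strong_induction_on with
  | _ n ih =>
  intro s hn hse hS
  obtain ⟨m, hsm, hme, hm⟩ := first_block (S := S) hse
  have hm' : MinNS S s m := by
    rcases hm with h | ⟨rfl, h⟩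
    · exact h
    · exact absurd h hS
  by_cases h2 : m < e ∧ ¬ S m e
  · obtain ⟨C, hC1, hC2, hC3⟩ := ih (e - m) (by omega) m rfl h2.1 h2.2
    refine ⟨insert s C, Set.mem_insert _ _, ?_, ?_⟩
    · rintro t (rfl | ht)
      · exact ⟨le_rfl, hse⟩
      · have := hC2 t ht
        exact ⟨by omega, this.2⟩
    · rintro s' e' ⟨h3, h4, h5, h6, h7⟩
      rcases h3 with rfl | h3
      · -- `[s, m)`
        have he' : e' = m := by
          rcases lt_trichotomy e' m with h | h | h
          · exfalso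
            rcases h6 with (h6 | h6) | h6
            · omega
            · have := hC2 e' h6; omega
            · omega
          · exact h
          · exact absurd (Set.mem_insert_of_mem _ hC1) (h7 m hsm h)
        subst he'
        exact ⟨hm'.1, e', h4, le_rfl, hm', fun h => absurd h (lt_irrefl _)⟩
      · refine hC3 s' e' ⟨h3, h4, h5, ?_, fun r hr1 hr2 hr3 =>
          h7 r hr1 hr2 (Set.mem_insert_of_mem _ hr3)⟩
        rcases h6 with (h6 | h6) | h6
        · have := hC2 s' h3; omega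
        · exact Or.inl h6
        · exact Or.inr h6
  · refine ⟨{s}, rfl, ?_, ?_⟩
    · rintro t rfl; exact ⟨le_rfl, hse⟩
    · rintro s' e' ⟨rfl, h4, h5, h6, h7⟩
      have he' : e' = e := by
        rcases h6 with h6 | h6
        · have : e' = s' := h6
          omega
        · exact h6
      subst he'
      refine ⟨hS, m, hsm, hme, hm', fun h => ?_⟩
      by_contra hcon
      exact h2 ⟨h, hcon⟩

/-- **Hierarchical windows.** -/
theorem windows {S : ℕ → ℕ → ℕ → Prop} (hdec : ∀ c s e, S (c + 1) s e → S c s e) {a b : ℕ}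
    (hab : a < b) :
    ∃ B : ℕ → Set ℕ, (∀ c, a ∈ B c) ∧ (∀ c, B c ⊆ B (c + 1)) ∧ (∀ c, ∀ t ∈ B c, a ≤ t ∧ t < b) ∧
      ∀ c s e, Iv (B c) b s e → Mg (S c) s e ∨ (s = a ∧ e = b ∧ S c a b) := by
  classical
  -- refinement of one partition
  have hcut : ∀ c s e, ∃ C : Set ℕ, s < e → (s ∈ C ∧ (∀ t ∈ C, s ≤ t ∧ t < e) ∧
      ∀ s' e', Iv C e s' e' → Mg (S c) s' e' ∨ (s' = s ∧ e' = e ∧ S c s e)) := by
    intro c s e
    by_cases hse : s < e
    swap
    · exact ⟨∅, fun h => absurd h hse⟩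
    by_cases hS : S c s e
    · refine ⟨{s}, fun _ => ⟨rfl, ?_, ?_⟩⟩
      · rintro t rfl; exact ⟨le_rfl, hse⟩
      · rintro s' e' ⟨rfl, h4, h5, h6, h7⟩
        have he' : e' = e := by
          rcases h6 with h6 | h6
          · have : e' = s' := h6
            omega
          · exact h6
        exact Or.inr ⟨rfl, he', hS⟩
    · obtain ⟨C, h1, h2, h3⟩ := exists_mergeCut e (e - s) s rfl hse hS
      exact ⟨C, fun _ => ⟨h1, h2, fun s' e' h => Or.inl (h3 s' e' h)⟩⟩
  choose C hC using hcut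
  let B : ℕ → Set ℕ := fun c => Nat.rec (C 0 a b)
    (fun c B => {t | ∃ s e, Iv B b s e ∧ t ∈ C (c + 1) s e}) c
  have hB0 : B 0 = C 0 a b := rfl
  have hBs : ∀ c, B (c + 1) = {t | ∃ s e, Iv (B c) b s e ∧ t ∈ C (c + 1) s e} := fun _ => rfl
  have hsub : ∀ c, B c ⊆ B (c + 1) := by
    intro c s hs
    by_cases hsb : s < b
    · have hiv := iv_en hs hsb
      exact ⟨s, en (B c) b s, hiv, (hC (c + 1) s (en (B c) b s) hiv.2.1).1⟩
    · exfalso
      revert hs
      have : ∀ c, ∀ t ∈ B c, t < b := by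
        intro c
        induction c with
        | zero => exact fun t ht => ((hC 0 a b hab).2.1 t ht).2
        | succ c _ =>
          rintro t ⟨s, e, h1, h2⟩
          have := ((hC (c + 1) s e h1.2.1).2.1 t h2).2
          have := h1.2.2.1
          omega
      exact fun hs => hsb (this c s hs)
  have hmem : ∀ c, a ∈ B c := by
    intro c
    induction c with
    | zero => exact (hC 0 a b hab).1
    | succ c ih => exact hsub c ih
  have hrange : ∀ c, ∀ t ∈ B c, a ≤ t ∧ t < b := by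
    intro c
    induction c with
    | zero => exact (hC 0 a b hab).2.1
    | succ c ih =>
      rintro t ⟨s, e, h1, h2⟩
      have h3 := (hC (c + 1) s e h1.2.1).2.1 t h2
      have h4 := h1.2.2.1
      have h5 := ih s h1.1
      omega
  refine ⟨B, hmem, hsub, hrange, ?_⟩
  intro c
  induction c with
  | zero => exact (hC 0 a b hab).2.2
  | succ c ih =>
    intro s' e' h
    obtain ⟨⟨s, e, h1, h2⟩, h3, h4, h5, h6⟩ := h
    have h7 := (hC (c + 1) s e h1.2.1).2.1 s' h2
    -- `[s', e')` lies in `[s, e)`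
    have he'e : e' ≤ e := by
      by_contra hcon
      push Not at hcon
      rcases h1.2.2.2.1 with h8 | h8
      · exact h6 e (by omega) hcon (hsub c h8)
      · omega
    have h9 : Iv (C (c + 1) s e) e s' e' := by
      refine ⟨h2, h3, he'e, ?_, fun r hr1 hr2 hr3 => h6 r hr1 hr2 ⟨s, e, h1, hr3⟩⟩
      rcases he'e.eq_or_lt with h8 | h8
      · exact Or.inr h8
      · rcases h5 with ⟨s₂, e₂, h10, h11⟩ | h5
        · left
          have h12 := (hC (c + 1) s₂ e₂ h10.2.1).2.1 e' h11
          have := h1.unique h10 (t := e') (by omega) h8 h12.1 h12.2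
          rw [this.1, this.2]; exact h11
        · have := h1.2.2.1
          omega
    rcases (hC (c + 1) s e h1.2.1).2.2 s' e' h9 with h8 | ⟨h8, h10, h11⟩
    · exact Or.inl h8
    · subst h8; subst h10
      rcases ih s' e' h1 with h12 | ⟨h12, h13, h14⟩
      · exact absurd (hdec c _ _ h11) h12.1
      · right
        refine ⟨h12, h13, ?_⟩
        rw [h12, h13] at h11
        exact h11

variable {ρ : ℝ} {E : Type*} [NormedAddCommGroup E] [InnerProductSpace ℝ E] [FiniteDimensional ℝ E]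

/-- pieces of any interval with `Cost < 1`. -/
theorem pieces_of_cost (v : ℕ → E) {N : ℝ} (hN : 0 ≤ N) (hρ0 : 0 < ρ)
    (hρ1 : ρ ≤ 1) {a b : ℕ} (hab : a < b) (hv : ∀ t, a ≤ t → t < b → N < ‖v t‖)
    (hC : Cost (Slow v N) ρ a b < 1) :
    ∃ c ≤ Cost (Slow v N) ρ a b, HasCost (Piece v N) ρ a b c := by
  have hs := slow_step v hN
  have hb : ∀ k a b, Slow v N k a b → k ≤ finrank ℝ E := fun _ _ _ h => h.le_finrank
  have hat := cost_attained (ρ := ρ) hb hs hab.le
  refine HasCost.imp hρ0.le ?_ hat hC le_rfl le_rfl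
  intro k a' b' hlo hab' hhi hS hlt
  obtain ⟨j, hj, hSj⟩ := hS
  have hk1 : 1 ≤ k := by
    rcases Nat.eq_zero_or_pos k with rfl | h
    · simp at hlt
    · exact h
  have hjd : j < finrank ℝ E := by
    by_contra hcon
    exact not_slowEx_finrank hab' (hv a' hlo (by omega)) (by omega) hSj
  exact ⟨j, ⟨by omega, hjd, hSj⟩, pow_le_pow_of_le_one hρ0.le hρ1 hj⟩

/-- the price of a merged block. -/
theorem cost_merged (v : ℕ → E) {N : ℝ} (hN : 0 ≤ N) (h2 : 2 ≤ finrank ℝ E) (hρ0 : 0 < ρ)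
    (hρ1 : ρ < 1 / 2) {s e : ℕ} (hv : ∀ t, s ≤ t → t < e → N < ‖v t‖)
    (h : Mg (Slow v N 1) s e) : Cost (Slow v N) ρ s e ≤ 3 * ρ := by
  obtain ⟨-, m, hsm, hme, hm, hr⟩ := h
  have h1 := (pieces v hN h2 hρ0 hρ1 hsm (fun t h3 h4 => hv t h3 (by omega))
    (fun h => Or.inl (hm.2 h))).1
  rcases hme.eq_or_lt with rfl | hlt
  · linarith
  · have h3 := cost_subadd (S := Slow v N) hρ0.le (slow_step v hN) hsm.le hme
    have h4 := cost_le_pow (S := Slow v N) hρ0.le hlt (hr hlt)
    rw [pow_one] at h4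
    linarith

lemma Slow.mono_N {v : ℕ → E} {N N' : ℝ} {k a b : ℕ} (h : Slow v N k a b) (hN : N ≤ N') :
    Slow v N' k a b := by
  obtain ⟨j, hj, h⟩ := h
  exact ⟨j, hj, h.mono_right hN⟩

end Vale.Agent.P262.H118
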